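import Crest.Agent.R187.Defs

set_option autoImplicit false
open MvPolynomial Crest.AlgebraR.FoulkesHowe Module

namespace Crest.Agent.R187

variable {n : ℕ} {V W : Type} [NormedAddCommGroup V] [InnerProductSpace ℂ V] [FiniteDimensional ℂ V]
  [NormedAddCommGroup W] [InnerProductSpace ℂ W] [FiniteDimensional ℂ W]

namespace Abs1Aux

omit [FiniteDimensional ℂ V]

theorem mem_wsp {R : GRep n V} {μ : Fin n →₀ ℕ} {x : V} :
    x ∈ R.wsp μ ↔ ∀ i, R.E i i x = (μ i : ℂ) • x := by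
  simp only [GRep.wsp, Submodule.mem_iInf, Module.End.mem_eigenspace_iff]

theorem mem_hwv {R : GRep n V} {μ : Fin n →₀ ℕ} {x : V} :
    x ∈ R.hwv μ ↔ x ∈ R.wsp μ ∧ ∀ i j, i < j → R.E i j x = 0 := by
  simp only [GRep.hwv, Submodule.mem_inf, Submodule.mem_iInf, LinearMap.mem_ker]

theorem comm_apply (R : GRep n V) (i j k l : Fin n) (x : V) :
    R.E i j (R.E k l x) = R.E k l (R.E i j x) +
      ((if j = k then R.E i l x else 0) - (if l = i then R.E k j x else 0)) := by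
  have h := congrArg (fun T : Module.End ℂ V => T x) (R.comm i j k l)
  simp only [LinearMap.sub_apply, Module.End.mul_apply] at h
  rw [sub_eq_iff_eq_add'] at h
  rw [h]
  congr 2 <;> split_ifs <;> rfl

theorem wsp_of_eigen (R : GRep n V) {x : V} (hx : x ≠ 0) {c : Fin n → ℂ}
    (hc : ∀ k, R.E k k x = c k • x) : ∃ ν : Fin n →₀ ℕ, (∀ k, (ν k : ℂ) = c k) ∧ x ∈ R.wsp ν := by
  choose m hm using fun k => R.nat k (c k) x hx (hc k)
  refine ⟨Finsupp.equivFunOnFinite.symm m, fun k => (hm k).symm, mem_wsp.2 fun k => ?_⟩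
  rw [hc k, hm k]
  rfl

theorem eigen_shift (R : GRep n V) {μ : Fin n →₀ ℕ} {x : V} (hx : x ∈ R.wsp μ) (i j k : Fin n) :
    R.E k k (R.E i j x) =
      ((μ k : ℂ) + ((if k = i then 1 else 0) - (if k = j then 1 else 0))) • R.E i j x := by
  rw [comm_apply, mem_wsp.1 hx k, map_smul, add_smul, sub_smul]
  congr 2
  · split_ifs with h
    · rw [h, one_smul]
    · rw [zero_smul]
  · by_cases h : k = j
    · rw [if_pos h.symm, if_pos h, h, one_smul]
    · rw [if_neg (Ne.symm h), if_neg h, zero_smul]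

theorem inner_wsp (R : GRep n V) {μ ν : Fin n →₀ ℕ} (h : μ ≠ ν) {x y : V} (hx : x ∈ R.wsp μ)
    (hy : y ∈ R.wsp ν) : inner ℂ x y = 0 := by
  obtain ⟨i, hi⟩ : ∃ i, μ i ≠ ν i := by
    by_contra hc
    push Not at hc
    exact h (Finsupp.ext hc)
  have h1 := R.adj i i x y
  rw [mem_wsp.1 hx, mem_wsp.1 hy, inner_smul_left, inner_smul_right, Complex.conj_natCast,
    ← sub_eq_zero, ← sub_mul] at h1
  refine (mul_eq_zero.1 h1).resolve_left fun e => hi ?_
  exact_mod_cast sub_eq_zero.1 e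

theorem sum_wsp_eq_zero (R : GRep n V) (s : Finset (Fin n →₀ ℕ)) (f : (Fin n →₀ ℕ) → V)
    (hf : ∀ μ, f μ ∈ R.wsp μ) (h : ∑ μ ∈ s, f μ = 0) : ∀ μ ∈ s, f μ = 0 := by
  intro μ hμ
  have h1 : inner ℂ (f μ) (∑ ν ∈ s, f ν) = 0 := by rw [h, inner_zero_right]
  rw [inner_sum, Finset.sum_eq_single_of_mem μ hμ
    fun ν _ hν => inner_wsp R hν.symm (hf μ) (hf ν)] at h1
  exact inner_self_eq_zero.1 h1

theorem orth_stable (R : GRep n V) {U : Submodule ℂ V} (hs : ∀ i j, ∀ x ∈ U, R.E i j x ∈ U) :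
    ∀ i j, ∀ x ∈ Uᗮ, R.E i j x ∈ Uᗮ := by
  intro i j x hx
  rw [Submodule.mem_orthogonal] at hx ⊢
  intro u hu
  rw [← R.adj]
  exact hx _ (hs j i u hu)

/-- restriction to a stable subspace -/
theorem exists_restrict (R : GRep n V) (U : Submodule ℂ V)
    (hs : ∀ i j, ∀ x ∈ U, R.E i j x ∈ U) :
    ∃ R' : GRep n U, ∀ i j (x : U), (R'.E i j x : V) = R.E i j x := by
  refine ⟨⟨fun i j => (R.E i j).restrict (hs i j), fun i j k l => ?_, fun i j x y => ?_,
    fun i c x hx h => ?_, R.D, fun x => ?_⟩, fun _ _ _ => rfl⟩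
  · ext x
    have h := comm_apply R i j k l x
    rw [← sub_eq_iff_eq_add'] at h
    change R.E i j (R.E k l x) - R.E k l (R.E i j x) = _
    rw [h]
    simp only [LinearMap.sub_apply, Submodule.coe_sub]
    congr 1 <;> split_ifs <;> rfl
  · exact R.adj i j x y
  · exact R.nat i c x (fun e => hx (Subtype.ext e)) (congrArg Subtype.val h)
  · apply Subtype.ext
    rw [Submodule.coe_sum]
    exact R.deg x

/-- a vector killed by the raising operators is orthogonal to the images of the lowering ones -/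
theorem eq_zero_of_low (R : GRep n V) {x : V} (hx : ∀ i j, i < j → R.E i j x = 0)
    (hl : x ∈ ⨆ (i : Fin n) (j : Fin n) (_ : j < i), LinearMap.range (R.E i j)) : x = 0 := by
  have h1 : (⨆ (i : Fin n) (j : Fin n) (_ : j < i), LinearMap.range (R.E i j)) ≤ (ℂ ∙ x)ᗮ := by
    refine iSup_le fun i => iSup_le fun j => iSup_le fun hij => ?_
    rintro _ ⟨y, rfl⟩
    rw [Submodule.mem_orthogonal_singleton_iff_inner_right, ← R.adj, hx j i hij, inner_zero_left]
  exact inner_self_eq_zero.1 (Submodule.mem_orthogonal_singleton_iff_inner_right.1 (h1 hl))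

end Abs1Aux

open Abs1Aux

theorem GRep.iSup_wsp (R : GRep n V) : ⨆ μ, R.wsp μ = ⊤ := by
  have h := LinearMap.IsSymmetric.iSup_iInf_eq_top_of_commute (T := fun i => R.E i i)
    (fun i x y => R.adj i i x y) (fun i j hij => by
      have h := R.comm i i j j
      rw [if_neg hij, if_neg hij.symm, sub_zero, sub_eq_zero] at h
      exact h)
  rw [eq_top_iff, ← h]
  refine iSup_le fun χ x hx => ?_
  by_cases h0 : x = 0
  · rw [h0]; exact Submodule.zero_mem _
  · simp only [Submodule.mem_iInf, Module.End.mem_eigenspace_iff] at hx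
    obtain ⟨ν, -, hν⟩ := wsp_of_eigen R h0 hx
    exact Submodule.mem_iSup_of_mem ν hν

theorem GRep.hwv_antitone (R : GRep n V) (μ : Fin n →₀ ℕ) (h : R.hwv μ ≠ ⊥) : Antitone μ := by
  obtain ⟨x, hx, hx0⟩ := Submodule.exists_mem_ne_zero_of_ne_bot h
  obtain ⟨h1, h2⟩ := mem_hwv.1 hx
  intro i j hij
  rcases hij.eq_or_lt with rfl | hij
  · exact le_rfl
  have h3 := R.adj j i x (R.E j i x)
  rw [comm_apply, h2 i j hij, map_zero, zero_add, if_pos rfl, if_pos rfl, mem_wsp.1 h1,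
    mem_wsp.1 h1, ← sub_smul, inner_smul_right, inner_self_eq_norm_sq_to_K,
    inner_self_eq_norm_sq_to_K] at h3
  have h4 : ‖R.E j i x‖ ^ 2 = ((μ i : ℝ) - μ j) * ‖x‖ ^ 2 := by
    apply Complex.ofReal_injective
    push_cast
    exact h3
  have h5 : 0 < ‖x‖ ^ 2 := by positivity
  have h6 : (0 : ℝ) ≤ (μ i : ℝ) - μ j := by
    by_contra hc
    have := mul_neg_of_neg_of_pos (not_le.1 hc) h5
    have := sq_nonneg ‖R.E j i x‖
    linarith
  exact_mod_cast sub_nonneg.1 h6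

/-- a nonzero subspace stable under all `E i j` contains a nonzero highest weight vector -/
theorem GRep.exists_hwv (R : GRep n V) (U : Submodule ℂ V) (hU : U ≠ ⊥)
    (hs : ∀ i j, ∀ x ∈ U, R.E i j x ∈ U) : ∃ μ, ∃ x ∈ U, x ≠ 0 ∧ x ∈ R.hwv μ := by
  classical
  have hex : ∃ m : ℕ, ∃ μ : Fin n →₀ ℕ, ∃ x ∈ U, x ≠ 0 ∧ x ∈ R.wsp μ ∧
      ∑ k : Fin n, (k : ℕ) * μ k = m := by
    obtain ⟨R', hR'⟩ := exists_restrict R U hs
    have h1 := R'.iSup_wsp
    by_contra hc
    have h2 : ∀ μ, R'.wsp μ = ⊥ := fun μ => by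
      rw [eq_bot_iff]
      intro x hx
      by_contra hx0
      refine hc ⟨_, μ, x, x.2, fun e => hx0 (Subtype.ext e), mem_wsp.2 fun i => ?_, rfl⟩
      rw [← hR', mem_wsp.1 hx i]
      rfl
    simp only [h2, iSup_bot] at h1
    refine hU (eq_bot_iff.2 fun x hx => ?_)
    have : (⟨x, hx⟩ : U) ∈ (⊥ : Submodule ℂ U) := h1 ▸ Submodule.mem_top
    exact congrArg Subtype.val ((Submodule.mem_bot ℂ).1 this)
  obtain ⟨μ, x, hxU, hx0, hx, hm⟩ := Nat.find_spec hex
  refine ⟨μ, x, hxU, hx0, mem_hwv.2 ⟨hx, fun i j hij => ?_⟩⟩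
  by_contra hy
  obtain ⟨ν, hν, hy'⟩ := wsp_of_eigen R hy (eigen_shift R hx i j)
  have h1 := Nat.find_min' hex ⟨ν, _, hs i j x hxU, hy, hy', rfl⟩
  have h2 : ((∑ k : Fin n, (k : ℕ) * ν k : ℕ) : ℂ) + (j : ℕ) =
      ((∑ k : Fin n, (k : ℕ) * μ k : ℕ) : ℂ) + (i : ℕ) := by
    push_cast
    simp only [hν, mul_add, mul_sub, Finset.sum_add_distrib, Finset.sum_sub_distrib, mul_ite,
      mul_one, mul_zero, Finset.sum_ite_eq', Finset.mem_univ, if_true]
    ring
  have h3 : (∑ k : Fin n, (k : ℕ) * ν k) + (j : ℕ) = (∑ k : Fin n, (k : ℕ) * μ k) + (i : ℕ) := by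
    exact_mod_cast h2
  have h4 : (i : ℕ) < j := hij
  omega

theorem GRep.exists_inj (R : GRep n V) (S : GRep n W)
    (h : ∀ μ, finrank ℂ (R.hwv μ) ≤ finrank ℂ (S.hwv μ)) :
    ∃ φ : V →ₗ[ℂ] W, Function.Injective φ ∧ ∀ i j x, φ (R.E i j x) = S.E i j (φ x) := by
  classical
  choose ι hι using fun μ => finrank_le_iff_exists_linearMap.1 (h μ)
  -- the diagonal action
  let F : Fin n → Fin n → Module.End ℂ (V × W) := fun i j => (R.E i j).prodMap (S.E i j)
  have hF : ∀ i j (p : V × W), F i j p = (R.E i j p.1, S.E i j p.2) := fun _ _ _ => rfl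
  have hFc : ∀ i j k l (p : V × W), F i j (F k l p) = F k l (F i j p) +
      ((if j = k then F i l p else 0) - (if l = i then F k j p else 0)) := by
    intro i j k l p
    ext
    · simp only [hF, Prod.fst_add, Prod.fst_sub]
      rw [comm_apply]
      congr 2 <;> split_ifs <;> rfl
    · simp only [hF, Prod.snd_add, Prod.snd_sub]
      rw [comm_apply]
      congr 2 <;> split_ifs <;> rfl
  -- the graphs of the injections
  let g : ∀ μ, R.hwv μ →ₗ[ℂ] V × W := fun μ =>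
    (R.hwv μ).subtype.prod ((S.hwv μ).subtype.comp (ι μ))
  have hg : ∀ μ v, g μ v = ((v : V), (ι μ v : W)) := fun _ _ => rfl
  let H : Submodule ℂ (V × W) := ⨆ μ, LinearMap.range (g μ)
  have hH : ∀ p ∈ H, (p.1 = 0 ∨ p.2 = 0) → p = 0 := by
    intro p hp h0
    obtain ⟨f, hf, rfl⟩ := (Submodule.mem_iSup_iff_exists_finsupp _ _).1 hp
    choose v hv using hf
    have hz : ∀ μ ∈ f.support, v μ = 0 := by
      rcases h0 with h0 | h0
      · have h1 : ∑ μ ∈ f.support, (v μ : V) = 0 := by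
          rw [← h0, Finsupp.sum, Prod.fst_sum]
          exact Finset.sum_congr rfl fun μ _ => by rw [← hv μ]; rfl
        exact fun μ hμ => Subtype.ext
          (sum_wsp_eq_zero R _ _ (fun μ => (mem_hwv.1 (v μ).2).1) h1 μ hμ)
      · have h1 : ∑ μ ∈ f.support, (ι μ (v μ) : W) = 0 := by
          rw [← h0, Finsupp.sum, Prod.snd_sum]
          exact Finset.sum_congr rfl fun μ _ => by rw [← hv μ]; rfl
        intro μ hμ
        apply hι μ
        rw [map_zero]
        exact Subtype.ext (sum_wsp_eq_zero S _ _ (fun μ => (mem_hwv.1 (ι μ (v μ)).2).1) h1 μ hμ)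
    exact Finset.sum_eq_zero fun μ hμ => by rw [← hv μ, hz μ hμ, map_zero]
  have hHr : ∀ i j, i < j → ∀ p ∈ H, F i j p = 0 := by
    intro i j hij
    change H ≤ LinearMap.ker (F i j)
    refine iSup_le fun μ => ?_
    rintro _ ⟨v, rfl⟩
    rw [LinearMap.mem_ker, hg, hF, (mem_hwv.1 v.2).2 i j hij, (mem_hwv.1 (ι μ v).2).2 i j hij]
    rfl
  have hHd : ∀ i, ∀ p ∈ H, F i i p ∈ H := by
    intro i
    change H ≤ H.comap (F i i)
    refine iSup_le fun μ => ?_
    rintro _ ⟨v, rfl⟩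
    have e : F i i (g μ v) = (μ i : ℂ) • g μ v := by
      rw [hg, hF, mem_wsp.1 (mem_hwv.1 v.2).1, mem_wsp.1 (mem_hwv.1 (ι μ v).2).1]
      rfl
    rw [Submodule.mem_comap, e]
    exact Submodule.smul_mem _ _ (Submodule.mem_iSup_of_mem μ ⟨v, rfl⟩)
  -- the closure under lowering operators
  let G : Submodule ℂ (V × W) := sInf {U | H ≤ U ∧ ∀ i j, j < i → ∀ p ∈ U, F i j p ∈ U}
  have hHG : H ≤ G := le_sInf fun U hU => hU.1
  have hGl : ∀ i j, j < i → ∀ p ∈ G, F i j p ∈ G := fun i j hij p hp =>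
    Submodule.mem_sInf.2 fun U hU => hU.2 i j hij p (Submodule.mem_sInf.1 hp U hU)
  have hGle : ∀ U : Submodule ℂ (V × W), H ≤ U → (∀ i j, j < i → ∀ p ∈ U, F i j p ∈ U) → G ≤ U :=
    fun U h1 h2 => sInf_le ⟨h1, h2⟩
  have hGs : ∀ i j, ∀ p ∈ G, F i j p ∈ G := by
    have key : G ≤ G ⊓ ⨅ (i : Fin n) (j : Fin n), G.comap (F i j) := by
      refine hGle _ (le_inf hHG (le_iInf fun i => le_iInf fun j p hp => ?_)) ?_
      · rw [Submodule.mem_comap]
        rcases lt_trichotomy i j with hij | rfl | hij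
        · rw [hHr i j hij p hp]; exact G.zero_mem
        · exact hHG (hHd i p hp)
        · exact hGl i j hij p (hHG hp)
      · intro k l hkl p hp
        simp only [Submodule.mem_inf, Submodule.mem_iInf, Submodule.mem_comap] at hp ⊢
        refine ⟨hp.2 k l, fun i j => ?_⟩
        rw [hFc]
        refine G.add_mem (hGl k l hkl _ (hp.2 i j)) (G.sub_mem ?_ ?_)
        · split_ifs
          exacts [hp.2 _ _, G.zero_mem]
        · split_ifs
          exacts [hp.2 _ _, G.zero_mem]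
    intro i j p hp
    have := key hp
    simp only [Submodule.mem_inf, Submodule.mem_iInf, Submodule.mem_comap] at this
    exact this.2 i j
  let LR : Submodule ℂ V := ⨆ (i : Fin n) (j : Fin n) (_ : j < i), LinearMap.range (R.E i j)
  let LS : Submodule ℂ W := ⨆ (i : Fin n) (j : Fin n) (_ : j < i), LinearMap.range (S.E i j)
  have hGH : ∀ p ∈ G, (∀ i j, i < j → F i j p = 0) → p ∈ H := by
    intro p hp hr
    have h1 : G ≤ H ⊔ LR.prod LS := by
      refine hGle _ le_sup_left fun i j hij q _ => Submodule.mem_sup_right ⟨?_, ?_⟩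
      · exact Submodule.mem_iSup_of_mem i (Submodule.mem_iSup_of_mem j
          (Submodule.mem_iSup_of_mem hij ⟨q.1, rfl⟩))
      · exact Submodule.mem_iSup_of_mem i (Submodule.mem_iSup_of_mem j
          (Submodule.mem_iSup_of_mem hij ⟨q.2, rfl⟩))
    obtain ⟨a, ha, l, hl, rfl⟩ := Submodule.mem_sup.1 (h1 hp)
    have h2 : ∀ i j, i < j → F i j l = 0 := fun i j hij => by
      have := hr i j hij
      rwa [map_add, hHr i j hij a ha, zero_add] at this
    have h3 : l = 0 := Prod.ext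
      (eq_zero_of_low R (fun i j hij => congrArg Prod.fst (h2 i j hij)) hl.1)
      (eq_zero_of_low S (fun i j hij => congrArg Prod.snd (h2 i j hij)) hl.2)
    rw [h3, add_zero]
    exact ha
  have hG1 : ∀ w : W, ((0 : V), w) ∈ G → w = 0 := by
    intro w hw
    by_contra hw0
    obtain ⟨μ, x, hx, hx0, hx'⟩ := S.exists_hwv (G.comap (LinearMap.inr ℂ V W))
      (fun e => hw0 ((Submodule.mem_bot ℂ).1 (e ▸ hw))) fun i j x hx => by
        have := hGs i j _ hx
        rw [hF] at this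
        simpa using this
    have h1 := hGH _ hx fun i j hij => by
      rw [hF]
      simp [(mem_hwv.1 hx').2 i j hij]
    exact hx0 (congrArg Prod.snd (hH _ h1 (Or.inl rfl)))
  have hG2 : ∀ v : V, (v, (0 : W)) ∈ G → v = 0 := by
    intro v hv
    by_contra hv0
    obtain ⟨μ, x, hx, hx0, hx'⟩ := R.exists_hwv (G.comap (LinearMap.inl ℂ V W))
      (fun e => hv0 ((Submodule.mem_bot ℂ).1 (e ▸ hv))) fun i j x hx => by
        have := hGs i j _ hx
        rw [hF] at this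
        simpa using this
    have h1 := hGH _ hx fun i j hij => by
      rw [hF]
      simp [(mem_hwv.1 hx').2 i j hij]
    exact hx0 (congrArg Prod.fst (hH _ h1 (Or.inr rfl)))
  have hG3 : G.map (LinearMap.fst ℂ V W) = ⊤ := by
    rw [← Submodule.orthogonal_eq_bot_iff]
    by_contra hc
    obtain ⟨μ, x, hx, hx0, hx'⟩ := R.exists_hwv _ hc (orth_stable R (by
      rintro i j _ ⟨p, hp, rfl⟩
      exact ⟨_, hGs i j p hp, rfl⟩))
    refine hx0 (inner_self_eq_zero.1 (hx x ?_))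
    exact ⟨g μ ⟨x, hx'⟩, hHG (Submodule.mem_iSup_of_mem μ ⟨_, rfl⟩), rfl⟩
  obtain ⟨φ, hφ⟩ := Submodule.exists_eq_graph (G := G) ⟨fun p q hpq => by
      have h1 : (p : V × W).1 = (q : V × W).1 := hpq
      have h2 := hG1 ((p : V × W).2 - (q : V × W).2) (by
        have := G.sub_mem p.2 q.2
        rwa [← sub_self (q : V × W).1, ← Prod.mk_sub_mk, ← h1, Prod.mk.eta, h1, Prod.mk.eta])
      exact Subtype.ext (Prod.ext h1 (sub_eq_zero.1 h2)), fun v => by
      obtain ⟨p, hp, e⟩ := (hG3 ▸ Submodule.mem_top : v ∈ G.map (LinearMap.fst ℂ V W))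
      exact ⟨⟨p, hp⟩, e⟩⟩
  have hm : ∀ p : V × W, p ∈ G ↔ p.2 = φ p.1 := fun p => by rw [hφ, LinearMap.mem_graph_iff]
  refine ⟨φ, (injective_iff_map_eq_zero φ).2 fun v hv => hG2 v ((hm _).2 hv.symm),
    fun i j x => ?_⟩
  exact ((hm _).1 (hGs i j (x, φ x) ((hm _).2 rfl))).symm

theorem GRep.hwv_le_of_surj (R : GRep n V) (S : GRep n W) (ψ : W →ₗ[ℂ] V)
    (hs : Function.Surjective ψ) (hc : ∀ i j x, ψ (S.E i j x) = R.E i j (ψ x)) (μ : Fin n →₀ ℕ) :
    finrank ℂ (R.hwv μ) ≤ finrank ℂ (S.hwv μ) := by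
  refine le_trans (Submodule.finrank_mono (t := (S.hwv μ).map ψ) fun v hv => ?_)
    (Submodule.finrank_map_le ψ _)
  obtain ⟨w, rfl⟩ := hs v
  obtain ⟨k, hk, w', hw', rfl⟩ := (LinearMap.ker ψ).exists_add_mem_mem_orthogonal w
  have hst := orth_stable S (U := LinearMap.ker ψ) fun i j x hx => by
    rw [LinearMap.mem_ker] at hx ⊢
    rw [hc, hx, map_zero]
  have hz : ∀ y ∈ (LinearMap.ker ψ)ᗮ, ψ y = 0 → y = 0 := fun y hy h0 =>
    inner_self_eq_zero.1 (hy y h0)
  rw [map_add, LinearMap.mem_ker.1 hk, zero_add] at hv ⊢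
  obtain ⟨h1, h2⟩ := mem_hwv.1 hv
  refine ⟨w', mem_hwv.2 ⟨mem_wsp.2 fun i => ?_, fun i j hij => ?_⟩, rfl⟩
  · rw [← sub_eq_zero]
    refine hz _ (Submodule.sub_mem _ (hst i i w' hw') (Submodule.smul_mem _ _ hw')) ?_
    rw [map_sub, hc, map_smul, mem_wsp.1 h1, sub_self]
  · exact hz _ (hst i j w' hw') (by rw [hc, h2 i j hij])

end Crest.Agent.R187
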