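import Crest.Agent.R187.Abs2a

/-! Weyl's character formula when the Casimir operator acts by a scalar. -/

set_option autoImplicit false
open MvPolynomial Crest.AlgebraR.FoulkesHowe Module

namespace Crest.Agent.R187.WCF

variable {n : ℕ} {V : Type} [NormedAddCommGroup V] [InnerProductSpace ℂ V]

lemma mem_wsp (R : GRep n V) (μ : Fin n →₀ ℕ) (x : V) :
    x ∈ R.wsp μ ↔ ∀ i, R.E i i x = (μ i : ℂ) • x := by
  simp [GRep.wsp, Submodule.mem_iInf]

lemma mem_hwv (R : GRep n V) (μ : Fin n →₀ ℕ) (x : V) :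
    x ∈ R.hwv μ ↔ x ∈ R.wsp μ ∧ ∀ i j, i < j → R.E i j x = 0 := by
  simp [GRep.hwv, Submodule.mem_iInf]

lemma comm_apply (R : GRep n V) (i j k l : Fin n) (x : V) :
    R.E i j (R.E k l x) = R.E k l (R.E i j x) +
      ((if j = k then R.E i l x else 0) - (if l = i then R.E k j x else 0)) := by
  have h := congrArg (fun T : Module.End ℂ V => T x) (R.comm i j k l)
  simp only [LinearMap.sub_apply, Module.End.mul_apply] at h
  rw [sub_eq_iff_eq_add'] at h
  rw [h]
  congr 2
  · split_ifs <;> simp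
  · split_ifs <;> simp

lemma shift (R : GRep n V) (i j k : Fin n) (x : V) (s : ℂ) (hx : R.E k k x = s • x) :
    R.E k k (R.E i j x) =
      (s + (if k = i then 1 else 0) - (if k = j then 1 else 0)) • R.E i j x := by
  rw [comm_apply, hx, map_smul]
  by_cases h1 : k = i <;> by_cases h2 : k = j
  · subst h1; subst h2; simp
  · subst h1; simp [h2, Ne.symm h2, add_smul]
  · subst h2; simp [h1, sub_eq_add_neg, add_smul]
  · simp [h1, h2, Ne.symm h2]

lemma E_mem (R : GRep n V) (i j : Fin n) (μ : Fin n →₀ ℕ) (x : V)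
    (hx : x ∈ R.wsp (μ + Finsupp.single j 1)) : R.E i j x ∈ R.wsp (μ + Finsupp.single i 1) := by
  rw [mem_wsp] at hx ⊢
  intro k
  rw [shift R i j k x _ (hx k)]
  congr 1
  simp only [Finsupp.add_apply, Finsupp.single_apply, eq_comm (a := k)]
  push_cast
  ring

lemma E_eq_zero (R : GRep n V) (i j : Fin n) (hij : i ≠ j) (μ : Fin n →₀ ℕ) (hμ : μ j = 0) (x : V)
    (hx : x ∈ R.wsp μ) : R.E i j x = 0 := by
  by_contra h
  rw [mem_wsp] at hx
  have h1 := shift R i j j x _ (hx j)
  obtain ⟨m, hm⟩ := R.nat j _ _ h h1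
  simp only [hμ, Ne.symm hij, if_true, if_false] at hm
  have : ((m + 1 : ℕ) : ℂ) = 0 := by push_cast; rw [← hm]; simp
  exact Nat.succ_ne_zero m (Nat.cast_eq_zero.1 this)

lemma sum_eq_D (R : GRep n V) (μ : Fin n →₀ ℕ) (h : R.wsp μ ≠ ⊥) : ∑ i, μ i = R.D := by
  obtain ⟨x, hx, hx0⟩ := Submodule.exists_mem_ne_zero_of_ne_bot h
  rw [mem_wsp] at hx
  have h1 := R.deg x
  simp only [hx, ← Finset.sum_smul] at h1
  have h2 := smul_left_injective ℂ hx0 h1
  exact_mod_cast h2

/-- the Casimir operator -/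
noncomputable def cas (R : GRep n V) : Module.End ℂ V := ∑ i, ∑ j, R.E i j * R.E j i

lemma cas_comm (R : GRep n V) (k l : Fin n) (x : V) :
    cas R (R.E k l x) = R.E k l (cas R x) := by
  have e : ∀ i j, R.E k l (R.E i j (R.E j i x)) = R.E i j (R.E j i (R.E k l x)) +
      (((if l = j then R.E i l (R.E k i x) else 0) - (if i = k then R.E k j (R.E j l x) else 0)) +
      ((if l = i then R.E k j (R.E j l x) else 0) - (if j = k then R.E i l (R.E k i x) else 0))) := by
    intro i j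
    rw [comm_apply R k l i j, comm_apply R k l j i, map_add, add_assoc]
    congr 2
    · rw [map_sub]
      congr 1
      · split_ifs with h
        · subst h; rfl
        · simp
      · split_ifs with h
        · subst h; rfl
        · simp
    · congr 1
      · split_ifs with h
        · subst h; rfl
        · rfl
      · split_ifs with h
        · subst h; rfl
        · rfl
  simp only [cas, LinearMap.sum_apply, Module.End.mul_apply, map_sum, e, Finset.sum_add_distrib,
    Finset.sum_sub_distrib, Finset.sum_ite_eq, Finset.sum_ite_eq', Finset.mem_univ, if_true]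
  rw [Finset.sum_comm (f := fun i j => if i = k then R.E k j (R.E j l x) else 0),
    Finset.sum_comm (f := fun i j => if l = i then R.E k j (R.E j l x) else 0)]
  simp

lemma cas_eq (R : GRep n V) : cas R = ∑ i, R.E i i * R.E i i +
    ∑ a, ∑ b ∈ Finset.Ioi a, (R.E a b * R.E b a + R.E b a * R.E a b) :=
  sum_offdiag (fun i j => R.E i j * R.E j i)

lemma rho_apply (i : Fin n) : rho n i = n - 1 - (i : ℕ) := rfl

lemma cas_hwv (R : GRep n V) (μ : Fin n →₀ ℕ) (x : V) (hx : x ∈ R.hwv μ) :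
    cas R x = (∑ i, (μ i : ℂ) ^ 2 + ∑ a, ∑ b ∈ Finset.Ioi a, ((μ a : ℂ) - μ b)) • x := by
  rw [mem_hwv, mem_wsp] at hx
  rw [cas_eq]
  simp only [LinearMap.add_apply, LinearMap.sum_apply, Module.End.mul_apply, add_smul,
    Finset.sum_smul]
  congr 1
  · refine Finset.sum_congr rfl fun i _ => ?_
    rw [hx.1, map_smul, hx.1, smul_smul, sq]
  · refine Finset.sum_congr rfl fun a _ => Finset.sum_congr rfl fun b hb => ?_
    have hab : a < b := Finset.mem_Ioi.1 hb
    rw [comm_apply R a b b a, hx.2 a b hab]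
    simp [hx.1, sub_smul]

lemma norm_add_rho (μ : Fin n →₀ ℕ) :
    ∑ i, (((μ + rho n) i : ℕ) : ℂ) ^ 2 =
      (∑ i, (μ i : ℂ) ^ 2 + ∑ a, ∑ b ∈ Finset.Ioi a, ((μ a : ℂ) - μ b)) +
        ((n - 1 : ℕ) : ℂ) * ((∑ i, μ i : ℕ) : ℂ) + ∑ i, ((rho n i : ℂ)) ^ 2 := by
  have h1 := sum_pairs (fun a => (μ a : ℂ))
  have h2 : ∑ a, ∑ b ∈ Finset.Ioi a, ((μ a : ℂ) - μ b) +
      ∑ a, ∑ b ∈ Finset.Ioi a, ((μ a : ℂ) + μ b) = ∑ a, 2 * ((μ a : ℂ) * (rho n a : ℂ)) := by
    rw [← Finset.sum_add_distrib]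
    refine Finset.sum_congr rfl fun a _ => ?_
    rw [← Finset.sum_add_distrib]
    simp only [sub_add_add_cancel, Finset.sum_const, Fin.card_Ioi, rho_apply, nsmul_eq_mul]
    ring
  rw [h1, nsmul_eq_mul] at h2
  push_cast
  rw [add_assoc (∑ i, (μ i : ℂ) ^ 2), h2, ← Finset.sum_add_distrib, ← Finset.sum_add_distrib]
  refine Finset.sum_congr rfl fun a _ => ?_
  rw [Pi.add_apply]
  push_cast
  ring

variable [FiniteDimensional ℂ V]

lemma exists_proj (U : Submodule ℂ V) : ∃ P : Module.End ℂ V, LinearMap.IsProj U P := by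
  obtain ⟨W, hW⟩ := U.exists_isCompl
  exact ⟨U.projection W hW, ⟨fun x => Submodule.projection_apply_mem hW x,
    fun x hx => Submodule.projection_apply_of_mem_left hW hx⟩⟩

/-- a projection onto the weight space -/
noncomputable def pr (R : GRep n V) (μ : Fin n →₀ ℕ) : Module.End ℂ V :=
  (exists_proj (R.wsp μ)).choose

lemma pr_spec (R : GRep n V) (μ : Fin n →₀ ℕ) : LinearMap.IsProj (R.wsp μ) (pr R μ) :=
  (exists_proj (R.wsp μ)).choose_spec

/-- trace on a weight space -/
noncomputable def tr (R : GRep n V) (μ : Fin n →₀ ℕ) (T : Module.End ℂ V) : ℂ :=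
  LinearMap.trace ℂ V (T * pr R μ)

lemma tr_scalar (R : GRep n V) (μ : Fin n →₀ ℕ) (T : Module.End ℂ V) (s : ℂ)
    (h : ∀ x ∈ R.wsp μ, T x = s • x) : tr R μ T = s * (finrank ℂ (R.wsp μ) : ℂ) := by
  have : T * pr R μ = s • pr R μ := by
    ext x
    simp [h _ ((pr_spec R μ).map_mem x)]
  rw [tr, this, map_smul, (pr_spec R μ).trace, smul_eq_mul]

lemma tr_add (R : GRep n V) (μ : Fin n →₀ ℕ) (S T : Module.End ℂ V) :
    tr R μ (S + T) = tr R μ S + tr R μ T := by
  simp [tr, add_mul]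

lemma tr_sub (R : GRep n V) (μ : Fin n →₀ ℕ) (S T : Module.End ℂ V) :
    tr R μ (S - T) = tr R μ S - tr R μ T := by
  simp [tr, sub_mul]

lemma tr_sum {ι : Type*} (R : GRep n V) (μ : Fin n →₀ ℕ) (s : Finset ι)
    (T : ι → Module.End ℂ V) : tr R μ (∑ i ∈ s, T i) = ∑ i ∈ s, tr R μ (T i) := by
  simp [tr, Finset.sum_mul]

lemma tr_cyc (R : GRep n V) (i j : Fin n) (μ : Fin n →₀ ℕ) :
    tr R (μ + Finsupp.single i 1) (R.E i j * R.E j i) =
      tr R (μ + Finsupp.single j 1) (R.E j i * R.E i j) := by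
  have key : ∀ i j : Fin n, R.E j i * pr R (μ + Finsupp.single i 1) =
      pr R (μ + Finsupp.single j 1) * (R.E j i * pr R (μ + Finsupp.single i 1)) := by
    intro i j
    ext x
    simp only [Module.End.mul_apply]
    exact ((pr_spec R _).map_id _ (E_mem R j i μ _ ((pr_spec R _).map_mem x))).symm
  rw [tr, tr, mul_assoc, mul_assoc, key i j, ← mul_assoc, LinearMap.trace_mul_comm]
  conv_rhs => rw [key j i]
  simp only [mul_assoc]

/-- the character twisted by an operator -/
noncomputable def chT (R : GRep n V) (T : Module.End ℂ V) : MvPolynomial (Fin n) ℂ :=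
  ∑ μ ∈ mons n R.D, monomial μ (tr R μ T)

lemma coeff_chT (R : GRep n V) (T : Module.End ℂ V) (μ : Fin n →₀ ℕ) :
    coeff μ (chT R T) = tr R μ T := by
  classical
  rw [chT, coeff_sum]
  simp only [coeff_monomial, Finset.sum_ite_eq']
  split_ifs with h
  · rfl
  · have hb : R.wsp μ = ⊥ := by
      by_contra hb
      apply h
      simp [mons, Finset.mem_finsuppAntidiag, sum_eq_D R μ hb]
    rw [tr_scalar R μ T 0 (fun x hx => by rw [hb, Submodule.mem_bot] at hx; simp [hx]), zero_mul]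

lemma coeff_ch (R : GRep n V) (μ : Fin n →₀ ℕ) :
    coeff μ (chT R 1) = (finrank ℂ (R.wsp μ) : ℂ) := by
  rw [coeff_chT, tr_scalar R μ 1 1 (by simp), one_mul]

lemma tr_zero_of (R : GRep n V) (i j : Fin n) (hij : i ≠ j) (μ : Fin n →₀ ℕ) (hμ : μ i = 0) :
    tr R μ (R.E i j * R.E j i) = 0 := by
  rw [tr_scalar R μ _ 0 (fun x hx => by
    simp [E_eq_zero R j i hij.symm μ hμ x hx]), zero_mul]

lemma X_mul_chT (R : GRep n V) (a b : Fin n) (hab : a ≠ b) :
    X b * chT R (R.E a b * R.E b a) = X a * chT R (R.E b a * R.E a b) := by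
  classical
  ext ν
  rw [coeff_X_mul', coeff_X_mul', coeff_chT, coeff_chT]
  simp only [Finsupp.mem_support_iff]
  by_cases ha : ν a = 0 <;> by_cases hb : ν b = 0
  · simp [ha, hb]
  · rw [if_pos hb, if_neg (not_not.2 ha), tr_zero_of R a b hab]
    simp [ha]
  · rw [if_pos ha, if_neg (not_not.2 hb), tr_zero_of R b a hab.symm]
    simp [hb]
  · rw [if_pos ha, if_pos hb]
    have h1 : ν - Finsupp.single b 1 =
        (ν - Finsupp.single a 1 - Finsupp.single b 1) + Finsupp.single a 1 := by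
      ext k
      simp only [Finsupp.add_apply, Finsupp.tsub_apply, Finsupp.single_apply]
      split_ifs with h1 h2 <;> (subst_vars; omega)
    have h2 : ν - Finsupp.single a 1 =
        (ν - Finsupp.single a 1 - Finsupp.single b 1) + Finsupp.single b 1 := by
      ext k
      simp only [Finsupp.add_apply, Finsupp.tsub_apply, Finsupp.single_apply]
      split_ifs with h1 h2 <;> (subst_vars; omega)
    rw [h1]
    conv_rhs => rw [h2]
    exact tr_cyc R a b _

theorem lap_ch (R : GRep n V) (c : ℂ) (hc : ∀ x, cas R x = c • x) :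
    ∑ i, th i (th i (DelC n * chT R 1)) =
      (c + ((n - 1 : ℕ) : ℂ) * (R.D : ℂ) + ∑ i, ((rho n i : ℂ)) ^ 2) • (DelC n * chT R 1) := by
  refine lap_identity (chT R 1) (fun a b => chT R (R.E a b * R.E b a)) c R.D
    (fun a b hab => X_mul_chT R a b hab.ne) (fun a b hab => ?_) ?_ ?_
  · ext μ
    rw [coeff_sub, coeff_sub, coeff_chT, coeff_chT, coeff_th, coeff_th, coeff_ch, ← tr_sub,
      ← sub_mul]
    refine tr_scalar R μ _ _ fun x hx => ?_
    rw [mem_wsp] at hx
    rw [R.comm]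
    simp [hx, sub_smul]
  · ext μ
    rw [coeff_smul, coeff_ch, smul_eq_mul, ← tr_scalar R μ (cas R) c (fun x _ => hc x), cas_eq,
      tr_add, coeff_add, coeff_sum, coeff_sum, tr_sum, tr_sum]
    congr 1
    · refine Finset.sum_congr rfl fun i _ => ?_
      rw [coeff_th, coeff_th, coeff_ch, ← mul_assoc]
      refine tr_scalar R μ _ _ fun x hx => ?_
      rw [mem_wsp] at hx
      simp [hx, smul_smul]
    · refine Finset.sum_congr rfl fun a _ => ?_
      rw [coeff_sum, tr_sum]
      refine Finset.sum_congr rfl fun b _ => ?_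
      rw [coeff_add, coeff_chT, coeff_chT, tr_add]
  · ext μ
    rw [coeff_sum, coeff_smul]
    simp only [coeff_th, coeff_ch, ← Finset.sum_mul, smul_eq_mul]
    by_cases hb : R.wsp μ = ⊥
    · simp [hb]
    · rw [← sum_eq_D R μ hb]; push_cast; rfl

lemma norm_of_hwv (R : GRep n V) (c : ℂ) (hc : ∀ x, cas R x = c • x) (μ : Fin n →₀ ℕ)
    (h : R.hwv μ ≠ ⊥) : ∑ i, (((μ + rho n) i : ℕ) : ℂ) ^ 2 =
      c + ((n - 1 : ℕ) : ℂ) * (R.D : ℂ) + ∑ i, ((rho n i : ℂ)) ^ 2 := by
  obtain ⟨x, hx, hx0⟩ := Submodule.exists_mem_ne_zero_of_ne_bot h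
  have h1 := cas_hwv R μ x hx
  rw [hc] at h1
  have h2 := smul_left_injective ℂ hx0 h1
  have hb : R.wsp μ ≠ ⊥ := fun hb => hx0 (by
    have := ((mem_hwv R μ x).1 hx).1
    rwa [hb, Submodule.mem_bot] at this)
  rw [norm_add_rho, sum_eq_D R μ hb]
  rw [h2]

/-- the linear functional `⟨·, l + ρ⟩` -/
noncomputable def phi (l μ : Fin n →₀ ℕ) : ℤ := ∑ i, (μ i : ℤ) * (((l + rho n) i : ℕ) : ℤ)

lemma phi_add (l μ ν : Fin n →₀ ℕ) : phi l (μ + ν) = phi l μ + phi l ν := by
  simp only [phi, ← Finset.sum_add_distrib]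
  refine Finset.sum_congr rfl fun i _ => ?_
  rw [Finsupp.add_apply μ ν]; push_cast; ring

lemma phi_single (l : Fin n →₀ ℕ) (i : Fin n) :
    phi l (Finsupp.single i 1) = (((l + rho n) i : ℕ) : ℤ) := by
  simp only [phi, Finsupp.single_apply]
  rw [Finset.sum_eq_single i] <;> simp +contextual [eq_comm]

lemma strictAnti_add_rho (l : Fin n →₀ ℕ) (hl : Antitone l) {i j : Fin n} (hij : i < j) :
    (l + rho n) j < (l + rho n) i := by
  have h1 := hl hij.le
  have h2 : (i : ℕ) < j := hij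
  have h3 := j.2
  simp only [Finsupp.add_apply, rho_apply]
  omega

omit [FiniteDimensional ℂ V] in
/-- a weight that maximises `phi` consists of highest weight vectors -/
lemma hwv_of_max (R : GRep n V) (l : Fin n →₀ ℕ) (hl : Antitone l) (μ : Fin n →₀ ℕ)
    (hmax : ∀ ν, R.wsp ν ≠ ⊥ → phi l ν ≤ phi l μ) : R.hwv μ = R.wsp μ := by
  refine le_antisymm inf_le_left fun x hx => (mem_hwv R μ x).2 ⟨hx, fun i j hij => ?_⟩
  by_cases hj : μ j = 0
  · exact E_eq_zero R i j hij.ne μ hj x hx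
  · have h1 : μ = (μ - Finsupp.single j 1) + Finsupp.single j 1 := by
      ext k
      simp only [Finsupp.add_apply, Finsupp.tsub_apply, Finsupp.single_apply]
      split_ifs with h1 <;> (subst_vars; omega)
    have h2 := E_mem R i j (μ - Finsupp.single j 1) x (h1 ▸ hx)
    by_contra h0
    have h3 := hmax (μ - Finsupp.single j 1 + Finsupp.single i 1) (fun hb => h0 (by
      rwa [hb, Submodule.mem_bot] at h2))
    have h4 : phi l μ = phi l (μ - Finsupp.single j 1) + phi l (Finsupp.single j 1) := by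
      rw [← phi_add, ← h1]
    rw [phi_add, h4, phi_single, phi_single] at h3
    have h5 := strictAnti_add_rho l hl hij
    omega

lemma phi_le (R : GRep n V) (c : ℂ) (hc : ∀ x, cas R x = c • x) (l : Fin n →₀ ℕ) (hl : Antitone l)
    (hN : ∑ i, (((l + rho n) i : ℕ) : ℂ) ^ 2 =
      c + ((n - 1 : ℕ) : ℂ) * (R.D : ℂ) + ∑ i, ((rho n i : ℂ)) ^ 2)
    (μ : Fin n →₀ ℕ) (hμ : R.wsp μ ≠ ⊥) : phi l μ ≤ phi l l := by
  classical
  let S := (mons n R.D).filter fun ν => R.wsp ν ≠ ⊥
  have hS : ∀ ν, R.wsp ν ≠ ⊥ → ν ∈ S := fun ν hν => by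
    simp [S, mons, Finset.mem_finsuppAntidiag, sum_eq_D R ν hν, hν]
  obtain ⟨lam, hlam, hmax⟩ := S.exists_max_image (phi l) ⟨μ, hS μ hμ⟩
  have h1 : R.wsp lam ≠ ⊥ := (Finset.mem_filter.1 hlam).2
  have h2 := hwv_of_max R l hl lam (fun ν hν => hmax ν (hS ν hν))
  have h3 := norm_of_hwv R c hc lam (h2 ▸ h1)
  rw [← hN] at h3
  have h4 : ∑ i, (((lam + rho n) i : ℕ) : ℤ) ^ 2 = ∑ i, (((l + rho n) i : ℕ) : ℤ) ^ 2 := by
    exact_mod_cast h3
  have h5 : 2 * phi l (lam + rho n) ≤
      ∑ i, (((lam + rho n) i : ℕ) : ℤ) ^ 2 + ∑ i, (((l + rho n) i : ℕ) : ℤ) ^ 2 := by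
    rw [phi, Finset.mul_sum, ← Finset.sum_add_distrib]
    refine Finset.sum_le_sum fun i _ => ?_
    nlinarith [sq_nonneg ((((lam + rho n) i : ℕ) : ℤ) - (((l + rho n) i : ℕ) : ℤ))]
  have h6 : phi l (l + rho n) = ∑ i, (((l + rho n) i : ℕ) : ℤ) ^ 2 := by
    simp only [phi, sq]
  have h7 := hmax μ (hS μ hμ)
  rw [phi_add] at h5 h6
  omega

lemma phi_perm_lt (l : Fin n →₀ ℕ) (hl : Antitone l) (w : Equiv.Perm (Fin n)) (hw : w ≠ 1) :
    phi l (Finsupp.equivMapDomain w (rho n)) < phi l (rho n) := by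
  have hmono : Monovary (fun i => ((rho n i : ℕ) : ℤ)) (fun i => (((l + rho n) i : ℕ) : ℤ)) := by
    intro i j hij
    simp only [Nat.cast_lt, Nat.cast_le] at hij ⊢
    have : j < i := by
      by_contra h
      rcases (not_lt.1 h).eq_or_lt with h | h
      · subst h; exact lt_irrefl _ hij
      · exact lt_asymm hij (strictAnti_add_rho l hl h)
    have h2 : (j : ℕ) < i := this
    simp only [rho_apply]
    omega
  have h := (hmono.sum_comp_perm_mul_lt_sum_mul_iff (σ := w.symm)).2 ?_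
  · simpa only [phi, Finsupp.equivMapDomain_apply] using h
  · intro hm
    apply hw
    have hmon : Monotone w.symm := by
      intro i j hij
      rcases hij.eq_or_lt with h | h
      · subst h; exact le_rfl
      · have h1 := @hm j i (by
          simp only [Nat.cast_lt]; exact strictAnti_add_rho l hl h)
        simp only [Function.comp, Nat.cast_le, rho_apply] at h1
        have h2 := (w.symm i).2
        have h3 := (w.symm j).2
        show ((w.symm i : Fin n) : ℕ) ≤ (w.symm j : Fin n)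
        omega
    have hs : StrictMono w.symm := hmon.strictMono_of_injective w.symm.injective
    have hid : ∀ i, w.symm i = i := by
      have e : (hs.orderIsoOfSurjective _ w.symm.surjective) = OrderIso.refl _ :=
        Subsingleton.elim _ _
      intro i
      have := congrArg (fun f : Fin n ≃o Fin n => f i) e
      simpa using this
    ext i
    have := hid (w i)
    simp only [Equiv.symm_apply_apply] at this
    simp [← this]

theorem wcf_scalar (R : GRep n V) (c : ℂ) (hc : ∀ x, cas R x = c • x) (l : Fin n →₀ ℕ)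
    (hl : Antitone l) :
    coeff (l + rho n) (DelC n * chT R 1) = (finrank ℂ (R.hwv l) : ℂ) := by
  classical
  by_cases hN : ∑ i, (((l + rho n) i : ℕ) : ℂ) ^ 2 =
      c + ((n - 1 : ℕ) : ℂ) * (R.D : ℂ) + ∑ i, ((rho n i : ℂ)) ^ 2
  · have hle := phi_le R c hc l hl hN
    rw [hwv_of_max R l hl l hle, DelC_eq_sum, Finset.sum_mul, coeff_sum,
      Finset.sum_eq_single (1 : Equiv.Perm (Fin n))]
    · have : Finsupp.equivMapDomain (1 : Equiv.Perm (Fin n)) (rho n) = rho n := by
        ext i; rfl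
      rw [this, add_comm, coeff_monomial_mul, coeff_ch]
      simp
    · intro w _ hw
      rw [coeff_monomial_mul']
      split_ifs with h
      · rw [coeff_ch]
        have hb : R.wsp (l + rho n - Finsupp.equivMapDomain w (rho n)) = ⊥ := by
          by_contra hb
          have h1 := hle _ hb
          have h2 := phi_add l (l + rho n - Finsupp.equivMapDomain w (rho n))
            (Finsupp.equivMapDomain w (rho n))
          rw [tsub_add_cancel_of_le h, phi_add] at h2
          have h3 := phi_perm_lt l hl w hw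
          omega
        simp [hb]
      · rfl
    · simp
  · rw [coeff_eq_zero_of_lap _ _ (lap_ch R c hc) _ hN]
    have hb : R.hwv l = ⊥ := by
      by_contra hb
      exact hN (norm_of_hwv R c hc l hb)
    rw [hb, finrank_bot, Nat.cast_zero]

end Crest.Agent.R187.WCF
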