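import Crest.Agent.R187.Defs

set_option autoImplicit false
open MvPolynomial Crest.AlgebraR.FoulkesHowe Module

namespace Crest.Agent.R187


theorem Sym1_Del_det (n : ℕ) :
    Del n = (Matrix.of fun i j : Fin n => (X i : MvPolynomial (Fin n) ℤ) ^ rho n j).det := by
  have h := Matrix.det_projVandermonde (fun _ : Fin n => (1 : MvPolynomial (Fin n) ℤ)) X
  simp only [one_mul] at h
  rw [Del, ← h]
  congr 1
  ext1 i j
  rw [Matrix.projVandermonde_apply, one_pow, one_mul, Matrix.of_apply, Fin.val_rev]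
  congr 1
  change n - (j + 1) = n - 1 - j
  omega

theorem Sym1_mem_mons {n d : ℕ} (w : Equiv.Perm (Fin n)) (α : Fin n →₀ ℕ) :
    Finsupp.equivCongrLeft w α ∈ mons n d ↔ α ∈ mons n d := by
  simp only [mons, Finset.mem_finsuppAntidiag, Finset.subset_univ, and_true]
  rw [← Equiv.sum_comp w.symm α]
  rfl

theorem Sym1_degree {n d : ℕ} {α : Fin n →₀ ℕ} (h : α ∈ mons n d) : α.degree = d := by
  rw [Finsupp.degree_eq_sum]
  exact (Finset.mem_finsuppAntidiag.1 h).1

theorem Del_eq_sum (n : ℕ) : Del n =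
    ∑ w : Equiv.Perm (Fin n), monomial (Finsupp.equivMapDomain w (rho n)) (Equiv.Perm.sign w : ℤ) := by
  rw [Sym1_Del_det, Matrix.det_apply']
  refine Finset.sum_congr rfl fun w _ => ?_
  rw [monomial_eq, Finsupp.prod_equivMapDomain, Finsupp.prod_fintype _ _ (by simp)]
  simp

theorem rename_Del (n : ℕ) (w : Equiv.Perm (Fin n)) :
    rename w (Del n) = (Equiv.Perm.sign w : ℤ) • Del n := by
  rw [Sym1_Del_det, AlgHom.map_det, zsmul_eq_mul, ← Matrix.det_permute]
  congr 1
  ext1 i j
  simp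

theorem coeff_Del_mul_perm {n : ℕ} (F : MvPolynomial (Fin n) ℤ) (hF : F.IsSymmetric)
    (w : Equiv.Perm (Fin n)) (e : Fin n →₀ ℕ) :
    coeff (Finsupp.equivMapDomain w e) (Del n * F) = (Equiv.Perm.sign w : ℤ) * coeff e (Del n * F) := by
  have h1 := coeff_rename_mapDomain w w.injective (Del n * F) e
  rw [map_mul, rename_Del, hF w, smul_mul_assoc, coeff_smul, smul_eq_mul,
    ← Finsupp.equivMapDomain_eq_mapDomain] at h1
  rw [← h1, ← mul_assoc, ← Units.val_mul, Int.units_mul_self, Units.val_one, one_mul]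

theorem coeff_Del_mul_eq_zero {n : ℕ} (F : MvPolynomial (Fin n) ℤ) (hF : F.IsSymmetric)
    (e : Fin n →₀ ℕ) (i j : Fin n) (hij : i ≠ j) (h : e i = e j) : coeff e (Del n * F) = 0 := by
  have h1 := coeff_Del_mul_perm F hF (Equiv.swap i j) e
  have h2 : Finsupp.equivMapDomain (Equiv.swap i j) e = e := by
    ext k
    rw [Finsupp.equivMapDomain_apply, Equiv.symm_swap]
    exact Equiv.apply_swap_eq_self h k
  rw [h2, Equiv.Perm.sign_swap hij] at h1
  simp only [Units.val_neg, Units.val_one] at h1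
  omega

theorem hp_isSymmetric (n d k : ℕ) : (hp n d k).IsSymmetric := by
  intro w
  rw [hp, map_sum]
  refine Finset.sum_equiv (Finsupp.equivCongrLeft w) (fun α => (Sym1_mem_mons w α).symm)
    fun α _ => ?_
  rw [rename_monomial, Finsupp.mapDomain_smul, Finsupp.equivCongrLeft_apply,
    Finsupp.equivMapDomain_eq_mapDomain]

theorem HH_isSymmetric (n a d : ℕ) : (HH n a d).IsSymmetric := by
  intro w
  rw [HH, map_sum]
  refine Finset.sum_equiv (Finsupp.equivCongrLeft (Finsupp.equivCongrLeft w)) (fun M => ?_)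
    fun M _ => ?_
  · simp only [Finset.mem_finsuppAntidiag', Finsupp.equivCongrLeft_apply,
      Finsupp.sum_equivMapDomain]
    refine and_congr_right fun _ => ⟨fun h α hα => ?_, fun h α hα => ?_⟩
    · obtain ⟨α, rfl⟩ := (Finsupp.equivCongrLeft w).surjective α
      refine (Sym1_mem_mons w α).2 (h ?_)
      rwa [Finsupp.mem_support_iff, Finsupp.equivMapDomain_apply, Equiv.symm_apply_apply,
        ← Finsupp.mem_support_iff] at hα
    · refine (Sym1_mem_mons w α).1 (h ?_)
      rwa [Finsupp.mem_support_iff, Finsupp.equivMapDomain_apply, Equiv.symm_apply_apply,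
        ← Finsupp.mem_support_iff]
  · have : Finsupp.mapDomain w (wt M) =
        wt (Finsupp.equivCongrLeft (Finsupp.equivCongrLeft w) M) := by
      simp only [wt, Finsupp.equivCongrLeft_apply, Finsupp.sum_equivMapDomain]
      rw [Finsupp.sum, Finsupp.sum, Finsupp.mapDomain_finsetSum]
      refine Finset.sum_congr rfl fun α _ => ?_
      rw [Finsupp.mapDomain_smul, Finsupp.equivMapDomain_eq_mapDomain]
    rw [rename_monomial, this]

theorem hp_isHomogeneous (n d k : ℕ) : (hp n d k).IsHomogeneous (k * d) := by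
  refine IsHomogeneous.sum _ _ _ fun α hα => isHomogeneous_monomial _ ?_
  rw [map_nsmul, Sym1_degree hα, smul_eq_mul]

theorem HH_isHomogeneous (n a d : ℕ) : (HH n a d).IsHomogeneous (a * d) := by
  refine IsHomogeneous.sum _ _ _ fun M hM => isHomogeneous_monomial _ ?_
  obtain ⟨h1, h2⟩ := Finset.mem_finsuppAntidiag'.1 hM
  rw [wt, map_finsuppSum, ← h1, Finsupp.sum_mul]
  refine Finsupp.sum_congr fun α hα => ?_
  rw [map_nsmul, Sym1_degree (h2 hα), smul_eq_mul]

theorem Del_isHomogeneous (n : ℕ) : (Del n).IsHomogeneous (∑ i, rho n i) := by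
  rw [Del_eq_sum]
  refine IsHomogeneous.sum _ _ _ fun w _ => isHomogeneous_monomial _ ?_
  rw [Finsupp.degree_eq_sum]
  exact Equiv.sum_comp w.symm (rho n)

/-- a homogeneous polynomial has no Schur coefficient in another degree -/
theorem mult_eq_zero_of_degree {n D : ℕ} (F : MvPolynomial (Fin n) ℤ) (hF : F.IsHomogeneous D)
    (l : Fin n →₀ ℕ) (h : ∑ i, l i ≠ D) : mult F l = 0 := by
  refine ((Del_isHomogeneous n).mul hF).coeff_eq_zero ?_
  rw [map_add, Finsupp.degree_eq_sum, Finsupp.degree_eq_sum]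
  omega

theorem mult_one_zero (n : ℕ) : mult (1 : MvPolynomial (Fin n) ℤ) 0 = 1 := by
  rw [mult, zero_add, mul_one, Del_eq_sum, coeff_sum, Finset.sum_eq_single 1]
  · have : Finsupp.equivMapDomain (1 : Equiv.Perm (Fin n)) (rho n) = rho n :=
      Finsupp.equivMapDomain_refl _
    rw [this]
    simp
  · intro w _ hw
    rw [coeff_monomial, if_neg]
    intro h
    refine hw (inv_eq_one.1 (Equiv.ext fun i => ?_))
    have h1 : n - 1 - (w.symm i : ℕ) = n - 1 - (i : ℕ) := DFunLike.congr_fun h i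
    have h2 := (w.symm i).2
    have h3 := i.2
    exact Fin.ext (show (w.symm i : ℕ) = i by omega)
  · simp

theorem mult_one_of_ne {n : ℕ} (l : Fin n →₀ ℕ) (hl : Antitone l) (h : l ≠ 0) :
    mult (1 : MvPolynomial (Fin n) ℤ) l = 0 := by
  refine mult_eq_zero_of_degree 1 (isHomogeneous_one _ _) l ?_
  rw [← Finsupp.degree_eq_sum, Ne, Finsupp.degree_eq_zero_iff]
  exact h

end Crest.Agent.R187
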