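import Crest.Agent.R187.Abs1
import Crest.Agent.R187.Sym1
import Crest.Agent.R187.Abs2b

set_option autoImplicit false
open MvPolynomial Crest.AlgebraR.FoulkesHowe Module

namespace Crest.Agent.R187

variable {n : ℕ} {V W : Type} [NormedAddCommGroup V] [InnerProductSpace ℂ V] [FiniteDimensional ℂ V]
  [NormedAddCommGroup W] [InnerProductSpace ℂ W] [FiniteDimensional ℂ W]

namespace WCF

/-- restriction of a representation to a stable subspace -/
noncomputable def res (R : GRep n V) (U : Submodule ℂ V) (hU : ∀ i j, ∀ x ∈ U, R.E i j x ∈ U) :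
    GRep n U where
  E i j := (R.E i j).restrict (hU i j)
  comm i j k l := by
    ext x
    have h := comm_apply R i j k l x
    simp only [LinearMap.sub_apply, Module.End.mul_apply, Submodule.coe_sub,
      LinearMap.coe_restrict_apply]
    rw [h, add_sub_cancel_left]
    congr 1
    · split_ifs <;> simp
    · split_ifs <;> simp
  adj i j x y := R.adj i j x y
  nat i c x hx h := R.nat i c x (fun h0 => hx (Subtype.ext h0)) (congrArg Subtype.val h)
  D := R.D
  deg x := by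
    ext
    simp only [Submodule.coe_sum, LinearMap.coe_restrict_apply, Submodule.coe_smul]
    exact R.deg x

omit [FiniteDimensional ℂ V] in
lemma res_mem_wsp (R : GRep n V) (U : Submodule ℂ V) (hU : ∀ i j, ∀ x ∈ U, R.E i j x ∈ U)
    (μ : Fin n →₀ ℕ) (x : U) : x ∈ (res R U hU).wsp μ ↔ (x : V) ∈ R.wsp μ := by
  rw [mem_wsp, mem_wsp]
  exact forall_congr' fun i => Subtype.ext_iff

omit [FiniteDimensional ℂ V] in
lemma res_mem_hwv (R : GRep n V) (U : Submodule ℂ V) (hU : ∀ i j, ∀ x ∈ U, R.E i j x ∈ U)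
    (μ : Fin n →₀ ℕ) (x : U) : x ∈ (res R U hU).hwv μ ↔ (x : V) ∈ R.hwv μ := by
  rw [mem_hwv, mem_hwv, res_mem_wsp]
  exact and_congr_right fun _ => forall_congr' fun i => forall_congr' fun j =>
    forall_congr' fun _ => Subtype.ext_iff

omit [FiniteDimensional ℂ V] in
lemma finrank_of_mem (U S : Submodule ℂ V) (T : Submodule ℂ U) (h : ∀ x : U, x ∈ T ↔ (x : V) ∈ S) :
    finrank ℂ T = finrank ℂ (S ⊓ U : Submodule ℂ V) := by
  rw [← Submodule.finrank_map_subtype_eq]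
  have : T.map U.subtype = S ⊓ U := by
    ext x
    simp only [Submodule.mem_map, Submodule.mem_inf, Submodule.subtype_apply]
    constructor
    · rintro ⟨y, hy, rfl⟩
      exact ⟨(h y).1 hy, y.2⟩
    · rintro ⟨h1, h2⟩
      exact ⟨⟨x, h2⟩, (h _).2 h1, rfl⟩
  rw [this]

lemma finrank_split (U S : Submodule ℂ V)
    (h : ∀ u ∈ U, ∀ v ∈ Uᗮ, u + v ∈ S → u ∈ S ∧ v ∈ S) :
    finrank ℂ S = finrank ℂ (S ⊓ U : Submodule ℂ V) + finrank ℂ (S ⊓ Uᗮ : Submodule ℂ V) := by
  rw [← Submodule.finrank_sup_add_finrank_inf_eq]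
  have h1 : (S ⊓ U) ⊓ (S ⊓ Uᗮ) = ⊥ := by
    rw [eq_bot_iff, ← U.inf_orthogonal_eq_bot]
    exact inf_le_inf inf_le_right inf_le_right
  have h2 : (S ⊓ U) ⊔ (S ⊓ Uᗮ) = S := by
    refine le_antisymm (sup_le inf_le_left inf_le_left) fun x hx => ?_
    obtain ⟨u, hu, v, hv, rfl⟩ := U.exists_add_mem_mem_orthogonal x
    obtain ⟨h3, h4⟩ := h u hu v hv hx
    exact Submodule.add_mem_sup ⟨h3, hu⟩ ⟨h4, hv⟩
  rw [h1, h2, finrank_bot, add_zero]

omit [FiniteDimensional ℂ V] in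
lemma orth_stab (R : GRep n V) (U : Submodule ℂ V) (hU : ∀ i j, ∀ x ∈ U, R.E i j x ∈ U) :
    ∀ i j, ∀ x ∈ Uᗮ, R.E i j x ∈ Uᗮ := by
  intro i j x hx
  rw [Submodule.mem_orthogonal] at hx ⊢
  intro u hu
  rw [← R.adj]
  exact hx _ (hU j i u hu)

omit [FiniteDimensional ℂ V] in
lemma split_eig (U : Submodule ℂ V) (T : Module.End ℂ V) (h1 : ∀ x ∈ U, T x ∈ U)
    (h2 : ∀ x ∈ Uᗮ, T x ∈ Uᗮ) (s : ℂ) (u : V) (hu : u ∈ U) (v : V) (hv : v ∈ Uᗮ)
    (h : T (u + v) = s • (u + v)) : T u = s • u ∧ T v = s • v := by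
  have e : T u - s • u = -(T v - s • v) := by
    rw [map_add, smul_add] at h
    rw [eq_neg_iff_add_eq_zero, sub_add_sub_comm, h, sub_self]
  have m1 : T u - s • u ∈ U := U.sub_mem (h1 u hu) (U.smul_mem s hu)
  have m2 : T u - s • u ∈ Uᗮ := e ▸ Uᗮ.neg_mem (Uᗮ.sub_mem (h2 v hv) (Uᗮ.smul_mem s hv))
  have m3 : T u - s • u = 0 := by
    have : T u - s • u ∈ U ⊓ Uᗮ := ⟨m1, m2⟩
    rwa [U.inf_orthogonal_eq_bot, Submodule.mem_bot] at this
  refine ⟨sub_eq_zero.1 m3, ?_⟩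
  rw [m3, eq_comm, neg_eq_zero] at e
  exact sub_eq_zero.1 e

lemma wsp_split (R : GRep n V) (U : Submodule ℂ V) (hU : ∀ i j, ∀ x ∈ U, R.E i j x ∈ U)
    (μ : Fin n →₀ ℕ) : finrank ℂ (R.wsp μ) =
      finrank ℂ ((res R U hU).wsp μ) + finrank ℂ ((res R Uᗮ (orth_stab R U hU)).wsp μ) := by
  rw [finrank_of_mem U _ _ (res_mem_wsp R U hU μ),
    finrank_of_mem Uᗮ _ _ (res_mem_wsp R Uᗮ (orth_stab R U hU) μ)]
  refine finrank_split U _ fun u hu v hv h => ?_
  simp only [mem_wsp] at h ⊢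
  exact ⟨fun i => (split_eig U _ (hU i i) (orth_stab R U hU i i) _ u hu v hv (h i)).1,
    fun i => (split_eig U _ (hU i i) (orth_stab R U hU i i) _ u hu v hv (h i)).2⟩

lemma hwv_split (R : GRep n V) (U : Submodule ℂ V) (hU : ∀ i j, ∀ x ∈ U, R.E i j x ∈ U)
    (μ : Fin n →₀ ℕ) : finrank ℂ (R.hwv μ) =
      finrank ℂ ((res R U hU).hwv μ) + finrank ℂ ((res R Uᗮ (orth_stab R U hU)).hwv μ) := by
  rw [finrank_of_mem U _ _ (res_mem_hwv R U hU μ),
    finrank_of_mem Uᗮ _ _ (res_mem_hwv R Uᗮ (orth_stab R U hU) μ)]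
  refine finrank_split U _ fun u hu v hv h => ?_
  simp only [mem_hwv, mem_wsp] at h ⊢
  have k : ∀ i j, i < j → R.E i j u = 0 ∧ R.E i j v = 0 := fun i j hij => by
    have := split_eig U _ (hU i j) (orth_stab R U hU i j) 0 u hu v hv (by rw [h.2 i j hij, zero_smul])
    simpa using this
  exact ⟨⟨fun i => (split_eig U _ (hU i i) (orth_stab R U hU i i) _ u hu v hv (h.1 i)).1,
      fun i j hij => (k i j hij).1⟩,
    ⟨fun i => (split_eig U _ (hU i i) (orth_stab R U hU i i) _ u hu v hv (h.1 i)).2,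
      fun i j hij => (k i j hij).2⟩⟩

theorem wcf_complex (l : Fin n →₀ ℕ) (hl : Antitone l) (k : ℕ) :
    ∀ (V : Type) [NormedAddCommGroup V] [InnerProductSpace ℂ V] [FiniteDimensional ℂ V]
      (R : GRep n V), finrank ℂ V = k →
      coeff (l + rho n) (DelC n * chT R 1) = (finrank ℂ (R.hwv l) : ℂ) := by
  induction k using Nat.strong_induction_on with
  | _ k ih =>
    intro V _ _ _ R hk
    rcases subsingleton_or_nontrivial V with hV | hV
    · exact wcf_scalar R 0 (fun x => Subsingleton.elim _ _) l hl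
    obtain ⟨c, hc⟩ := Module.End.exists_eigenvalue (cas R)
    set U := Module.End.eigenspace (cas R) c with hUdef
    by_cases hU : U = ⊤
    · refine wcf_scalar R c (fun x => ?_) l hl
      have : x ∈ U := hU ▸ Submodule.mem_top
      exact Module.End.mem_eigenspace_iff.1 this
    have hs : ∀ i j, ∀ x ∈ U, R.E i j x ∈ U := by
      intro i j x hx
      rw [hUdef, Module.End.mem_eigenspace_iff] at hx ⊢
      rw [cas_comm, hx, map_smul]
    have hU0 : U ≠ ⊥ := hc
    have d1 : finrank ℂ U < k := hk ▸ Submodule.finrank_lt hU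
    have d2 : finrank ℂ Uᗮ < k := by
      have h1 := Submodule.finrank_add_finrank_orthogonal U
      have h2 : finrank ℂ U ≠ 0 := fun h => hU0 (Submodule.finrank_eq_zero.1 h)
      omega
    have i1 := ih _ d1 U (res R U hs) rfl
    have i2 := ih _ d2 Uᗮ (res R Uᗮ (orth_stab R U hs)) rfl
    have e : chT R 1 = chT (res R U hs) 1 + chT (res R Uᗮ (orth_stab R U hs)) 1 := by
      ext μ
      rw [coeff_add, coeff_ch, coeff_ch, coeff_ch, wsp_split R U hs, Nat.cast_add]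
    rw [e, mul_add, coeff_add, i1, i2, hwv_split R U hs, Nat.cast_add]

end WCF

/-- Weyl's character formula, in the form: Schur coefficients of the character count highest
weight vectors. -/
theorem GRep.wcf (R : GRep n V) (F : MvPolynomial (Fin n) ℤ)
    (hF : ∀ μ, coeff μ F = (finrank ℂ (R.wsp μ) : ℤ)) (l : Fin n →₀ ℕ) (hl : Antitone l) :
    mult F l = (finrank ℂ (R.hwv l) : ℤ) := by
  have h1 : map (Int.castRingHom ℂ) F = WCF.chT R 1 := by
    ext μ
    rw [coeff_map, hF, WCF.coeff_ch]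
    simp
  have h2 := WCF.wcf_complex l hl _ V R rfl
  rw [← h1, WCF.DelC, ← map_mul, coeff_map] at h2
  have h3 : ((mult F l : ℤ) : ℂ) = (((finrank ℂ (R.hwv l) : ℕ) : ℤ) : ℂ) := by
    rw [Int.cast_natCast, ← h2]; rfl
  exact_mod_cast h3

end Crest.Agent.R187
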