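import Crest.Agent.R187.Sym1

/-! Formal Laplacian identity behind Weyl's character formula (Freudenthal's computation). -/

set_option autoImplicit false
open MvPolynomial Crest.AlgebraR.FoulkesHowe Module

namespace Crest.Agent.R187.WCF

variable {n : ℕ}

/-- the Euler operator `x_i ∂_i` -/
noncomputable def th (i : Fin n) :
    Derivation ℂ (MvPolynomial (Fin n) ℂ) (MvPolynomial (Fin n) ℂ) :=
  (X i : MvPolynomial (Fin n) ℂ) • pderiv i

lemma th_apply (i : Fin n) (P : MvPolynomial (Fin n) ℂ) : th i P = X i * pderiv i P := by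
  simp [th]

lemma th_monomial (i : Fin n) (m : Fin n →₀ ℕ) (r : ℂ) :
    th i (monomial m r) = (m i : ℂ) • monomial m r := by
  rw [th_apply, X_mul_pderiv_monomial, Nat.cast_smul_eq_nsmul]

lemma coeff_th (i : Fin n) (P : MvPolynomial (Fin n) ℂ) (μ : Fin n →₀ ℕ) :
    coeff μ (th i P) = (μ i : ℂ) * coeff μ P := by
  classical
  induction P using MvPolynomial.induction_on' with
  | add p q hp hq => simp only [map_add, coeff_add, hp, hq, mul_add]
  | monomial m a =>
    rw [th_monomial, coeff_smul, coeff_monomial]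
    split_ifs with h
    · subst h; simp
    · simp

lemma th_X (i a : Fin n) : th i (X a : MvPolynomial (Fin n) ℂ) = if i = a then X a else 0 := by
  rw [th_apply]
  split_ifs with h
  · subst h; simp
  · rw [pderiv_X_of_ne (Ne.symm h), mul_zero]

lemma der_prod {ι A : Type*} [DecidableEq ι] [CommRing A] [Algebra ℂ A] (d : Derivation ℂ A A)
    (S : Finset ι) (f : ι → A) :
    d (∏ p ∈ S, f p) = ∑ p ∈ S, (∏ q ∈ S.erase p, f q) * d (f p) := by
  induction S using Finset.induction_on with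
  | empty => simp
  | insert a S ha ih =>
    rw [Finset.prod_insert ha, Finset.sum_insert ha, Derivation.leibniz, ih, Finset.erase_insert ha,
      smul_eq_mul, smul_eq_mul, Finset.mul_sum, add_comm]
    congr 1
    refine Finset.sum_congr rfl fun p hp => ?_
    have hne : a ≠ p := fun h => ha (h ▸ hp)
    rw [Finset.erase_insert_of_ne hne,
      Finset.prod_insert (fun h => ha (Finset.mem_of_mem_erase h)), mul_assoc]

/-- the Vandermonde product over `ℂ` -/
noncomputable def DelC (n : ℕ) : MvPolynomial (Fin n) ℂ := map (Int.castRingHom ℂ) (Del n)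

lemma DelC_eq_prod (n : ℕ) :
    DelC n = ∏ i : Fin n, ∏ j ∈ Finset.Ioi i, (X i - X j : MvPolynomial (Fin n) ℂ) := by
  simp [DelC, Del, map_prod]

lemma exists_Q (n : ℕ) : ∃ Q : Fin n → Fin n → MvPolynomial (Fin n) ℂ,
    (∀ a b, a < b → Q a b * (X a - X b) = DelC n) ∧
    ∀ d : Derivation ℂ (MvPolynomial (Fin n) ℂ) (MvPolynomial (Fin n) ℂ),
      d (DelC n) = ∑ a, ∑ b ∈ Finset.Ioi a, Q a b * d (X a - X b) := by
  classical
  let S : Finset (Σ _ : Fin n, Fin n) := Finset.univ.sigma fun a => Finset.Ioi a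
  let f : (Σ _ : Fin n, Fin n) → MvPolynomial (Fin n) ℂ := fun p => X p.1 - X p.2
  have hD : DelC n = ∏ p ∈ S, f p := by
    rw [DelC_eq_prod, Finset.prod_sigma]
  refine ⟨fun a b => ∏ q ∈ S.erase ⟨a, b⟩, f q, fun a b hab => ?_, fun d => ?_⟩
  · rw [hD]
    exact Finset.prod_erase_mul S f (a := ⟨a, b⟩) (by simp [S, hab])
  · rw [hD, der_prod, Finset.sum_sigma]

lemma sum_pairs {M : Type*} [AddCommGroup M] (t : Fin n → M) :
    ∑ a, ∑ b ∈ Finset.Ioi a, (t a + t b) = (n - 1) • ∑ a, t a := by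
  have h := Finset.sum_sum_Ioi_add_eq_sum_sum_off_diag (fun (_ : Fin n) (a : Fin n) => t a)
  rw [h, Finset.smul_sum]
  refine Finset.sum_congr rfl fun a _ => ?_
  rw [Finset.sum_const, Finset.card_compl, Fintype.card_fin, Finset.card_singleton]

lemma sum_offdiag {M : Type*} [AddCommGroup M] (f : Fin n → Fin n → M) :
    ∑ a, ∑ b, f a b = ∑ a, f a a + ∑ a, ∑ b ∈ Finset.Ioi a, (f a b + f b a) := by
  have h := Finset.sum_sum_Ioi_add_eq_sum_sum_off_diag (fun (b : Fin n) (a : Fin n) => f a b)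
  rw [h, ← Finset.sum_add_distrib]
  refine Finset.sum_congr rfl fun a _ => ?_
  rw [← Finset.sum_add_sum_compl {a}, Finset.sum_singleton]

lemma DelC_eq_sum (n : ℕ) : DelC n =
    ∑ w : Equiv.Perm (Fin n),
      monomial (Finsupp.equivMapDomain w (rho n)) (((Equiv.Perm.sign w : ℤ) : ℂ)) := by
  rw [DelC, Del_eq_sum, map_sum]
  refine Finset.sum_congr rfl fun w _ => ?_
  rw [map_monomial]; rfl

lemma lap_DelC (n : ℕ) :
    ∑ i, th i (th i (DelC n)) = (∑ i, ((rho n i : ℂ)) ^ 2) • DelC n := by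
  rw [DelC_eq_sum]
  simp only [map_sum]
  rw [Finset.sum_comm, Finset.smul_sum]
  refine Finset.sum_congr rfl fun w _ => ?_
  simp only [th_monomial, Derivation.map_smul, smul_smul]
  rw [← Finset.sum_smul]
  congr 1
  simp only [Finsupp.equivMapDomain_apply, ← sq]
  exact Equiv.sum_comp w.symm (fun i => ((rho n i : ℂ)) ^ 2)

/-- Freudenthal's identity in polynomial form -/
theorem lap_identity (χ : MvPolynomial (Fin n) ℂ) (A : Fin n → Fin n → MvPolynomial (Fin n) ℂ)
    (c D : ℂ)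
    (h1 : ∀ a b, a < b → X b * A a b = X a * A b a)
    (h2 : ∀ a b, a < b → A a b - A b a = th a χ - th b χ)
    (h3 : c • χ = ∑ i, th i (th i χ) + ∑ a, ∑ b ∈ Finset.Ioi a, (A a b + A b a))
    (h4 : ∑ i, th i χ = D • χ) :
    ∑ i, th i (th i (DelC n * χ)) =
      (c + ((n - 1 : ℕ) : ℂ) * D + ∑ i, ((rho n i : ℂ)) ^ 2) • (DelC n * χ) := by
  obtain ⟨Q, hQ1, hQ2⟩ := exists_Q n
  have e1 : ∀ i, th i (th i (DelC n * χ)) =
      th i (th i (DelC n)) * χ + 2 * (th i (DelC n) * th i χ) + DelC n * th i (th i χ) := by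
    intro i
    simp only [Derivation.leibniz, map_add, smul_eq_mul]
    ring
  have e2 : ∑ i, th i (DelC n) * th i χ =
      ∑ a, ∑ b ∈ Finset.Ioi a, Q a b * (X a * th a χ - X b * th b χ) := by
    simp only [hQ2, Finset.sum_mul]
    rw [Finset.sum_comm]
    refine Finset.sum_congr rfl fun a _ => ?_
    rw [Finset.sum_comm]
    refine Finset.sum_congr rfl fun b _ => ?_
    simp only [map_sub, th_X, mul_assoc, ← Finset.mul_sum, sub_mul, Finset.sum_sub_distrib, ite_mul,
      zero_mul, Finset.sum_ite_eq', Finset.mem_univ, if_true]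
  have e3 : ∀ a, ∀ b ∈ Finset.Ioi a, 2 * (Q a b * (X a * th a χ - X b * th b χ)) =
      DelC n * (A a b + A b a) + DelC n * (th a χ + th b χ) := by
    intro a b hb
    have hab : a < b := Finset.mem_Ioi.1 hb
    rw [← hQ1 a b hab]
    have k1 := h1 a b hab
    have k2 := h2 a b hab
    linear_combination (2 * Q a b) * k1 - (Q a b * (X a + X b)) * k2
  have e4 : 2 * ∑ i, th i (DelC n) * th i χ =
      DelC n * (∑ a, ∑ b ∈ Finset.Ioi a, (A a b + A b a)) +
        DelC n * ((((n - 1 : ℕ) : ℂ) * D) • χ) := by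
    rw [e2, mul_smul, ← h4, Nat.cast_smul_eq_nsmul, ← sum_pairs]
    simp only [Finset.mul_sum, ← Finset.sum_add_distrib]
    exact Finset.sum_congr rfl fun a _ => Finset.sum_congr rfl fun b hb => e3 a b hb
  simp only [e1, Finset.sum_add_distrib]
  rw [← Finset.mul_sum, e4, ← Finset.sum_mul, lap_DelC, ← Finset.mul_sum]
  have h3' : ∑ i, th i (th i χ) = c • χ - ∑ a, ∑ b ∈ Finset.Ioi a, (A a b + A b a) := by
    rw [h3]; abel
  rw [h3']
  simp only [add_smul, smul_eq_C_mul]
  ring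

theorem coeff_eq_zero_of_lap (P : MvPolynomial (Fin n) ℂ) (N : ℂ)
    (h : ∑ i, th i (th i P) = N • P) (ν : Fin n →₀ ℕ) (hν : ∑ i, ((ν i : ℂ)) ^ 2 ≠ N) :
    coeff ν P = 0 := by
  have := congrArg (coeff ν) h
  rw [coeff_sum, coeff_smul] at this
  simp only [coeff_th, ← mul_assoc, ← Finset.sum_mul, ← sq, smul_eq_mul] at this
  have h2 : (∑ i, ((ν i : ℂ)) ^ 2 - N) * coeff ν P = 0 := by rw [sub_mul, this, sub_self]
  rcases mul_eq_zero.1 h2 with h3 | h3
  · exact absurd (sub_eq_zero.1 h3) hν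
  · exact h3

end Crest.Agent.R187.WCF
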