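/-! Row 187: the bit-parallel algorithms (tables of integers modulo `2^49` packed in fields of
57 bits of one natural number). Definitions only; they are run by the kernel. -/

set_option autoImplicit false

namespace Crest.Agent.R187.Alg

/-- the `i`-th field -/
def fld (X i : Nat) : Nat := (X >>> (57 * i)) % 2 ^ 57

/-- layout of a three-dimensional table -/
structure Lay where
  c2 : Nat
  c3 : Nat
  c4 : Nat
  n2 : Nat
  n3 : Nat
  n4 : Nat

/-- `n` copies of `x`, at distance `s` fields -/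
def rep (x s : Nat) : Nat → Nat
  | 0 => 0
  | n + 1 => x + (rep x s n <<< (57 * s))

/-- the constant `v` on a box -/
def boxC (L : Lay) (v a2 a3 a4 : Nat) : Nat := rep (rep (rep v L.c2 a2) L.c3 a3) L.c4 a4

def full (L : Lay) : Nat := boxC L (2 ^ 49 - 1) L.n2 L.n3 L.n4

def cst (L : Lay) : Nat := boxC L (2 ^ 54) L.n2 L.n3 L.n4

/-- masks for the shifts by `i` -/
structure Msk where
  i : Nat
  m2 : Nat
  m3 : Nat
  m4 : Nat

def msk (L : Lay) (i : Nat) : Msk :=
  ⟨i, boxC L (2 ^ 49 - 1) (L.n2 - i) L.n3 L.n4, boxC L (2 ^ 49 - 1) L.n2 (L.n3 - i) L.n4,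
    boxC L (2 ^ 49 - 1) L.n2 L.n3 (L.n4 - i)⟩

def sh (m k t : Nat) : Nat := (t &&& m) <<< (57 * k)

def pass (m k : Nat) : Nat → List Nat → List Nat
  | _, [] => []
  | t, x :: xs => (x + sh m k t) :: pass m k (x + sh m k t) xs

def passL (n i m k : Nat) : List Nat → List Nat
  | [] => []
  | x :: xs => bif Nat.ble n i then x :: xs else x :: pass m k x xs

/-- the three passes inside a slice -/
def dp (L : Lay) (M : Msk) (U : List Nat) : List Nat :=
  passL L.n4 M.i M.m4 (M.i * L.c4) (passL L.n3 M.i M.m3 (M.i * L.c3) (passL L.n2 M.i M.m2 (M.i * L.c2) U))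

def lastD : List Nat → Nat → Nat
  | [], d => d
  | x :: xs, _ => lastD xs x

def nth : List Nat → Nat → Nat
  | [], _ => 0
  | x :: _, 0 => x
  | _ :: xs, n + 1 => nth xs n

def nthL : List (List Nat) → Nat → List Nat
  | [], _ => []
  | x :: _, 0 => x
  | _ :: xs, n + 1 => nthL xs n

/-- slice `(e5, e6) = (a, b)` -/
def get (Q : List (List Nat)) (a b : Nat) : Nat := nth (nthL Q b) a

def tabFrom (f : Nat → Nat) : Nat → Nat → List Nat
  | 0, _ => []
  | n + 1, j => f j :: tabFrom f n j.succ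

def tabLFrom (f : Nat → List Nat) : Nat → Nat → List (List Nat)
  | 0, _ => []
  | n + 1, j => f j :: tabLFrom f n j.succ

def tab (n : Nat) (f : Nat → Nat) : List Nat := (List.range n).map f

def tab2 (m5 m6 : Nat) (f : Nat → Nat → Nat) : List (List Nat) :=
  (List.range (m6 + 1)).map fun b => (List.range (m5 + 1)).map fun a => f a b

/-! ### multiplication of an antisymmetric table -/

def cP (Q : List (List Nat)) (i a b m : Nat) : Nat → Nat → Nat
  | 0, acc => acc
  | β + 1, acc => cP Q i a b m β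
      (bif (Nat.ble (i * β) a && Nat.ble (i * (m - β)) b && Nat.blt (b - i * (m - β)) (a - i * β))
        then acc + get Q (a - i * β) (b - i * (m - β)) else acc)

def cN (Q : List (List Nat)) (i a b m : Nat) : Nat → Nat → Nat
  | 0, acc => acc
  | β + 1, acc => cN Q i a b m β
      (bif (Nat.ble (i * β) a && Nat.ble (i * (m - β)) b && Nat.blt (a - i * β) (b - i * (m - β)))
        then acc + get Q (b - i * (m - β)) (a - i * β) else acc)

def cmb (C P N : Nat) : Nat := bif Nat.beq N 0 then P else P + (C - N)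

def usA (Q : List (List Nat)) (C i a b : Nat) : List Nat → Nat → Nat → List Nat
  | [], _, _ => []
  | m :: ms, P, N => cmb C (cP Q i a b m (m + 1) P) (cN Q i a b m (m + 1) N) ::
      usA Q C i a b ms (cP Q i a b m (m + 1) P) (cN Q i a b m (m + 1) N)

/-- slice `(a,b)` of `h_6(x^i) * Q` -/
def mulA (L : Lay) (F C : Nat) (M : Msk) (Q : List (List Nat)) (a b : Nat) : Nat :=
  lastD (dp L M (usA Q C M.i a b [0, 1, 2, 3, 4, 5, 6] 0 0)) 0 &&& F

def newtonSum (L : Lay) (F C a b : Nat) : List Msk → List (List (List Nat)) → Nat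
  | M :: Ms, Q :: Qs => mulA L F C M Q a b + newtonSum L F C a b Ms Qs
  | _, _ => 0

def msks (L : Lay) (k : Nat) : List Msk := (List.range k).map fun j => msk L (j + 1)

def chkSlice (L : Lay) (F C Mp k : Nat) (Ms : List Msk) (Qs : List (List (List Nat)))
    (Z : List (List Nat)) (a b : Nat) : Bool :=
  Nat.beq ((k * get Z a b) &&& Mp) (newtonSum L F C a b Ms Qs &&& Mp) &&
    Nat.beq (get Z a b &&& F) (get Z a b)

def allFrom (f : Nat → Bool) (lo n : Nat) : Bool := (List.range' lo n).all f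

def chkAux (L : Lay) (F C Mp k : Nat) (Ms : List Msk) (Qs : List (List (List Nat)))
    (Z : List (List Nat)) (m5 b0 nb : Nat) : Bool :=
  allFrom (fun b => allFrom (fun a => chkSlice L F C Mp k Ms Qs Z a b) (b + 1) (m5 - b)) b0 nb

/-- Newton step `k`: the slices `(a,b)`, `b0 ≤ b < b0+nb`, `b < a ≤ m5` of `Z`, precision `p` -/
def chkNewton (L : Lay) (p k : Nat) (Qs : List (List (List Nat))) (Z : List (List Nat))
    (m5 b0 nb : Nat) : Bool :=
  chkAux L (full L) (cst L) (boxC L (2 ^ p - 1) L.n2 L.n3 L.n4) k (msks L k) Qs Z m5 b0 nb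

/-! ### plain tables -/

def one2 : List (List Nat) := [[1]]

def sub (F C X Y : Nat) : Nat := bif Nat.beq Y 0 then X else (X + (C - Y)) &&& F

/-- multiplication of a slice by the variable number `u ≤ 3` -/
def mulX (L : Lay) (M : Msk) (u X : Nat) : Nat :=
  match u with
  | 0 => X
  | 1 => sh M.m2 L.c2 X
  | 2 => sh M.m3 L.c3 X
  | _ => sh M.m4 L.c4 X

def binIn (L : Lay) (F C : Nat) (M : Msk) (u v X : Nat) : Nat :=
  sub F C (mulX L M u X) (mulX L M v X)

def delInS (L : Lay) (F C : Nat) (M : Msk) (X : Nat) : Nat :=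
  binIn L F C M 0 1 (binIn L F C M 0 2 (binIn L F C M 0 3 (binIn L F C M 1 2 (binIn L F C M 1 3
    (binIn L F C M 2 3 X)))))

def delIn (L : Lay) (F C : Nat) (M : Msk) (m5 m6 : Nat) (G : List (List Nat)) : List (List Nat) :=
  tab2 m5 m6 fun a b => delInS L F C M (get G a b)

def get5 (G : List (List Nat)) (a b : Nat) : Nat :=
  match a with
  | 0 => 0
  | a + 1 => get G a b

def get6 (G : List (List Nat)) (a b : Nat) : Nat :=
  match b with
  | 0 => 0
  | b + 1 => get G a b

def bin5 (L : Lay) (F C : Nat) (M : Msk) (m5 m6 u : Nat) (G : List (List Nat)) : List (List Nat) :=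
  tab2 m5 m6 fun a b => sub F C (mulX L M u (get G a b)) (get5 G a b)

def bin6 (L : Lay) (F C : Nat) (M : Msk) (m5 m6 u : Nat) (G : List (List Nat)) : List (List Nat) :=
  tab2 m5 m6 fun a b => sub F C (mulX L M u (get G a b)) (get6 G a b)

def bin56 (F C m5 m6 : Nat) (G : List (List Nat)) : List (List Nat) :=
  tab2 m5 m6 fun a b => sub F C (get5 G a b) (get6 G a b)

def del6 (L : Lay) (F C : Nat) (M : Msk) (m5 m6 : Nat) (G : List (List Nat)) : List (List Nat) :=
  bin6 L F C M m5 m6 0 (bin6 L F C M m5 m6 1 (bin6 L F C M m5 m6 2 (bin6 L F C M m5 m6 3 G)))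

def del5 (L : Lay) (F C : Nat) (M : Msk) (m5 m6 : Nat) (G : List (List Nat)) : List (List Nat) :=
  bin56 F C m5 m6
    (bin5 L F C M m5 m6 0 (bin5 L F C M m5 m6 1 (bin5 L F C M m5 m6 2 (bin5 L F C M m5 m6 3 G))))

/-- the table of the Vandermonde product -/
def delTab (L : Lay) (m5 m6 : Nat) : List (List Nat) :=
  del5 L (full L) (cst L) (msk L 1) m5 m6 (del6 L (full L) (cst L) (msk L 1) m5 m6
    (delIn L (full L) (cst L) (msk L 1) m5 m6 one2))

def usT (G : List (List Nat)) (i a : Nat) : List Nat → Nat → List Nat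
  | [], _ => []
  | m :: ms, P => (bif Nat.ble (i * m) a then P + get G (a - i * m) 0 else P) ::
      usT G i a ms (bif Nat.ble (i * m) a then P + get G (a - i * m) 0 else P)

/-- `h_d(x^i) * G` on the slices `e6 = 0`, target first -/
def mulT (L : Lay) (F : Nat) (M : Msk) (d m5 : Nat) (G : List (List Nat)) : List (List Nat) :=
  [tab (m5 + 1) fun a => lastD (dp L M (usT G M.i a (List.range (d + 1)) 0)) 0 &&& F]

def crS (T : List (List Nat)) (i d a : Nat) : Nat → Nat → Nat
  | 0, acc => acc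
  | m + 1, acc => crS T i d a m
      (bif Nat.ble (i * m) a then acc + get T (d - m) (a - i * m) else acc)

def mulSAux (F i d m5 : Nat) (T : List (List Nat)) : List (List Nat) :=
  [tab (m5 + 1) fun a => crS T i d a (d + 1) 0 &&& F]

/-- `h_d(x^i) * G` on the slices `e6 = 0`, source first -/
def mulS (L : Lay) (F : Nat) (M : Msk) (d m5 : Nat) (G : List (List Nat)) : List (List Nat) :=
  mulSAux F M.i d m5 ((List.range (m5 + 1)).map fun a => dp L M (List.replicate (d + 1) (get G a 0)))

/-- `G + c * H` on the slices `e6 = 0` -/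
def lin (F c m5 : Nat) (G H : List (List Nat)) : List (List Nat) :=
  [tab (m5 + 1) fun a => (get G a 0 + c * get H a 0) &&& F]

def sp (cin cout : Nat) (f : Nat → Nat) : Nat → Nat → Nat
  | 0, _ => 0
  | n + 1, X => f (X % 2 ^ (57 * cin)) + (sp cin cout f n (X >>> (57 * cin)) <<< (57 * cout))

/-- the substitution `x ↦ x^k`, from the layout `L'` to the layout `L` -/
def spread (L' L : Lay) (k m5 : Nat) (G : List (List Nat)) : List (List Nat) :=
  [tab (m5 + 1) fun a => bif Nat.beq (a % k) 0 then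
    sp L'.c4 (k * L.c4) (sp L'.c3 (k * L.c3) id L'.n3) L'.n4 (get G (a / k) 0) else 0]

/-! ### tables on the Weyl chamber -/

/-- `{0 < u2, 2 u2 < s}` -/
def chRow (s : Nat) : Nat := rep (2 ^ 49 - 1) 1 ((s - 1) / 2) <<< (57 * 1)

/-- reversed list of the planes `{u3 < u2, 2 u2 + u3 < s}`, `s < n` -/
def chPlanes (c3 : Nat) : Nat → List Nat
  | 0 => []
  | s + 1 => (chRow s + (nth (chPlanes c3 s) 2 <<< (57 * (1 + c3)))) :: chPlanes c3 s

def chCubesAux (c3 c4 : Nat) : List Nat → List Nat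
  | [] => []
  | _ :: ps => ((nth ps 2 <<< (57 * (1 + c3))) + (nth (chCubesAux c3 c4 ps) 3 <<< (57 * (1 + c3 + c4)))) ::
      chCubesAux c3 c4 ps

/-- list of the masks `{u4 < u3 < u2, 2 u2 + u3 + u4 < s}`, `s < n` -/
def chs (c3 c4 n : Nat) : List Nat := (chCubesAux c3 c4 (chPlanes c3 n)).reverse

def toCh (c3 c4 : Nat) (ch : List Nat) (D m5 : Nat) (G : List (List Nat)) : List Nat :=
  tab (m5 + 1) fun σ => (get G σ 0 >>> (57 * ((σ + 1) * (1 + c3 + c4)))) &&& nth ch (D - (5 * σ + 4))

def passP (k : Nat) : Nat → List Nat → List Nat → List Nat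
  | t, m :: ms, x :: xs => (x + ((t <<< (57 * k)) &&& m)) :: passP k (x + ((t <<< (57 * k)) &&& m)) ms xs
  | _, _, _ => []

def passPL (k : Nat) : List Nat → List Nat → List Nat
  | _ :: ms, x :: xs => x :: passP k x ms xs
  | _, _ => []

def sumL : List Nat → Nat → Nat
  | [], acc => acc
  | x :: xs, acc => sumL xs (acc + x)

def pieriAux (c3 c4 : Nat) (Ms As : List Nat) (E : Nat) : Nat :=
  sumL (passPL 1 Ms (passPL c3 Ms (passPL c4 Ms As))) E &&& lastD Ms 0

/-- slice `σ` of `h_b * X + E` -/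
def pieriS (c3 c4 : Nat) (ch : List Nat) (D b : Nat) (X : List Nat) (E σ : Nat) : Nat :=
  pieriAux c3 c4 (tab (b + 1) fun j => nth ch (D + j - (5 * σ + 4)))
    (tab (b + 1) fun j => bif Nat.blt j σ then nth X (σ - j) >>> (57 * (j * (1 + c3 + c4))) else 0) E

def pieri (c3 c4 : Nat) (ch : List Nat) (D b m5 : Nat) (X E : List Nat) : List Nat :=
  tab (m5 + 1) fun σ => pieriS c3 c4 ch D b X (nth E σ) σ

def eqL : List Nat → List Nat → Bool
  | [], [] => true
  | x :: xs, y :: ys => Nat.beq x y && eqL xs ys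
  | _, _ => false

end Crest.Agent.R187.Alg
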