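import Crest.Agent.R187.Alg

/-! Row 187: the pipelines built from the bit-parallel primitives, and the certificate checker. -/

set_option autoImplicit false

namespace Crest.Agent.R187.Alg

/-! ### the tables for `h_6[h_b]` and `e_6[h_b]` in five rows -/

def layF (b D : Nat) : Lay := ⟨1, 78, 78 * (2 * b + 4), 78, 2 * b + 4, (D - 6) / 4 + 1⟩

def layC (b k : Nat) : Lay :=
  ⟨k, 78, 78 * ((2 * b + 4 + k - 1) / k), 78 / k, (2 * b + 4 + k - 1) / k,
    ((15 + 6 * b - 6) / 4 + 1 + k - 1) / k⟩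

def yEAux (L : Lay) (F : Nat) (M1 M2 M3 : Msk) (b : Nat) (G : List (List Nat)) : List (List Nat) :=
  lin F 45 1 (mulT L F M1 b 1 (lin F 40 1 (mulT L F M1 b 1 (mulT L F M1 b 1 (mulT L F M1 b 1 G)))
    (mulT L F M3 b 1 G))) (mulT L F M2 b 1 (mulT L F M2 b 1 G))

def yE (b : Nat) : List (List Nat) :=
  yEAux (layF b (15 + 4 * b)) (full (layF b (15 + 4 * b))) (msk (layF b (15 + 4 * b)) 1)
    (msk (layF b (15 + 4 * b)) 2) (msk (layF b (15 + 4 * b)) 3) b (delTab (layF b (15 + 4 * b)) 1 0)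

def yOAux (L : Lay) (F : Nat) (M1 M2 M4 : Msk) (b : Nat) (G : List (List Nat)) : List (List Nat) :=
  lin F 90 1 (lin F 15 1 [] (mulT L F M1 b 1 (mulT L F M1 b 1 (mulT L F M2 b 1 G))))
    (mulT L F M4 b 1 G)

def yO (b : Nat) : List (List Nat) :=
  yOAux (layF b (15 + 4 * b)) (full (layF b (15 + 4 * b))) (msk (layF b (15 + 4 * b)) 1)
    (msk (layF b (15 + 4 * b)) 2) (msk (layF b (15 + 4 * b)) 4) b (delTab (layF b (15 + 4 * b)) 1 0)

def delAll (L : Lay) (F C : Nat) (M1 : Msk) (m5 : Nat) (G : List (List Nat)) : List (List Nat) :=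
  del5 L F C M1 m5 0 (del6 L F C M1 m5 0 (delIn L F C M1 m5 0 G))

def zEAux (L : Lay) (F C : Nat) (M1 M5 : Msk) (b m5 : Nat) : List (List Nat) :=
  delAll L F C M1 m5 (lin F 144 m5 [] (mulT L F M5 b m5 one2))

def zE (b : Nat) : List (List Nat) :=
  zEAux (layF b (15 + 5 * b)) (full (layF b (15 + 5 * b))) (cst (layF b (15 + 5 * b)))
    (msk (layF b (15 + 5 * b)) 1) (msk (layF b (15 + 5 * b)) 5) b ((15 + 5 * b - 10) / 5)

def zOAux (L : Lay) (F C : Nat) (M1 M2 M3 : Msk) (b m5 : Nat) : List (List Nat) :=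
  del5 L F C M1 m5 0 (mulS L F M2 b m5 (del6 L F C M1 m5 0 (delIn L F C M1 m5 0
    (lin F 120 m5 [] (mulT L F M3 b m5 one2)))))

def zO (b : Nat) : List (List Nat) :=
  zOAux (layF b (15 + 5 * b)) (full (layF b (15 + 5 * b))) (cst (layF b (15 + 5 * b)))
    (msk (layF b (15 + 5 * b)) 1) (msk (layF b (15 + 5 * b)) 2) (msk (layF b (15 + 5 * b)) 3) b
    ((15 + 5 * b - 10) / 5)

/-- `c * h_b(y^i) h_b(y^j)` -/
def pp (L : Lay) (F : Nat) (Mi Mj : Msk) (c b m5 : Nat) : List (List Nat) :=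
  mulT L F Mi b m5 (lin F c m5 [] (mulT L F Mj b m5 one2))

def wAux (L : Lay) (F C : Nat) (M1 : Msk) (b m5 : Nat) (G2 G3 : List (List Nat)) : List (List Nat) :=
  delAll L F C M1 m5 (lin F 1 m5 (spread (layC b 2) L 2 m5 G2) (spread (layC b 3) L 3 m5 G3))

def wE (b : Nat) : List (List Nat) :=
  wAux (layF b (15 + 6 * b)) (full (layF b (15 + 6 * b))) (cst (layF b (15 + 6 * b)))
    (msk (layF b (15 + 6 * b)) 1) b ((15 + 6 * b - 10) / 5)
    (pp (layC b 2) (full (layC b 2)) (msk (layC b 2) 1) (msk (layC b 2) 2) 90 b ((15 + 6 * b - 10) / 5 / 2))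
    (pp (layC b 3) (full (layC b 3)) (msk (layC b 3) 1) (msk (layC b 3) 1) 40 b ((15 + 6 * b - 10) / 5 / 3))

def wO (b : Nat) : List (List Nat) :=
  wAux (layF b (15 + 6 * b)) (full (layF b (15 + 6 * b))) (cst (layF b (15 + 6 * b)))
    (msk (layF b (15 + 6 * b)) 1) b ((15 + 6 * b - 10) / 5)
    (mulT (layC b 2) (full (layC b 2)) (msk (layC b 2) 1) b ((15 + 6 * b - 10) / 5 / 2)
      (pp (layC b 2) (full (layC b 2)) (msk (layC b 2) 1) (msk (layC b 2) 1) 15 b ((15 + 6 * b - 10) / 5 / 2)))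
    (lin (full (layC b 3)) 120 ((15 + 6 * b - 10) / 5 / 3) []
      (mulT (layC b 3) (full (layC b 3)) (msk (layC b 3) 2) b ((15 + 6 * b - 10) / 5 / 3) one2))

/-- the chamber masks -/
def chB (b : Nat) : List Nat := chs 78 (78 * (2 * b + 4)) (6 * b + 12)

def chT (b D m5 : Nat) (G : List (List Nat)) : List Nat := toCh 78 (78 * (2 * b + 4)) (chB b) D m5 G

def yEc (b : Nat) : List Nat := chT b (15 + 4 * b) 1 (yE b)
def yOc (b : Nat) : List Nat := chT b (15 + 4 * b) 1 (yO b)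
def zEc (b : Nat) : List Nat := chT b (15 + 5 * b) ((15 + 5 * b - 10) / 5) (zE b)
def zOc (b : Nat) : List Nat := chT b (15 + 5 * b) ((15 + 5 * b - 10) / 5) (zO b)
def wEc (b : Nat) : List Nat := chT b (15 + 6 * b) ((15 + 6 * b - 10) / 5) (wE b)
def wOc (b : Nat) : List Nat := chT b (15 + 6 * b) ((15 + 6 * b - 10) / 5) (wO b)

/-- first Pieri step -/
def x1 (b : Nat) (Y Z : List Nat) : List Nat :=
  pieri 78 (78 * (2 * b + 4)) (chB b) (15 + 4 * b) b ((15 + 5 * b - 10) / 5) Y Z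

/-- second Pieri step, one slice -/
def x2 (b : Nat) (ch X W : List Nat) (σ : Nat) : Nat :=
  pieriS 78 (78 * (2 * b + 4)) ch (15 + 5 * b) b X (nth W σ) σ

/-! ### planes of lower bounds for `h_c[h_6]` -/

inductive Tr where
  | leaf (c m4 m5 m6 g : Nat) : Tr
  | node (l r : Tr) : Tr

structure Leaf where
  c : Nat
  m4 : Nat
  m5 : Nat
  m6 : Nat
  g : Nat

def Tr.look : Tr → Nat → Leaf
  | .leaf c m4 m5 m6 g, _ => ⟨c, m4, m5, m6, g⟩
  | .node l r, p => bif Nat.beq (p % 2) 0 then l.look (p / 2) else r.look (p / 2)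

def fRows (c3 h s X : Nat) (ones : List Nat) : Nat → Nat
  | 0 => 0
  | v + 1 => fRows c3 h s X ones v +
      ((((X >>> (57 * (c3 * (v + 1) + (v + 2)))) &&& nth ones (min h ((s - v) / 2) - (v + 2))) * 720) <<<
        (57 * (78 * (v + 1) + (v + 2))))

def onesL (p : Nat) : List Nat := tab 79 fun n => rep (2 ^ p - 1) 1 n

def fPlane (L : Lay) (ones : List Nat) (Q : List (List Nat)) (c m4 m5 m6 : Nat) : Nat :=
  fRows L.c3 (L.n2 - (m4 + 2)) (6 * c + 15 - (4 * (m4 + 2) + (m5 + 1) + m6))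
    ((get Q (m5 + 1) m6 >>> (57 * ((m4 + 2) * (1 + L.c3 + L.c4)))) % 2 ^ (57 * L.c4)) ones
    (min (L.n3 - (m4 + 3)) ((6 * c + 15 - (4 * (m4 + 2) + (m5 + 1) + m6)) / 3))

def chkTr (L : Lay) (ones : List Nat) (Q : List (List Nat)) (k M5 M6 : Nat) : Tr → Bool
  | .leaf c m4 m5 m6 g => Nat.beq c k && Nat.ble (m5 + 1) M5 && Nat.ble m6 M6 && Nat.ble m6 m5 &&
      Nat.ble m5 m4 && Nat.blt (m4 + 2) L.n4 && Nat.beq g (fPlane L ones Q c m4 m5 m6)
  | .node l r => chkTr L ones Q k M5 M6 l && chkTr L ones Q k M5 M6 r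

/-! ### elements of the semigroup -/

inductive Nu where
  | leaf (e n4 n5 n6 d2 d3 p g2 g3 k1 k2 k3 k4 k5 k6 : Nat) : Nu
  | node (l r : Nu) : Nu

structure NLeaf where
  e : Nat
  n4 : Nat
  n5 : Nat
  n6 : Nat
  d2 : Nat
  d3 : Nat

def Nu.look : Nu → Nat → NLeaf
  | .leaf e n4 n5 n6 d2 d3 _ _ _ _ _ _ _ _ _, _ => ⟨e, n4, n5, n6, d2, d3⟩
  | .node l r, p => bif Nat.beq (p % 2) 0 then l.look (p / 2) else r.look (p / 2)

def chkNuLeaf (f : Leaf) (e n4 n5 n6 d2 d3 g2 g3 k1 k2 k3 k4 k5 k6 : Nat) : Bool :=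
  Nat.beq e (f.c + k1 + 2 * k2 + 3 * k3 + 4 * k4 + 5 * k5 + 6 * k6) &&
    Nat.beq n4 (f.m4 + 6 * (k4 + k5 + k6)) && Nat.beq n5 (f.m5 + 6 * (k5 + k6)) &&
    Nat.beq n6 (f.m6 + 6 * k6) && Nat.beq (d2 + 2) (g2 + 6 * (k2 + k3)) &&
    Nat.beq (d3 + 1) (g3 + 6 * k3) && Nat.blt g2 78 && Nat.blt 0 (fld f.g (g2 + 78 * g3))

def chkNu (T : Tr) : Nu → Bool
  | .leaf e n4 n5 n6 d2 d3 p g2 g3 k1 k2 k3 k4 k5 k6 =>
      chkNuLeaf (T.look p) e n4 n5 n6 d2 d3 g2 g3 k1 k2 k3 k4 k5 k6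
  | .node l r => chkNu T l && chkNu T r

/-! ### comparison -/

def cert1 (f : Leaf) (ν : NLeaf) (H A b l4 l5 l6 acc : Nat) : Nat :=
  bif Nat.beq (f.c + ν.e) b && Nat.beq (f.m4 + ν.n4) l4 && Nat.beq (f.m5 + ν.n5) l5 &&
      Nat.beq (f.m6 + ν.n6) l6 && Nat.blt (3 * f.c + 2 + ν.d2) 78
  then acc ||| ((((f.g <<< (57 * (ν.d2 + 78 * ν.d3))) + H) - A) &&& H) else acc

/-- a certificate is the number `p + 2^24 q` -/
def certs (T : Tr) (N : Nu) (H A b l4 l5 l6 : Nat) : List Nat → Nat → Nat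
  | [], acc => acc
  | x :: xs, acc => certs T N H A b l4 l5 l6 xs
      (cert1 (T.look (x % 16777216)) (N.look (x / 16777216)) H A b l4 l5 l6 acc)

def chkPlane (T : Tr) (N : Nu) (H A b l4 l5 l6 : Nat) (cs : List Nat) : Bool :=
  Nat.beq (certs T N H A b l4 l5 l6 cs ((H - A) &&& H)) H

def chkSs (T : Tr) (N : Nu) (H Ap Am b σ r : Nat) : List Nat → List (List Nat) → Bool
  | [], _ => true
  | s :: ss, css => chkPlane T N H (bif Nat.beq (s % 2) 0 then Ap else Am) (b + s) (σ - 1 + s + r)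
      (σ - 1 + s) s (css.headD []) && chkSs T N H Ap Am b σ r ss css.tail

def chkRAux (T : Tr) (N : Nu) (H AE AO b σ r : Nat) (ss : List Nat) (css : List (List Nat)) : Bool :=
  chkSs T N (H <<< 56) ((AE + AO) &&& (H * (2 ^ 49 - 1))) ((AE + ((H <<< 49) - AO)) &&& (H * (2 ^ 49 - 1)))
    b σ r ss css

/-- planes of ones with `n` rows -/
def onesP (n3 : Nat) : List Nat := tab (n3 + 1) fun n => rep (rep 1 1 78) 78 n

def chkR (T : Tr) (N : Nu) (Hs : List Nat) (XE XO b σ r nr : Nat) (ss : List Nat)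
    (css : List (List Nat)) : Bool :=
  chkRAux T N (nth Hs nr)
    ((XE >>> (57 * (r * (1 + 78 + 78 * (2 * b + 4))))) % 2 ^ (57 * (78 * nr)))
    ((XO >>> (57 * (r * (1 + 78 + 78 * (2 * b + 4))))) % 2 ^ (57 * (78 * nr))) b σ r ss css

def chkRs (T : Tr) (N : Nu) (Hs : List Nat) (XE XO b σ : Nat) (ss : List Nat) :
    List Nat → List (List (List Nat)) → Bool
  | [], _ => true
  | r :: rs, d => chkR T N Hs XE XO b σ r ((15 + 6 * b - (5 * σ + 4) - 4 * r) / 3) ss (d.headD []) &&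
      chkRs T N Hs XE XO b σ ss rs d.tail

def chkSig (T : Tr) (N : Nu) (Hs ch X1E X1O WE WO : List Nat) (b : Nat) (ss : List Nat) :
    List Nat → List (List (List (List Nat))) → Bool
  | [], _ => true
  | σ :: σs, d => chkRs T N Hs (x2 b ch X1E WE σ) (x2 b ch X1O WO σ) b σ ss
      (List.range ((15 + 6 * b - (5 * σ + 4)) / 4)) (d.headD []) &&
      chkSig T N Hs ch X1E X1O WE WO b ss σs d.tail

/-- the admissible last rows -/
def ssOf (b : Nat) : List Nat :=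
  (List.range 12).filter fun s => Nat.ble 7 (b + s) && Nat.ble (b + s) 24 && (Nat.blt (b + s) 12 || Nat.ble s 5)

/-- the final check for the slices `σ0 ≤ σ < σ0 + n` -/
def chkA (T : Tr) (N : Nu) (X1E X1O WE WO : List Nat) (b σ0 n : Nat)
    (d : List (List (List (List Nat)))) : Bool :=
  chkSig T N (onesP (2 * b + 4)) (chB b) X1E X1O WE WO b (ssOf b) (List.range' σ0 n) d

end Crest.Agent.R187.Alg
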