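import Crest.Agent.R187.ChamA

set_option autoImplicit false
open MvPolynomial

namespace Crest.Agent.R187.Alg
open Crest.Agent.R187


theorem chm_eq (D : ℕ) (q : ℕ → ℕ → ℕ → ℕ → ℤ) (u2 u3 u4 σ : ℕ) :
    chm D q (u2 + σ + 1) (u3 + σ + 1) (u4 + σ + 1) σ =
      if u4 < u3 ∧ u3 < u2 ∧ 2 * u2 + u3 + u4 < D - (5 * σ + 4) then
        q (u2 + σ + 1) (u3 + σ + 1) (u4 + σ + 1) σ else 0 := by
  rw [chm]
  exact if_congr (by omega) rfl rfl

theorem pA_spec {c3 n3 D j σ : ℕ} {X : List ℕ} {q : ℕ → ℕ → ℕ → ℕ → ℤ} (hj2 : j < c3)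
    (hj3 : j < n3) (h2 : D ≤ 2 * c3 + 3) (h3 : D ≤ 3 * n3 + 3) (hX : RepC c3 n3 D X q) :
    RT c3 n3 (2 ^ 49 - 1)
      (bif Nat.blt j σ then nth X (σ - j) >>> (57 * (j * (1 + c3 + c3 * n3))) else 0)
      fun u2 u3 u4 => pA D q j (u2 + σ + 1) (u3 + σ + 1) (u4 + σ + 1) σ := by
  by_cases hj : j < σ
  · rw [show Nat.blt j σ = true by rw [Nat.blt_eq]; exact hj, cond_true]
    obtain ⟨τ, rfl⟩ := Nat.exists_eq_add_of_le hj.le
    rw [Nat.add_sub_cancel_left]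
    have hR := hX τ
    refine ⟨fun i => by rw [fld_shr]; exact hR.bd _, fun u2 u3 u4 g2 g3 => ?_⟩
    rw [fld_shr, pA, if_pos ⟨hj, by omega⟩, Nat.add_sub_cancel_left]
    have e2 : u2 + (j + τ) + 1 = (u2 + j) + τ + 1 := by ring
    have e3 : u3 + (j + τ) + 1 = (u3 + j) + τ + 1 := by ring
    have e4 : u4 + (j + τ) + 1 = (u4 + j) + τ + 1 := by ring
    rw [e2, e3, e4]
    by_cases c2 : u2 + j < c3
    · by_cases c3' : u3 + j < n3
      · have e : u2 + c3 * u3 + c3 * n3 * u4 + j * (1 + c3 + c3 * n3) =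
            (u2 + j) + c3 * (u3 + j) + c3 * n3 * (u4 + j) := by ring
        rw [e]
        exact hR.val _ _ _ c2 c3'
      · obtain ⟨v3, hv⟩ := Nat.exists_eq_add_of_le (Nat.le_of_not_lt c3')
        have e : u2 + c3 * u3 + c3 * n3 * u4 + j * (1 + c3 + c3 * n3) =
            (u2 + j) + c3 * v3 + c3 * n3 * (u4 + j + 1) := by
          have : c3 * (u3 + j) = c3 * (n3 + v3) := by rw [hv]
          linarith
        have := hR.val (u2 + j) v3 (u4 + j + 1) c2 (by omega)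
        rw [chm_eq, if_neg (by omega)] at this
        rw [e, chm_eq, if_neg (by omega)]
        exact this
    · obtain ⟨v2, hv2⟩ := Nat.exists_eq_add_of_le (Nat.le_of_not_lt c2)
      rw [chm_eq, if_neg (by omega)]
      by_cases c3' : u3 + j + 1 < n3
      · have e : u2 + c3 * u3 + c3 * n3 * u4 + j * (1 + c3 + c3 * n3) =
            v2 + c3 * (u3 + j + 1) + c3 * n3 * (u4 + j) := by linarith
        have := hR.val v2 (u3 + j + 1) (u4 + j) (by omega) c3'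
        rw [chm_eq, if_neg (by omega)] at this
        rw [e]
        exact this
      · obtain ⟨v3, hv⟩ := Nat.exists_eq_add_of_le (Nat.le_of_not_lt c3')
        have e : u2 + c3 * u3 + c3 * n3 * u4 + j * (1 + c3 + c3 * n3) =
            v2 + c3 * v3 + c3 * n3 * (u4 + j + 1) := by
          have : c3 * (u3 + j + 1) = c3 * (n3 + v3) := by rw [hv]
          linarith
        have := hR.val v2 v3 (u4 + j + 1) (by omega) (by omega)
        rw [chm_eq, if_neg (by omega)] at this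
        rw [e]
        exact this
  · have : Nat.blt j σ = false := by
      rw [← Bool.not_eq_true, Nat.blt_eq]; exact hj
    rw [this, cond_false]
    exact RT.zero.congr fun _ _ _ => by rw [pA, if_neg fun h => hj h.1]

theorem chs_spec (c3 n3 n s : ℕ) (hs : s < n) (h2 : s ≤ 2 * c3 + 1) (h3 : s ≤ 3 * n3 + 2) :
    IsCh c3 n3 s (nth (chs c3 (c3 * n3) n) s) := by
  intro u2 u3 u4 g2 g3
  have h := ind_cubes (c3 := c3) (n3 := n3) n (n - 1 - s) (by omega) (by omega) u2 u3 u4 g2 g3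
  rw [chs, nth_reverse _ (by rw [length_cubes]; exact hs), length_cubes]
  have e : n - 1 - (n - 1 - s) = s := by omega
  rw [e] at h
  split_ifs with hc
  · exact h.1 hc
  · exact h.2 hc

theorem toCh_spec {L : Lay} {c3 n3 D m5 : ℕ} {ch : List ℕ} {G : List (List ℕ)}
    {F : MvPolynomial (Fin 6) ℤ} (hc2 : L.c2 = 1) (hc3 : L.c3 = c3) (hc4 : L.c4 = c3 * n3)
    (hn2 : L.n2 = c3) (hn3 : L.n3 = n3) (hn4 : (D - 6) / 4 < L.n4) (h2 : D ≤ 2 * c3 + 3)
    (h3 : D ≤ 3 * n3 + 3) (hch : ∀ s, s ≤ D - 4 → IsCh c3 n3 s (nth ch s))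
    (h : RepG L m5 0 G D (Del 6 * F))
    (hz : ∀ e2 e3 e4 σ, m5 < σ → chm D (qOf D F) e2 e3 e4 σ = 0) :
    RepC c3 n3 D (toCh c3 (c3 * n3) ch D m5 G) (qOf D F) := by
  intro σ
  rw [toCh, nth_tab]
  split_ifs with hσ
  · have hR := h σ 0 (by omega) le_rfl
    refine ⟨fun i => ?_, fun u2 u3 u4 g2 g3 => ?_⟩
    · rw [fld_and, fld_shr]
      exact Nat.and_le_left.trans (hR.bd _)
    · have key := mask_val (Y := get G σ 0 >>> (57 * ((σ + 1) * (1 + c3 + c3 * n3))))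
        (hch (D - (5 * σ + 4)) (by omega)) (u4 := u4) g2 g3
        (v := qOf D F (u2 + σ + 1) (u3 + σ + 1) (u4 + σ + 1) σ) (fun a1 a2 a3 => by
          rw [fld_shr]
          have := hR.val (u2 + σ + 1) (u3 + σ + 1) (u4 + σ + 1) (by omega) (by omega) (by omega)
          rw [Lay.idx, hc2, hc3, hc4] at this
          have e : u2 + c3 * u3 + c3 * n3 * u4 + (σ + 1) * (1 + c3 + c3 * n3) =
              1 * (u2 + σ + 1) + c3 * (u3 + σ + 1) + c3 * n3 * (u4 + σ + 1) := by ring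
          rw [e]
          exact this)
      rw [chm_eq]
      exact key
  · refine ⟨fun i => by rw [fld_zero]; exact Nat.zero_le _, fun u2 u3 u4 _ _ => ?_⟩
    rw [fld_zero, hz _ _ _ σ (by omega)]
    rfl

theorem pieriS_spec {c3 n3 D b E σ : ℕ} {ch X : List ℕ} {F F' : MvPolynomial (Fin 6) ℤ}
    (hF : F.IsSymmetric) (hb : b ≤ 50) (hb2 : b < c3) (hb3 : b < n3) (h2 : D + b ≤ 2 * c3 + 3)
    (h3 : D + b ≤ 3 * n3 + 3) (hch : ∀ s, s ≤ D + b - 4 → IsCh c3 n3 s (nth ch s))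
    (hX : RepC c3 n3 D X (qOf D F)) (hE : RepS c3 n3 (D + b) E σ (qOf (D + b) F')) :
    RepS c3 n3 (D + b) (pieriS c3 (c3 * n3) ch D b X E σ) σ (qOf (D + b) (hp 6 b 1 * F + F')) := by
  have hc : 0 < c3 := by omega
  have hn : 0 < n3 := by omega
  set q := qOf D F with hq
  set Ms := tab (b + 1) fun j => nth ch (D + j - (5 * σ + 4)) with hMs
  set As := tab (b + 1) fun j =>
    bif Nat.blt j σ then nth X (σ - j) >>> (57 * (j * (1 + c3 + c3 * n3))) else 0 with hAs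
  have hMl : Ms.length = b + 1 := length_tab _ _
  have hM : ∀ j, j < b + 1 → IsCh c3 n3 (D + j - (5 * σ + 4)) (nth Ms j) := fun j hj => by
    rw [hMs, nth_tab, if_pos hj]
    exact hch _ (by omega)
  have hA : ∀ j, j < b + 1 → RT c3 n3 (2 ^ 49 - 1) (nth As j)
      fun u2 u3 u4 => pA D q j (u2 + σ + 1) (u3 + σ + 1) (u4 + σ + 1) σ := fun j hj => by
    rw [hAs, nth_tab, if_pos hj]
    exact pA_spec (by omega) (by omega) (by omega) (by omega) hX
  obtain ⟨l4, s4⟩ := passPL_spec (c3 * n3) (2 ^ 49 - 1) (by norm_num) As Ms b _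
    (fun j u2 u3 u4 => p4 D q j (u2 + σ + 1) (u3 + σ + 1) (u4 + σ + 1) σ) (length_tab _ _) hMl rfl hA
    (fun j hj t ht => (RT.mask hc hn (hM (j + 1) (by omega))
      (φ := fun u2 u3 u4 => p4 D q j (u2 + σ + 1) (u3 + σ + 1) (u4 + σ + 1 - 1) σ)
      fun u2 u3 u4 g2 g3 a1 a2 a3 => by
        rw [fld_shl]
        cases u4 with
        | zero =>
          have : u2 + c3 * u3 < c3 * n3 := by
            have : c3 * (u3 + 1) ≤ c3 * n3 := Nat.mul_le_mul_left _ g3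
            rw [Nat.mul_succ] at this
            omega
          rw [if_neg (by omega), p4_diag _ _ _ _ _ _ _ (by omega)]
          rfl
        | succ u4 =>
          have e : u2 + c3 * u3 + c3 * n3 * (u4 + 1) = c3 * n3 + (u2 + c3 * u3 + c3 * n3 * u4) := by
            ring
          have e' : u4 + 1 + σ + 1 - 1 = u4 + σ + 1 := by omega
          rw [e, if_pos (Nat.le_add_right _ _), Nat.add_sub_cancel_left, e']
          exact ht.val u2 u3 u4 g2 g3).congr fun u2 u3 u4 => by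
        simp only [p4, chm_eq, add_sub_cancel_left])
  obtain ⟨l3, s3⟩ := passPL_spec c3 (2 ^ 49 - 1 + (2 ^ 49 - 1)) (by norm_num) _ Ms b _
    (fun j u2 u3 u4 => p3 D q j (u2 + σ + 1) (u3 + σ + 1) (u4 + σ + 1) σ) l4 hMl rfl s4
    (fun j hj t ht => (RT.mask hc hn (hM (j + 1) (by omega))
      (φ := fun u2 u3 u4 => p3 D q j (u2 + σ + 1) (u3 + σ + 1 - 1) (u4 + σ + 1) σ)
      fun u2 u3 u4 g2 g3 a1 a2 a3 => by
        rw [fld_shl]
        obtain ⟨u3, rfl⟩ : ∃ v, u3 = v + 1 := ⟨u3 - 1, by omega⟩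
        have e : u2 + c3 * (u3 + 1) + c3 * n3 * u4 = c3 + (u2 + c3 * u3 + c3 * n3 * u4) := by
          ring
        have e' : u3 + 1 + σ + 1 - 1 = u3 + σ + 1 := by omega
        rw [e, if_pos (Nat.le_add_right _ _), Nat.add_sub_cancel_left, e']
        exact ht.val u2 u3 u4 g2 (by omega)).congr fun u2 u3 u4 => by
        simp only [p3, chm_eq, add_sub_cancel_left])
  obtain ⟨l2, s2⟩ := passPL_spec 1 (2 ^ 49 - 1 + (2 ^ 49 - 1) + (2 ^ 49 - 1)) (by norm_num) _ Ms b _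
    (fun j u2 u3 u4 => p2 D q j (u2 + σ + 1) (u3 + σ + 1) (u4 + σ + 1) σ) l3 hMl rfl s3
    (fun j hj t ht => (RT.mask hc hn (hM (j + 1) (by omega))
      (φ := fun u2 u3 u4 => p2 D q j (u2 + σ + 1 - 1) (u3 + σ + 1) (u4 + σ + 1) σ)
      fun u2 u3 u4 g2 g3 a1 a2 a3 => by
        rw [fld_shl]
        obtain ⟨u2, rfl⟩ : ∃ v, u2 = v + 1 := ⟨u2 - 1, by omega⟩
        have e : u2 + 1 + c3 * u3 + c3 * n3 * u4 = 1 + (u2 + c3 * u3 + c3 * n3 * u4) := by
          ring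
        have e' : u2 + 1 + σ + 1 - 1 = u2 + σ + 1 := by omega
        rw [e, if_pos (Nat.le_add_right _ _), Nat.add_sub_cancel_left, e']
        exact ht.val u2 u3 u4 (by omega) g3).congr fun u2 u3 u4 => by
        simp only [p2, chm_eq, add_sub_cancel_left])
  have hE' : RT c3 n3 (2 ^ 49 - 1) E fun u2 u3 u4 =>
      chm (D + b) (qOf (D + b) F') (u2 + σ + 1) (u3 + σ + 1) (u4 + σ + 1) σ := ⟨hE.bd, hE.val⟩
  have hS := sumL_spec _ _ E _ _ _ (by rw [l2]; omega) hE' (fun j hj => s2 j (l2 ▸ hj))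
  rw [l2] at hS
  have hfin := RT.mask hc hn (hM b (Nat.lt_succ_self b)) fun u2 u3 u4 g2 g3 _ _ _ =>
    hS.val u2 u3 u4 g2 g3
  rw [pieriS, pieriAux, lastD_eq_nth _ b hMl]
  refine ⟨hfin.bd, fun u2 u3 u4 g2 g3 => (hfin.val u2 u3 u4 g2 g3).trans ?_⟩
  have hp' := pieri_dp F hF D b (u2 + σ + 1) (u3 + σ + 1) (u4 + σ + 1) σ
  rw [chm_eq, chm_eq] at hp'
  rw [chm_eq, chm_eq]
  split_ifs at hp' ⊢ with hch'
  · have : ∑ j ∈ Finset.range (b + 1), p2 D q j (u2 + σ + 1) (u3 + σ + 1) (u4 + σ + 1) σ =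
        deh (D + b) (Del 6 * (hp 6 b 1 * F)) (u2 + σ + 1) (u3 + σ + 1) (u4 + σ + 1) σ 0 := hp'
    rw [this]
    simp only [qOf, mul_add, deh_add]
    rw [add_comm]
  · rfl

theorem pieri_spec {c3 n3 D b m5 : ℕ} {ch X E : List ℕ} {F F' : MvPolynomial (Fin 6) ℤ}
    (hF : F.IsSymmetric) (hb : b ≤ 50) (hb2 : b < c3) (hb3 : b < n3) (h2 : D + b ≤ 2 * c3 + 3)
    (h3 : D + b ≤ 3 * n3 + 3) (hm : (D + b - 10) / 5 ≤ m5)
    (hch : ∀ s, s ≤ D + b - 4 → IsCh c3 n3 s (nth ch s))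
    (hX : RepC c3 n3 D X (qOf D F)) (hE : RepC c3 n3 (D + b) E (qOf (D + b) F')) :
    RepC c3 n3 (D + b) (pieri c3 (c3 * n3) ch D b m5 X E) (qOf (D + b) (hp 6 b 1 * F + F')) := by
  intro σ
  rw [pieri, nth_tab]
  split_ifs with hσ
  · exact pieriS_spec hF hb hb2 hb3 h2 h3 hch hX (hE σ)
  · refine ⟨fun i => by rw [fld_zero]; exact Nat.zero_le _, fun u2 u3 u4 _ _ => ?_⟩
    rw [fld_zero, chm_eq, if_neg (by omega)]
    rfl

end Crest.Agent.R187.Alg
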