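import Crest.Agent.R187.RepB

/-! Row 187: auxiliary lemmas for the tables on the Weyl chamber -/

set_option autoImplicit false

namespace Crest.Agent.R187.Alg
open Crest.Agent.R187

theorem exists_idx {c3 n3 : ℕ} (hc : 0 < c3) (hn : 0 < n3) (i : ℕ) :
    ∃ u2 u3 u4, u2 < c3 ∧ u3 < n3 ∧ i = u2 + c3 * u3 + c3 * n3 * u4 := by
  refine ⟨i % c3, i / c3 % n3, i / c3 / n3, Nat.mod_lt _ hc, Nat.mod_lt _ hn, ?_⟩
  have h1 := Nat.mod_add_div i c3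
  have h2 := Nat.mod_add_div (i / c3) n3
  calc i = i % c3 + c3 * (i / c3) := h1.symm
    _ = i % c3 + c3 * (i / c3 % n3 + n3 * (i / c3 / n3)) := by rw [h2]
    _ = _ := by ring

theorem pair_inj {c a a' b b' : ℕ} (ha : a < c) (ha' : a' < c) (h : a + c * b = a' + c * b') :
    a = a' ∧ b = b' := by
  have h1 : (a + c * b) % c = (a' + c * b') % c := by rw [h]
  rw [Nat.add_mul_mod_self_left, Nat.add_mul_mod_self_left, Nat.mod_eq_of_lt ha,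
    Nat.mod_eq_of_lt ha'] at h1
  subst h1
  exact ⟨rfl, Nat.eq_of_mul_eq_mul_left (by omega) (Nat.add_left_cancel h)⟩

theorem idx_inj {c3 n3 u2 u3 u4 v2 v3 v4 : ℕ} (h2 : u2 < c3) (h3 : u3 < n3) (h2' : v2 < c3)
    (h3' : v3 < n3) (h : u2 + c3 * u3 + c3 * n3 * u4 = v2 + c3 * v3 + c3 * n3 * v4) :
    u2 = v2 ∧ u3 = v3 ∧ u4 = v4 := by
  have h' : u2 + c3 * (u3 + n3 * u4) = v2 + c3 * (v3 + n3 * v4) := by linarith [h]
  obtain ⟨e1, e2⟩ := pair_inj h2 h2' h'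
  exact ⟨e1, pair_inj h3 h3' e2⟩

/-- `X` is the mask of the region `S` -/
def Ind (c3 n3 X : ℕ) (S : ℕ → ℕ → ℕ → Prop) : Prop :=
  ∀ u2 u3 u4, u2 < c3 → u3 < n3 →
    (S u2 u3 u4 → fld X (u2 + c3 * u3 + c3 * n3 * u4) = 2 ^ 49 - 1) ∧
    (¬ S u2 u3 u4 → fld X (u2 + c3 * u3 + c3 * n3 * u4) = 0)

variable {c3 n3 X Y : ℕ} {S T : ℕ → ℕ → ℕ → Prop}

theorem Ind.congr (h : Ind c3 n3 X S) (hS : ∀ u2 u3 u4, S u2 u3 u4 ↔ T u2 u3 u4) :
    Ind c3 n3 X T := fun u2 u3 u4 h2 h3 => by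
  rw [← hS]; exact h u2 u3 u4 h2 h3

theorem Ind.zero (hS : ∀ u2 u3 u4, ¬ S u2 u3 u4) : Ind c3 n3 0 S := fun _ _ _ _ _ =>
  ⟨fun h => absurd h (hS _ _ _), fun _ => fld_zero _⟩

theorem Ind.bd (hc : 0 < c3) (hn : 0 < n3) (h : Ind c3 n3 X S) (i : ℕ) : fld X i ≤ 2 ^ 49 - 1 := by
  obtain ⟨u2, u3, u4, h2, h3, rfl⟩ := exists_idx hc hn i
  by_cases hs : S u2 u3 u4
  · exact ((h u2 u3 u4 h2 h3).1 hs).le
  · rw [(h u2 u3 u4 h2 h3).2 hs]; exact Nat.zero_le _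

theorem Ind.add (h : Ind c3 n3 X S) (h' : Ind c3 n3 Y T)
    (hd : ∀ u2 u3 u4, S u2 u3 u4 → ¬ T u2 u3 u4) :
    Ind c3 n3 (X + Y) fun u2 u3 u4 => S u2 u3 u4 ∨ T u2 u3 u4 := by
  intro u2 u3 u4 h2 h3
  have hc : 0 < c3 := by omega
  have hn : 0 < n3 := by omega
  have hb : ∀ i, fld X i + fld Y i < 2 ^ 57 := fun i => by
    have := h.bd hc hn i
    have := h'.bd hc hn i
    omega
  rw [fld_add hb]
  obtain ⟨a1, a2⟩ := h u2 u3 u4 h2 h3
  obtain ⟨b1, b2⟩ := h' u2 u3 u4 h2 h3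
  refine ⟨?_, fun hn => ?_⟩
  · rintro (hs | ht)
    · rw [a1 hs, b2 (hd _ _ _ hs), add_zero]
    · rw [a2 fun hs => hd _ _ _ hs ht, b1 ht, zero_add]
  · rw [a2 fun hs => hn (Or.inl hs), b2 fun ht => hn (Or.inr ht)]

theorem Ind.shl (h : Ind c3 n3 X S) (a b c k : ℕ) (hk : k = a + c3 * b + c3 * n3 * c)
    (hS : ∀ v2 v3 v4, S v2 v3 v4 → v2 + a < c3 ∧ v3 + b < n3) :
    Ind c3 n3 (X <<< (57 * k))
      fun u2 u3 u4 => a ≤ u2 ∧ b ≤ u3 ∧ c ≤ u4 ∧ S (u2 - a) (u3 - b) (u4 - c) := by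
  intro u2 u3 u4 h2 h3
  rw [fld_shl]
  refine ⟨?_, fun hn => ?_⟩
  · rintro ⟨ha, hb, hc, hs⟩
    obtain ⟨v2, rfl⟩ := Nat.exists_eq_add_of_le ha
    obtain ⟨v3, rfl⟩ := Nat.exists_eq_add_of_le hb
    obtain ⟨v4, rfl⟩ := Nat.exists_eq_add_of_le hc
    have e : a + v2 + c3 * (b + v3) + c3 * n3 * (c + v4) = k + (v2 + c3 * v3 + c3 * n3 * v4) := by
      rw [hk]; ring
    simp only [Nat.add_sub_cancel_left] at hs
    rw [e, if_pos (Nat.le_add_right _ _), Nat.add_sub_cancel_left]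
    exact (h v2 v3 v4 (by omega) (by omega)).1 hs
  · split_ifs with hle
    · obtain ⟨v2, v3, v4, g2, g3, e⟩ := exists_idx (c3 := c3) (n3 := n3) (by omega) (by omega)
        (u2 + c3 * u3 + c3 * n3 * u4 - k)
      rw [e]
      refine (h v2 v3 v4 g2 g3).2 fun hs => hn ?_
      obtain ⟨f2, f3⟩ := hS _ _ _ hs
      have e' : u2 + c3 * u3 + c3 * n3 * u4 = (v2 + a) + c3 * (v3 + b) + c3 * n3 * (v4 + c) := by
        have : u2 + c3 * u3 + c3 * n3 * u4 = k + (v2 + c3 * v3 + c3 * n3 * v4) := by omega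
        rw [this, hk]; ring
      obtain ⟨rfl, rfl, rfl⟩ := idx_inj h2 h3 f2 f3 e'
      simpa using hs
    · rfl

theorem ind_rep {n : ℕ} (hn : n ≤ c3) :
    Ind c3 n3 (rep (2 ^ 49 - 1) 1 n) fun u2 u3 u4 => u2 < n ∧ u3 = 0 ∧ u4 = 0 := by
  intro u2 u3 u4 h2 h3
  have hx : ∀ i, 1 ≤ i → fld (2 ^ 49 - 1) i = 0 := fun i hi => by
    rw [fld_small (by norm_num), if_neg (by omega)]
  have key := fld_rep hx n (u2 + c3 * u3 + c3 * n3 * u4) 0 Nat.one_pos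
  rw [Nat.zero_add, Nat.one_mul] at key
  rw [key]
  refine ⟨?_, fun hn' => ?_⟩
  · rintro ⟨h, rfl, rfl⟩
    rw [if_pos (by simpa using h), fld_small (by norm_num), if_pos rfl]
  · rw [if_neg]
    intro hlt
    apply hn'
    have := idx_inj (c3 := c3) (n3 := n3) (u2 := u2 + c3 * u3 + c3 * n3 * u4) (u3 := 0) (u4 := 0)
      (v4 := u4) (by omega) (by omega) h2 h3 (by simp)
    omega

theorem ind_planes (n : ℕ) : ∀ j, n - 1 - j ≤ 2 * c3 → n - 1 - j ≤ 3 * n3 + 2 →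
    Ind c3 n3 (nth (chPlanes c3 n) j)
      fun u2 u3 u4 => u3 < u2 ∧ 2 * u2 + u3 < n - 1 - j ∧ u4 = 0 := by
  induction n with
  | zero => intro j _ _; exact Ind.zero fun _ _ _ => by omega
  | succ n ih =>
    intro j h2 h3
    cases j with
    | zero =>
      have h1 := (ind_rep (c3 := c3) (n3 := n3) (n := (n - 1) / 2) (by omega)).shl 1 0 0 1 (by simp)
        (fun _ _ _ h => by omega)
      have h1' := (ih 2 (by omega) (by omega)).shl 1 1 0 (1 + c3) (by simp)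
        (fun _ _ _ h => by omega)
      exact (h1.add h1' fun _ _ _ => by omega).congr fun _ _ _ => by omega
    | succ j => exact (ih j (by omega) (by omega)).congr fun _ _ _ => by omega

theorem ind_cubes (n : ℕ) : ∀ j, n - 1 - j ≤ 2 * c3 + 1 → n - 1 - j ≤ 3 * n3 + 2 →
    Ind c3 n3 (nth (chCubesAux c3 (c3 * n3) (chPlanes c3 n)) j)
      fun u2 u3 u4 => u4 < u3 ∧ u3 < u2 ∧ 2 * u2 + u3 + u4 < n - 1 - j := by
  induction n with
  | zero => intro j _ _; exact Ind.zero fun _ _ _ => by omega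
  | succ n ih =>
    intro j h2 h3
    cases j with
    | zero =>
      have h1 := (ind_planes (c3 := c3) (n3 := n3) n 2 (by omega) (by omega)).shl 1 1 0 (1 + c3)
        (by simp) (fun _ _ _ h => by omega)
      have h1' := (ih 3 (by omega) (by omega)).shl 1 1 1 (1 + c3 + c3 * n3) (by simp)
        (fun _ _ _ h => by omega)
      exact (h1.add h1' fun _ _ _ => by omega).congr fun _ _ _ => by omega
    | succ j => exact (ih j (by omega) (by omega)).congr fun _ _ _ => by omega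

theorem length_cubes (c4 n : ℕ) : (chCubesAux c3 c4 (chPlanes c3 n)).length = n := by
  induction n with
  | zero => rfl
  | succ n ih => exact congrArg (· + 1) ih

theorem nth_reverse (l : List ℕ) {s : ℕ} (hs : s < l.length) :
    nth l.reverse s = nth l (l.length - 1 - s) := by
  rw [nth_eq_getD, nth_eq_getD, List.getD_eq_getElem?_getD, List.getD_eq_getElem?_getD,
    List.getElem?_reverse hs]

/-- a table modulo `2^49` in the chamber layout -/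
structure RT (c3 n3 B X : ℕ) (φ : ℕ → ℕ → ℕ → ℤ) : Prop where
  bd : ∀ i, fld X i ≤ B
  val : ∀ u2 u3 u4, u2 < c3 → u3 < n3 →
    (fld X (u2 + c3 * u3 + c3 * n3 * u4) : ℤ) ≡ φ u2 u3 u4 [ZMOD 2 ^ 49]

variable {B B' : ℕ} {φ ψ : ℕ → ℕ → ℕ → ℤ}

theorem RT.mono (h : RT c3 n3 B X φ) (hB : B ≤ B') : RT c3 n3 B' X φ :=
  ⟨fun i => (h.bd i).trans hB, h.val⟩

theorem RT.congr (h : RT c3 n3 B X φ) (hφ : ∀ u2 u3 u4, φ u2 u3 u4 = ψ u2 u3 u4) :
    RT c3 n3 B X ψ :=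
  ⟨h.bd, fun u2 u3 u4 h2 h3 => hφ u2 u3 u4 ▸ h.val u2 u3 u4 h2 h3⟩

theorem RT.zero : RT c3 n3 B 0 fun _ _ _ => 0 :=
  ⟨fun i => by rw [fld_zero]; exact Nat.zero_le _, fun _ _ _ _ _ => by rw [fld_zero]; rfl⟩

theorem RT.add (h : RT c3 n3 B X φ) (h' : RT c3 n3 B' Y ψ) (hB : B + B' < 2 ^ 57) :
    RT c3 n3 (B + B') (X + Y) fun u2 u3 u4 => φ u2 u3 u4 + ψ u2 u3 u4 := by
  have hb : ∀ i, fld X i + fld Y i < 2 ^ 57 := fun i =>
    (Nat.add_le_add (h.bd i) (h'.bd i)).trans_lt hB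
  refine ⟨fun i => by rw [fld_add hb]; exact Nat.add_le_add (h.bd i) (h'.bd i),
    fun u2 u3 u4 h2 h3 => ?_⟩
  rw [fld_add hb, Nat.cast_add]
  exact (h.val u2 u3 u4 h2 h3).add (h'.val u2 u3 u4 h2 h3)

theorem and_mask_modEq (x : ℕ) : ((x &&& (2 ^ 49 - 1) : ℕ) : ℤ) ≡ x [ZMOD 2 ^ 49] := by
  rw [Nat.and_two_pow_sub_one_eq_mod, Int.natCast_mod]
  exact Int.mod_modEq _ _

theorem mask_val {s M : ℕ} (hM : IsCh c3 n3 s M) {u2 u3 u4 : ℕ} (h2 : u2 < c3) (h3 : u3 < n3)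
    {v : ℤ} (hv : u4 < u3 → u3 < u2 → 2 * u2 + u3 + u4 < s →
      (fld Y (u2 + c3 * u3 + c3 * n3 * u4) : ℤ) ≡ v [ZMOD 2 ^ 49]) :
    (fld (Y &&& M) (u2 + c3 * u3 + c3 * n3 * u4) : ℤ) ≡
      (if u4 < u3 ∧ u3 < u2 ∧ 2 * u2 + u3 + u4 < s then v else 0) [ZMOD 2 ^ 49] := by
  rw [fld_and, hM u2 u3 u4 h2 h3]
  split_ifs with hc
  · exact (and_mask_modEq _).trans (hv hc.1 hc.2.1 hc.2.2)
  · rw [Nat.and_zero]; rfl

theorem RT.mask (hc : 0 < c3) (hn : 0 < n3) {s M : ℕ} (hM : IsCh c3 n3 s M)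
    (hv : ∀ u2 u3 u4, u2 < c3 → u3 < n3 → u4 < u3 → u3 < u2 → 2 * u2 + u3 + u4 < s →
      (fld Y (u2 + c3 * u3 + c3 * n3 * u4) : ℤ) ≡ φ u2 u3 u4 [ZMOD 2 ^ 49]) :
    RT c3 n3 (2 ^ 49 - 1) (Y &&& M)
      fun u2 u3 u4 => if u4 < u3 ∧ u3 < u2 ∧ 2 * u2 + u3 + u4 < s then φ u2 u3 u4 else 0 := by
  refine ⟨fun i => ?_, fun u2 u3 u4 h2 h3 => mask_val hM h2 h3 (hv u2 u3 u4 h2 h3)⟩
  obtain ⟨u2, u3, u4, h2, h3, rfl⟩ := exists_idx hc hn i
  rw [fld_and]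
  refine Nat.and_le_right.trans ?_
  rw [hM u2 u3 u4 h2 h3]
  split_ifs
  · exact le_rfl
  · exact Nat.zero_le _

theorem passP_spec (k B : ℕ) (hB : B + (2 ^ 49 - 1) < 2 ^ 57) (xs : List ℕ) :
    ∀ (ms : List ℕ) (t : ℕ) (A P : ℕ → ℕ → ℕ → ℕ → ℤ), ms.length = xs.length →
      RT c3 n3 (B + (2 ^ 49 - 1)) t (P 0) → (∀ j, j < xs.length → RT c3 n3 B (nth xs j) (A j)) →
      (∀ j, j < xs.length → ∀ t', RT c3 n3 (B + (2 ^ 49 - 1)) t' (P j) →
        RT c3 n3 (2 ^ 49 - 1) ((t' <<< (57 * k)) &&& nth ms j)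
          fun u2 u3 u4 => P (j + 1) u2 u3 u4 - A j u2 u3 u4) →
      (passP k t ms xs).length = xs.length ∧
        ∀ j, j < xs.length → RT c3 n3 (B + (2 ^ 49 - 1)) (nth (passP k t ms xs) j) (P (j + 1)) := by
  induction xs with
  | nil =>
    intro ms t A P _ _ _ _
    refine ⟨?_, fun j hj => absurd hj (Nat.not_lt_zero _)⟩
    cases ms <;> rfl
  | cons x xs ih =>
    intro ms t A P hl ht hA hs
    cases ms with
    | nil => exact absurd hl (by simp)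
    | cons m ms =>
      have h0 : RT c3 n3 (B + (2 ^ 49 - 1)) (x + ((t <<< (57 * k)) &&& m)) (P 1) :=
        ((hA 0 (Nat.succ_pos _)).add (hs 0 (Nat.succ_pos _) t ht) hB).congr
          fun _ _ _ => by simp
      obtain ⟨i1, i2⟩ := ih ms _ (fun j => A (j + 1)) (fun j => P (j + 1))
        (Nat.succ.inj hl) h0 (fun j hj => hA (j + 1) (Nat.succ_lt_succ hj))
        (fun j hj => hs (j + 1) (Nat.succ_lt_succ hj))
      refine ⟨congrArg (· + 1) i1, fun j hj => ?_⟩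
      cases j with
      | zero => exact h0
      | succ j => exact i2 j (Nat.lt_of_succ_lt_succ hj)

theorem passPL_spec (k B : ℕ) (hB : B + (2 ^ 49 - 1) < 2 ^ 57) (xs ms : List ℕ) (n : ℕ)
    (A P : ℕ → ℕ → ℕ → ℕ → ℤ) (hx : xs.length = n + 1) (hm : ms.length = n + 1)
    (h0 : P 0 = A 0) (hA : ∀ j, j < n + 1 → RT c3 n3 B (nth xs j) (A j))
    (hs : ∀ j, j < n → ∀ t', RT c3 n3 (B + (2 ^ 49 - 1)) t' (P j) →
      RT c3 n3 (2 ^ 49 - 1) ((t' <<< (57 * k)) &&& nth ms (j + 1))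
        fun u2 u3 u4 => P (j + 1) u2 u3 u4 - A (j + 1) u2 u3 u4) :
    (passPL k ms xs).length = n + 1 ∧
      ∀ j, j < n + 1 → RT c3 n3 (B + (2 ^ 49 - 1)) (nth (passPL k ms xs) j) (P j) := by
  cases xs with
  | nil => exact absurd hx (by simp)
  | cons x xs =>
    cases ms with
    | nil => exact absurd hm (by simp)
    | cons m ms =>
      have hx' : xs.length = n := Nat.succ.inj hx
      have hm' : ms.length = n := Nat.succ.inj hm
      have hx0 : RT c3 n3 (B + (2 ^ 49 - 1)) x (P 0) :=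
        h0 ▸ (hA 0 (Nat.succ_pos _)).mono (Nat.le_add_right _ _)
      obtain ⟨i1, i2⟩ := passP_spec k B hB xs ms x (fun j => A (j + 1)) P (hm'.trans hx'.symm) hx0
        (fun j hj => hA (j + 1) (by omega)) (fun j hj => hs j (by omega))
      refine ⟨congrArg (· + 1) (i1.trans hx'), fun j hj => ?_⟩
      cases j with
      | zero => exact hx0
      | succ j => exact i2 j (by omega)

theorem sumL_spec (B : ℕ) (l : List ℕ) : ∀ (acc B0 : ℕ) (ψ : ℕ → ℕ → ℕ → ℤ)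
    (P : ℕ → ℕ → ℕ → ℕ → ℤ), B0 + l.length * B < 2 ^ 57 → RT c3 n3 B0 acc ψ →
    (∀ j, j < l.length → RT c3 n3 B (nth l j) (P j)) →
    RT c3 n3 (B0 + l.length * B) (sumL l acc)
      fun u2 u3 u4 => ψ u2 u3 u4 + ∑ j ∈ Finset.range l.length, P j u2 u3 u4 := by
  induction l with
  | nil => intro acc B0 ψ P _ h _; simpa [sumL] using h
  | cons x l ih =>
    intro acc B0 ψ P hB h hP
    have e : B0 + (x :: l).length * B = B0 + B + l.length * B := by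
      rw [List.length_cons]; ring
    rw [e] at hB ⊢
    have h1 := h.add (hP 0 (Nat.succ_pos _)) (by omega)
    refine (ih _ _ _ (fun j => P (j + 1)) hB h1
      fun j hj => hP (j + 1) (Nat.succ_lt_succ hj)).congr fun u2 u3 u4 => ?_
    rw [List.length_cons, Finset.sum_range_succ']
    ring

end Crest.Agent.R187.Alg
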