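import Crest.Agent.R187.Sym1

set_option autoImplicit false
open MvPolynomial Crest.AlgebraR.FoulkesHowe Module

namespace Crest.Agent.R187

namespace PieriAux

theorem rho_apply (n : ℕ) (i : Fin n) : rho n i = n - 1 - (i : ℕ) := by simp [rho]

theorem sum_tsub {n : ℕ} {g e : Fin n →₀ ℕ} (h : g ≤ e) : ∑ i, (e - g) i + ∑ i, g i = ∑ i, e i := by
  rw [← Finset.sum_add_distrib]
  exact Finset.sum_congr rfl fun i _ => by
    rw [Finsupp.tsub_apply]; exact Nat.sub_add_cancel (h i)

/-- multiplication by the complete homogeneous polynomial -/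
theorem coeff_hp_mul {n : ℕ} (P : MvPolynomial (Fin n) ℤ) (b : ℕ) (e : Fin n →₀ ℕ) :
    coeff e (hp n b 1 * P) =
      ∑ g ∈ (Finset.Iic e).filter (fun g => ∑ i, g i + b = ∑ i, e i), coeff g P := by
  simp only [hp, Finset.sum_mul, coeff_sum, coeff_monomial_mul', one_smul, one_mul]
  rw [← Finset.sum_filter]
  refine Finset.sum_nbij' (fun α => e - α) (fun g => e - g) ?_ ?_ ?_ ?_ ?_
  · intro α hα
    simp only [Finset.mem_filter, mons, Finset.mem_finsuppAntidiag, Finset.mem_Iic] at hα ⊢
    refine ⟨tsub_le_self, ?_⟩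
    rw [← hα.1.1]
    exact sum_tsub hα.2
  · intro g hg
    simp only [Finset.mem_filter, mons, Finset.mem_finsuppAntidiag, Finset.mem_Iic] at hg ⊢
    refine ⟨⟨?_, Finset.subset_univ _⟩, tsub_le_self⟩
    have := sum_tsub hg.1
    have h2 := hg.2
    change ∑ i, (e - g) i = b
    omega
  · intro α hα
    exact tsub_tsub_cancel_of_le (Finset.mem_filter.1 hα).2
  · intro g hg
    exact tsub_tsub_cancel_of_le (Finset.mem_Iic.1 (Finset.mem_filter.1 hg).1)
  · intro α _
    rfl

/-- the vectors that interlace `e` in the first `k` places -/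
noncomputable def TT {n : ℕ} (e : Fin n →₀ ℕ) (b k : ℕ) : Finset (Fin n →₀ ℕ) :=
  (Finset.Iic e).filter fun g => ∑ i, g i + b = ∑ i, e i ∧
    ∀ i j : Fin n, (i : ℕ) < k → (j : ℕ) = i + 1 → e j < g i

theorem sum_TT_succ {n : ℕ} (q : (Fin n →₀ ℕ) → ℤ)
    (hq : ∀ (w : Equiv.Perm (Fin n)) (g : Fin n →₀ ℕ),
      q (Finsupp.equivMapDomain w g) = (Equiv.Perm.sign w : ℤ) * q g)
    (e : Fin n →₀ ℕ) (he : Antitone e) (b k : ℕ) :
    ∑ g ∈ TT e b (k + 1), q g = ∑ g ∈ TT e b k, q g := by
  by_cases hk : k + 1 < n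
  · let i0 : Fin n := ⟨k, by omega⟩
    let j0 : Fin n := ⟨k + 1, hk⟩
    have hne : i0 ≠ j0 := fun h => by simpa [i0, j0] using congrArg Fin.val h
    have h1 : TT e b (k + 1) = (TT e b k).filter fun g => e j0 < g i0 := by
      ext g
      simp only [TT, Finset.mem_filter, Finset.mem_Iic]
      constructor
      · rintro ⟨a1, a2, a3⟩
        exact ⟨⟨a1, a2, fun i j hi hj => a3 i j (by omega) hj⟩, a3 i0 j0 (Nat.lt_succ_self k) rfl⟩
      · rintro ⟨⟨a1, a2, a3⟩, a4⟩
        refine ⟨a1, a2, fun i j hi hj => ?_⟩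
        by_cases hik : (i : ℕ) < k
        · exact a3 i j hik hj
        · have hi : i = i0 := Fin.ext (by simp only [i0]; omega)
          have hj : j = j0 := Fin.ext (by simp only [j0]; omega)
          rw [hi, hj]
          exact a4
    have hsw : ∀ g, q (Finsupp.equivMapDomain (Equiv.swap i0 j0) g) = -q g := fun g => by
      rw [hq, Equiv.Perm.sign_swap hne]; simp
    have h2 : ∑ g ∈ (TT e b k).filter (fun g => ¬ e j0 < g i0), q g = 0 := by
      refine Finset.sum_involution (fun g _ => Finsupp.equivMapDomain (Equiv.swap i0 j0) g) ?_ ?_ ?_ ?_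
      · intro g _
        rw [hsw]; ring
      · intro g _ hg0 hg
        have := hsw g
        rw [hg] at this
        exact hg0 (by linarith)
      · intro g hg
        simp only [TT, Finset.mem_filter, Finset.mem_Iic, Finsupp.equivMapDomain_apply,
          Equiv.symm_swap, not_lt] at hg ⊢
        obtain ⟨⟨a1, a2, a3⟩, a4⟩ := hg
        refine ⟨⟨fun i => ?_, ?_, fun i j hi hj => ?_⟩, ?_⟩
        · rw [Finsupp.equivMapDomain_apply, Equiv.symm_swap]
          by_cases hi : i = i0
          · rw [hi, Equiv.swap_apply_left]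
            exact (a1 j0).trans (he (by simp [i0, j0, Fin.le_def]))
          · by_cases hj : i = j0
            · rw [hj, Equiv.swap_apply_right]
              exact a4
            · rw [Equiv.swap_apply_of_ne_of_ne hi hj]
              exact a1 i
        · rw [Equiv.sum_comp (Equiv.swap i0 j0) g]
          exact a2
        · rw [Equiv.swap_apply_of_ne_of_ne (fun h => by simp [h, i0] at hi)
            (fun h => by simp [h, j0] at hi)]
          exact a3 i j hi hj
        · rw [Equiv.swap_apply_left]
          exact a1 j0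
      · intro g _
        ext i
        simp
    rw [h1, ← Finset.sum_filter_add_sum_filter_not (TT e b k) (fun g => e j0 < g i0), h2, add_zero]
  · refine Finset.sum_congr ?_ fun _ _ => rfl
    ext g
    simp only [TT, Finset.mem_filter, Finset.mem_Iic]
    refine and_congr_right fun _ => and_congr_right fun _ => ⟨fun h i j hi hj => h i j (by omega) hj,
      fun h i j hi hj => h i j ?_ hj⟩
    have := j.2
    omega

theorem antitone_of_mem {n : ℕ} {l m : Fin n →₀ ℕ} {b : ℕ} (hl : Antitone l) (hm : m ∈ interl l b) :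
    Antitone m := by
  simp only [interl, Finset.mem_filter, Finset.mem_Iic] at hm
  intro i j hij
  rcases eq_or_lt_of_le hij with rfl | hij
  · exact le_rfl
  · have hlt : (i : ℕ) + 1 < n := lt_of_le_of_lt (Nat.succ_le_of_lt hij) j.2
    exact (hm.1 j).trans ((hl (show (⟨i + 1, hlt⟩ : Fin n) ≤ j from Nat.succ_le_of_lt hij)).trans
      (hm.2.1 i ⟨i + 1, hlt⟩ rfl))

theorem card_le {n : ℕ} (l : Fin n →₀ ℕ) (b j : ℕ) (hj : 1 ≤ j) (hjn : j ≤ n) :
    ((interl l b).filter fun m => ∀ i : Fin n, j ≤ (i : ℕ) → m i = 0).card ≤ (j + b - 1).choose b := by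
  let i0 : Fin n := ⟨0, by omega⟩
  let s : Finset (Fin n) := Finset.univ.filter fun i => (i : ℕ) < j
  have hs : s.card = j := by simp [s, Fin.card_filter_val_lt, hjn]
  let l' : Fin n →₀ ℕ := l.filter (fun i : Fin n => (i : ℕ) < j) +
    Finsupp.single i0 (∑ i, (l.filter (fun i : Fin n => ¬ (i : ℕ) < j)) i)
  have hsum : ∑ i, l' i = ∑ i, l i := by
    simp only [l', Finsupp.add_apply, Finset.sum_add_distrib]
    rw [Finsupp.univ_sum_single_apply, ← Finset.sum_add_distrib]
    refine Finset.sum_congr rfl fun i _ => ?_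
    rw [← Finsupp.add_apply, Finsupp.filter_add_filter_not]
  have hle : ∀ m ∈ (interl l b).filter (fun m => ∀ i : Fin n, j ≤ (i : ℕ) → m i = 0), m ≤ l' := by
    intro m hm i
    simp only [interl, Finset.mem_filter, Finset.mem_Iic] at hm
    by_cases hi : (i : ℕ) < j
    · simp only [l', Finsupp.add_apply, Finsupp.filter_apply, if_pos hi]
      exact (hm.1.1 i).trans (Nat.le_add_right _ _)
    · rw [hm.2 i (not_lt.1 hi)]
      exact Nat.zero_le _
  rw [show (j + b - 1).choose b = (s.finsuppAntidiag b).card by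
    rw [Finset.card_finsuppAntidiag_nat_eq_choose, hs]]
  refine Finset.card_le_card_of_injOn (fun m => l' - m) (fun m hm => ?_) fun m hm m' hm' h => ?_
  · have h1 := hle m hm
    have h2 := sum_tsub h1
    simp only [interl, Finset.coe_filter, Finset.mem_filter, Finset.mem_Iic, Set.mem_ofPred_eq] at hm
    have h3 : (l' - m).support ⊆ s := by
      intro i hi
      rw [Finsupp.mem_support_iff, Finsupp.tsub_apply] at hi
      simp only [s, Finset.mem_filter, Finset.mem_univ, true_and]
      by_contra hij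
      have hi0 : i0 ≠ i := fun h => hij (by rw [← h]; exact hj)
      apply hi
      simp only [l', Finsupp.add_apply, Finsupp.filter_apply, if_neg hij,
        Finsupp.single_eq_of_ne' hi0, add_zero, Nat.zero_sub]
    rw [Finset.mem_coe, Finset.mem_finsuppAntidiag]
    refine ⟨?_, h3⟩
    rw [Finset.sum_subset (Finset.subset_univ s) fun i _ hi => by
      by_contra h0
      exact hi (h3 (Finsupp.mem_support_iff.2 h0))]
    have h4 := hm.1.2.2
    beta_reduce
    omega
  · have := congrArg (fun x => l' - x) h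
    simpa only [tsub_tsub_cancel_of_le (hle m hm), tsub_tsub_cancel_of_le (hle m' hm')] using this

end PieriAux

open PieriAux

/-- Pieri's rule -/
theorem mult_hp_mul {n : ℕ} (F : MvPolynomial (Fin n) ℤ) (hF : F.IsSymmetric) (b : ℕ)
    (l : Fin n →₀ ℕ) (hl : Antitone l) :
    mult (hp n b 1 * F) l = ∑ m ∈ interl l b, mult F m := by
  have he : Antitone (l + rho n : Fin n →₀ ℕ) := fun i j hij => by
    simp only [Finsupp.add_apply, rho_apply]
    have h1 := hl hij
    have h2 : (i : ℕ) ≤ j := hij
    omega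
  have h0 : mult (hp n b 1 * F) l = ∑ g ∈ TT (l + rho n) b 0, coeff g (Del n * F) := by
    rw [mult, mul_left_comm, coeff_hp_mul]
    refine Finset.sum_congr ?_ fun _ _ => rfl
    ext g
    simp [TT]
  have h1 : ∀ k, ∑ g ∈ TT (l + rho n) b k, coeff g (Del n * F)
      = ∑ g ∈ TT (l + rho n) b 0, coeff g (Del n * F) := fun k => by
    induction k with
    | zero => rfl
    | succ k ih =>
      rw [sum_TT_succ (fun g => coeff g (Del n * F)) (coeff_Del_mul_perm F hF) _ he, ih]
  rw [h0, ← h1 n]
  have h2 : ∀ g ∈ TT (l + rho n) b n, rho n ≤ g := by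
    intro g hg i
    simp only [TT, Finset.mem_filter, Finset.mem_Iic] at hg
    by_cases hi : (i : ℕ) + 1 < n
    · have := hg.2.2 i ⟨i + 1, hi⟩ i.2 rfl
      simp only [Finsupp.add_apply, rho_apply] at this ⊢
      omega
    · rw [rho_apply]
      omega
  symm
  refine Finset.sum_nbij' (fun m => m + rho n) (fun g => g - rho n) ?_ ?_ ?_ ?_ ?_
  · intro m hm
    simp only [TT, interl, Finset.mem_filter, Finset.mem_Iic] at hm ⊢
    refine ⟨add_le_add_left hm.1 _, ?_, fun i j _ hj => ?_⟩
    · simp only [Finsupp.add_apply, Finset.sum_add_distrib]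
      have := hm.2.2
      omega
    · have := hm.2.1 i j hj
      have := j.2
      simp only [Finsupp.add_apply, rho_apply]
      omega
  · intro g hg
    have h3 := h2 g hg
    simp only [TT, interl, Finset.mem_filter, Finset.mem_Iic] at hg ⊢
    refine ⟨tsub_le_iff_right.2 hg.1, fun i j hj => ?_, ?_⟩
    · have := hg.2.2 i j i.2 hj
      have := j.2
      simp only [Finsupp.add_apply, Finsupp.tsub_apply, rho_apply] at *
      omega
    · have := sum_tsub h3
      have h4 := hg.2.1
      simp only [Finsupp.add_apply, Finset.sum_add_distrib] at h4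
      omega
  · intro m _
    exact add_tsub_cancel_right _ _
  · intro g hg
    exact tsub_add_cancel_of_le (h2 g hg)
  · intro m _
    rfl

namespace PieriAux

/-- the bound for the `j`-th power -/
def BB (b : ℕ) : ℕ → ℕ
  | 0 => 1
  | j + 1 => (if j = 0 then 1 else (j + b - 1).choose b) * BB b j

theorem pow_bound {n : ℕ} (b j : ℕ) (hj : j ≤ n + 1) (l : Fin n →₀ ℕ) (hl : Antitone l) :
    mult (hp n b 1 ^ j) l ≤ BB b j ∧
      (mult (hp n b 1 ^ j) l ≠ 0 → ∀ i : Fin n, j ≤ (i : ℕ) → l i = 0) := by
  induction j generalizing l with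
  | zero =>
    rw [pow_zero]
    by_cases h : l = 0
    · subst h
      rw [mult_one_zero]
      simp [BB]
    · rw [mult_one_of_ne l hl h]
      simp [BB]
  | succ j ih =>
    have hs : (hp n b 1 ^ j).IsSymmetric := by
      have := (symmetricSubalgebra (Fin n) ℤ).pow_mem
        ((mem_symmetricSubalgebra _).2 (hp_isSymmetric n b 1)) j
      exact (mem_symmetricSubalgebra _).1 this
    rw [pow_succ', mult_hp_mul _ hs b l hl]
    constructor
    · rw [← Finset.sum_filter_of_ne (p := fun m => ∀ i : Fin n, j ≤ (i : ℕ) → m i = 0)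
        fun m hm => (ih (by omega) m (antitone_of_mem hl hm)).2]
      refine (Finset.sum_le_card_nsmul _ _ (BB b j : ℤ) fun m hm =>
        (ih (by omega) m (antitone_of_mem hl (Finset.mem_filter.1 hm).1)).1).trans ?_
      rw [nsmul_eq_mul, BB, Nat.cast_mul]
      refine mul_le_mul_of_nonneg_right ?_ (Nat.cast_nonneg _)
      rw [Nat.cast_le]
      split_ifs with h0
      · subst h0
        refine Finset.card_le_one.2 fun m hm m' hm' => ?_
        ext i
        rw [(Finset.mem_filter.1 hm).2 i (Nat.zero_le _), (Finset.mem_filter.1 hm').2 i (Nat.zero_le _)]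
      · exact card_le l b j (by omega) (by omega)
    · intro h i hi
      obtain ⟨m, hm, hm0⟩ := Finset.exists_ne_zero_of_sum_ne_zero h
      have h1 := (ih (by omega) m (antitone_of_mem hl hm)).2 hm0
      simp only [interl, Finset.mem_filter, Finset.mem_Iic] at hm
      have hi' : (i : ℕ) - 1 < n := by have := i.2; omega
      have h2 := hm.2.1 ⟨i - 1, hi'⟩ i (by simp only; omega)
      rw [h1 ⟨i - 1, hi'⟩ (by simp only; omega)] at h2
      omega

end PieriAux

/-- a crude bound for the Kostka numbers `K_{l,(b^6)}` -/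
theorem mult_hp_pow_le (b : ℕ) (l : Fin 6 →₀ ℕ) (hl : Antitone l) :
    mult (hp 6 b 1 ^ 6) l ≤
      (((b + 4).choose 4 * (b + 3).choose 3 * (b + 2).choose 2 * (b + 1) : ℕ) : ℤ) := by
  refine (pow_bound b 6 (by omega) l hl).1.trans (le_of_eq ?_)
  congr 1
  have h : ∀ k, (k + 1 + b - 1).choose b = (b + k).choose k := fun k => by
    rw [show k + 1 + b - 1 = b + k by omega, Nat.choose_symm_add]
  have h0 := h 0
  have h1 := h 1
  have h2 := h 2
  have h3 := h 3
  have h4 := h 4
  simp only [BB, if_true, OfNat.ofNat_ne_zero, one_ne_zero, if_false]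
  simp only [Nat.reduceAdd] at h0 h1 h2 h3 h4
  rw [h0, h1, h2, h3, h4]
  simp only [Nat.choose_zero_right, Nat.choose_one_right]
  ring

end Crest.Agent.R187
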