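import Crest.Agent.R187.Defs

/-! Row 187: the map `Theta` sending a monomial to the multiset of its block exponents. -/

set_option autoImplicit false
open MvPolynomial Crest.AlgebraR.FoulkesHowe Module

namespace Crest.Agent.R187

variable {a n : ℕ}

/-- block `l` of an exponent vector -/
noncomputable def blkE (m : Var a n →₀ ℕ) (l : Fin a) : Fin n →₀ ℕ :=
  Finsupp.equivFunOnFinite.symm fun k => m (l, k)

@[simp] theorem blkE_apply (m : Var a n →₀ ℕ) (l : Fin a) (k : Fin n) : blkE m l k = m (l, k) := rfl

/-- exponent vectors are families of block exponents -/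
noncomputable def blkEquiv (a n : ℕ) : (Var a n →₀ ℕ) ≃ (Fin a → Fin n →₀ ℕ) where
  toFun := blkE
  invFun p := Finsupp.equivFunOnFinite.symm fun v => p v.1 v.2
  left_inv m := by ext v; rfl
  right_inv p := by ext l k; rfl

/-- the multiset of block exponents -/
noncomputable def msetE (m : Var a n →₀ ℕ) : (Fin n →₀ ℕ) →₀ ℕ := ∑ l, Finsupp.single (blkE m l) 1

/-- a monomial goes to the monomial given by the multiset of its block exponents -/
noncomputable def Theta (a : ℕ) {n : ℕ} :
    MvPolynomial (Var a n) ℂ →ₗ[ℂ] MvPolynomial (Fin n →₀ ℕ) ℂ :=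
  (basisMonomials (Var a n) ℂ).constr ℂ fun m => monomial (msetE m) 1

theorem Theta_monomial (m : Var a n →₀ ℕ) (c : ℂ) :
    Theta a (monomial m c) = monomial (msetE m) c := by
  have h : Theta a (monomial m 1) = monomial (msetE m) 1 := by
    have := (basisMonomials (Var a n) ℂ).constr_basis ℂ
      (fun m => (monomial (msetE m) 1 : MvPolynomial (Fin n →₀ ℕ) ℂ)) m
    rwa [coe_basisMonomials] at this
  rw [← mul_one c, ← smul_eq_mul, ← smul_monomial, map_smul, h, smul_monomial]

theorem blockPerm_injective (s : Equiv.Perm (Fin a)) :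
    Function.Injective (blockPerm s : Var a n → Var a n) := fun _ _ h =>
  Prod.ext (s.injective (congrArg Prod.fst h)) (Prod.ext_iff.1 h).2

theorem blkE_mapDomain (s : Equiv.Perm (Fin a)) (m : Var a n →₀ ℕ) (l : Fin a) :
    blkE (m.mapDomain (blockPerm s)) (s l) = blkE m l := by
  ext k
  exact Finsupp.mapDomain_apply (blockPerm_injective s) m (l, k)

theorem msetE_mapDomain (s : Equiv.Perm (Fin a)) (m : Var a n →₀ ℕ) :
    msetE (m.mapDomain (blockPerm s)) = msetE m := by
  rw [msetE, ← Equiv.sum_comp s]
  simp only [blkE_mapDomain, msetE]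

theorem Theta_rename (s : Equiv.Perm (Fin a)) (f : MvPolynomial (Var a n) ℂ) :
    Theta a (rename (blockPerm s) f) = Theta a f := by
  induction f using MvPolynomial.induction_on' with
  | monomial m c => rw [rename_monomial, Theta_monomial, Theta_monomial, msetE_mapDomain]
  | add p q hp hq => rw [map_add, map_add, map_add, hp, hq]

theorem coeff_Theta (f : MvPolynomial (Var a n) ℂ) (M : (Fin n →₀ ℕ) →₀ ℕ) :
    coeff M (Theta a f) = ∑ m ∈ f.support with msetE m = M, coeff m f := by
  conv_lhs => rw [f.as_sum, map_sum, coeff_sum]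
  simp only [Theta_monomial, coeff_monomial, Finset.sum_filter]

theorem exists_perm_of_sum_single {α : Type} {u v : Fin a → α}
    (h : ∑ l, Finsupp.single (u l) 1 = ∑ l, Finsupp.single (v l) (1 : ℕ)) :
    ∃ s : Equiv.Perm (Fin a), ∀ l, v (s l) = u l := by
  classical
  refine ⟨Equiv.ofFiberEquiv fun c => Fintype.equivOfCardEq ?_, fun l =>
    Equiv.ofFiberEquiv_map _ l⟩
  have := DFunLike.congr_fun h c
  simp only [Finsupp.finsetSum_apply, Finsupp.single_apply] at this
  rw [Fintype.card_subtype, Fintype.card_subtype, Finset.card_filter, Finset.card_filter, this]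

theorem exists_perm_of_msetE {m m' : Var a n →₀ ℕ} (h : msetE m = msetE m') :
    ∃ s : Equiv.Perm (Fin a), m' = m.mapDomain (blockPerm s) := by
  obtain ⟨s, hs⟩ := exists_perm_of_sum_single h
  refine ⟨s, (blkEquiv a n).injective (funext fun l => ?_)⟩
  obtain ⟨l, rfl⟩ := s.surjective l
  exact (hs l).trans (blkE_mapDomain s m l).symm

/-- `Theta` is injective on block-symmetric polynomials. -/
theorem Theta_eq_zero {f : MvPolynomial (Var a n) ℂ}
    (hf : ∀ s : Equiv.Perm (Fin a), rename (blockPerm s) f = f) (h : Theta a f = 0) : f = 0 := by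
  by_contra h0
  obtain ⟨m, hm⟩ := support_nonempty.2 h0
  have h1 := coeff_Theta f (msetE m)
  rw [h, coeff_zero, Finset.sum_congr rfl (g := fun _ => coeff m f), Finset.sum_const,
    nsmul_eq_mul] at h1
  · refine mul_ne_zero (Nat.cast_ne_zero.2 (Finset.card_ne_zero.2 ⟨m, by simpa using hm⟩))
      (mem_support_iff.1 hm) h1.symm
  · intro m' hm'
    obtain ⟨s, rfl⟩ := exists_perm_of_msetE (Finset.mem_filter.1 hm').2.symm
    conv_lhs => rw [← hf s]
    exact coeff_rename_mapDomain _ (blockPerm_injective s) f m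

theorem rename_of_mem_blockSym {d : ℕ} {f : MvPolynomial (Var a n) ℂ} (hf : f ∈ blockSym a n d)
    (s : Equiv.Perm (Fin a)) : rename (blockPerm s) f = f :=
  (Submodule.mem_iInf _).1 hf.2 s

theorem mem_blockSym_iff {d : ℕ} {f : MvPolynomial (Var a n) ℂ} : f ∈ blockSym a n d ↔
    f ∈ multiHom a n d ∧ ∀ s : Equiv.Perm (Fin a), rename (blockPerm s) f = f :=
  and_congr Iff.rfl (Submodule.mem_iInf _)

theorem Theta_injOn (a n d : ℕ) : Set.InjOn (Theta a (n := n)) (blockSym a n d) := fun f hf g hg h =>
  sub_eq_zero.1 (Theta_eq_zero (rename_of_mem_blockSym ((blockSym a n d).sub_mem hf hg))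
    (by rw [map_sub, h, sub_self]))

theorem msetE_add {c e : ℕ} (m : Var c n →₀ ℕ) (m' : Var e n →₀ ℕ) :
    msetE (m.mapDomain (Prod.map (Fin.castAdd e) id) + m'.mapDomain (Prod.map (Fin.natAdd c) id)) =
      msetE m + msetE m' := by
  have i1 : Function.Injective (Prod.map (Fin.castAdd e) id : Var c n → Var (c + e) n) :=
    (Fin.castAdd_injective c e).prodMap Function.injective_id
  have i2 : Function.Injective (Prod.map (Fin.natAdd c) id : Var e n → Var (c + e) n) :=
    (Fin.natAdd_injective e c).prodMap Function.injective_id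
  rw [msetE, Fin.sum_univ_add, msetE, msetE]
  congr 1
  · refine Finset.sum_congr rfl fun l _ => ?_
    congr 1
    ext k
    rw [blkE_apply, Finsupp.add_apply, Finsupp.mapDomain_of_notMem_range m', add_zero]
    · exact Finsupp.mapDomain_apply i1 m (l, k)
    · rintro ⟨v, hv⟩
      have := congrArg (fun w : Var (c + e) n => (w.1 : ℕ)) hv
      simp at this
      omega
  · refine Finset.sum_congr rfl fun l _ => ?_
    congr 1
    ext k
    rw [blkE_apply, Finsupp.add_apply, Finsupp.mapDomain_of_notMem_range m, zero_add]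
    · exact Finsupp.mapDomain_apply i2 m' (l, k)
    · rintro ⟨v, hv⟩
      have := congrArg (fun w : Var (c + e) n => (w.1 : ℕ)) hv
      simp at this
      omega

/-- `Theta` is multiplicative on products of polynomials in disjoint sets of blocks. -/
theorem Theta_mul {c e : ℕ} (F : MvPolynomial (Var c n) ℂ) (G : MvPolynomial (Var e n) ℂ) :
    Theta (c + e) (rename (Prod.map (Fin.castAdd e) id) F * rename (Prod.map (Fin.natAdd c) id) G) =
      Theta c F * Theta e G := by
  induction F using MvPolynomial.induction_on' with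
  | add p q hp hq => simp only [map_add, add_mul, hp, hq]
  | monomial m x =>
    induction G using MvPolynomial.induction_on' with
    | add p q hp hq => simp only [map_add, mul_add, hp, hq]
    | monomial m' y =>
      simp only [rename_monomial, monomial_mul, Theta_monomial, msetE_add]

theorem weight_blockWeight (l : Fin a) (m : Var a n →₀ ℕ) :
    Finsupp.weight (blockWeight l) m = ∑ k, m (l, k) := by
  rw [Finsupp.weight_eq_sum, Fintype.sum_prod_type, Finset.sum_comm]
  simp [blockWeight]

theorem weight_single_snd (m : Var a n →₀ ℕ) :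
    Finsupp.weight (fun v : Var a n => (Finsupp.single v.2 1 : Fin n →₀ ℕ)) m = ∑ l, blkE m l := by
  rw [Finsupp.weight_eq_sum, Fintype.sum_prod_type]
  refine Finset.sum_congr rfl fun l _ => ?_
  conv_rhs => rw [← (blkE m l).univ_sum_single]
  simp

theorem mem_mons {d : ℕ} {α : Fin n →₀ ℕ} : α ∈ mons n d ↔ ∑ k, α k = d := by
  simp [mons]

theorem mem_multiHom {d : ℕ} {f : MvPolynomial (Var a n) ℂ} :
    f ∈ multiHom a n d ↔ ∀ m ∈ f.support, ∀ l, blkE m l ∈ mons n d := by
  simp only [multiHom, Submodule.mem_iInf, mem_weightedHomogeneousSubmodule,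
    IsWeightedHomogeneous, weight_blockWeight, mem_mons, MvPolynomial.mem_support_iff, blkE_apply]
  exact ⟨fun h m hm l => h l hm, fun h l m hm => h m hm l⟩

theorem mem_wsp {V : Submodule ℂ (MvPolynomial (Var a n) ℂ)} {μ : Fin n →₀ ℕ}
    {f : MvPolynomial (Var a n) ℂ} :
    f ∈ wsp V μ ↔ f ∈ V ∧ ∀ m ∈ f.support, ∑ l, blkE m l = μ := by
  simp only [wsp, Submodule.mem_inf, mem_weightedHomogeneousSubmodule,
    IsWeightedHomogeneous, weight_single_snd, MvPolynomial.mem_support_iff]

theorem EE_apply (i j : Fin n) (f : MvPolynomial (Var a n) ℂ) :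
    EE a i j f = ∑ l : Fin a, X (l, i) * pderiv (l, j) f := by
  simp [EE, LinearMap.sum_apply]

theorem rename_EE (s : Equiv.Perm (Fin a)) (i j : Fin n) (f : MvPolynomial (Var a n) ℂ) :
    rename (blockPerm s) (EE a i j f) = EE a i j (rename (blockPerm s) f) := by
  rw [EE_apply, EE_apply, map_sum, ← Equiv.sum_comp s fun l => X (l, i) * _]
  refine Finset.sum_congr rfl fun l _ => ?_
  rw [map_mul, rename_X, ← pderiv_rename (blockPerm_injective s)]
  rfl

end Crest.Agent.R187
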