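import Crest.Agent.R187.Theta
import Crest.Agent.R187.ThetaDef

set_option autoImplicit false
open MvPolynomial Crest.AlgebraR.FoulkesHowe Module

namespace Crest.Agent.R187

namespace SemiAux

variable {a n c e d : ℕ}

/-- the first `c` blocks -/
abbrev i1 (c e n : ℕ) : Var c n → Var (c + e) n := Prod.map (Fin.castAdd e) id
/-- the last `e` blocks -/
abbrev i2 (c e n : ℕ) : Var e n → Var (c + e) n := Prod.map (Fin.natAdd c) id

theorem i1_inj : Function.Injective (i1 c e n) :=
  (Fin.castAdd_injective c e).prodMap Function.injective_id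

theorem i2_inj : Function.Injective (i2 c e n) :=
  (Fin.natAdd_injective e c).prodMap Function.injective_id

theorem notMem_i2 (l : Fin c) (k : Fin n) : (Fin.castAdd e l, k) ∉ Set.range (i2 c e n) := by
  rintro ⟨v, hv⟩
  have := congrArg (fun w : Var (c + e) n => (w.1 : ℕ)) hv
  simp at this
  omega

theorem notMem_i1 (l : Fin e) (k : Fin n) : (Fin.natAdd c l, k) ∉ Set.range (i1 c e n) := by
  rintro ⟨v, hv⟩
  have := congrArg (fun w : Var (c + e) n => (w.1 : ℕ)) hv
  simp at this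
  omega

theorem blkE_cast (m : Var c n →₀ ℕ) (m' : Var e n →₀ ℕ) (l : Fin c) :
    blkE (m.mapDomain (i1 c e n) + m'.mapDomain (i2 c e n)) (Fin.castAdd e l) = blkE m l := by
  ext k
  rw [blkE_apply, Finsupp.add_apply, Finsupp.mapDomain_of_notMem_range m' _ (notMem_i2 l k),
    add_zero]
  exact Finsupp.mapDomain_apply i1_inj m (l, k)

theorem blkE_nat (m : Var c n →₀ ℕ) (m' : Var e n →₀ ℕ) (l : Fin e) :
    blkE (m.mapDomain (i1 c e n) + m'.mapDomain (i2 c e n)) (Fin.natAdd c l) = blkE m' l := by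
  ext k
  rw [blkE_apply, Finsupp.add_apply, Finsupp.mapDomain_of_notMem_range m _ (notMem_i1 l k),
    zero_add]
  exact Finsupp.mapDomain_apply i2_inj m' (l, k)

theorem mem_wsp_multiHom {μ : Fin n →₀ ℕ} {f : MvPolynomial (Var a n) ℂ} :
    f ∈ wsp (multiHom a n d) μ ↔
      ∀ m ∈ f.support, (∀ l, blkE m l ∈ mons n d) ∧ ∑ l, blkE m l = μ := by
  rw [mem_wsp, mem_multiHom]
  exact ⟨fun h m hm => ⟨h.1 m hm, h.2 m hm⟩, fun h => ⟨fun m hm => (h m hm).1, fun m hm => (h m hm).2⟩⟩

theorem mul_mem {μ ν : Fin n →₀ ℕ} {F : MvPolynomial (Var c n) ℂ} {G : MvPolynomial (Var e n) ℂ}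
    (hF : F ∈ wsp (multiHom c n d) μ) (hG : G ∈ wsp (multiHom e n d) ν) :
    rename (i1 c e n) F * rename (i2 c e n) G ∈ wsp (multiHom (c + e) n d) (μ + ν) := by
  classical
  rw [mem_wsp_multiHom] at hF hG ⊢
  intro m hm
  obtain ⟨m1, h1, m2, h2, rfl⟩ := Finset.mem_add.1 (support_mul _ _ hm)
  rw [support_rename_of_injective i1_inj, Finset.mem_image] at h1
  rw [support_rename_of_injective i2_inj, Finset.mem_image] at h2
  obtain ⟨m1, h1, rfl⟩ := h1
  obtain ⟨m2, h2, rfl⟩ := h2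
  refine ⟨fun l => ?_, ?_⟩
  · refine Fin.addCases (fun l => ?_) (fun l => ?_) l
    · rw [blkE_cast]; exact (hF m1 h1).1 l
    · rw [blkE_nat]; exact (hG m2 h2).1 l
  · rw [Fin.sum_univ_add]
    simp only [blkE_cast, blkE_nat]
    rw [(hF m1 h1).2, (hG m2 h2).2]

theorem rename_mem {μ : Fin n →₀ ℕ} {f : MvPolynomial (Var a n) ℂ}
    (hf : f ∈ wsp (multiHom a n d) μ) (s : Equiv.Perm (Fin a)) :
    rename (blockPerm s) f ∈ wsp (multiHom a n d) μ := by
  classical
  rw [mem_wsp_multiHom] at hf ⊢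
  intro m hm
  rw [support_rename_of_injective (blockPerm_injective s), Finset.mem_image] at hm
  obtain ⟨m, hm, rfl⟩ := hm
  refine ⟨fun l => ?_, ?_⟩
  · obtain ⟨l, rfl⟩ := s.surjective l
    rw [blkE_mapDomain]; exact (hf m hm).1 l
  · rw [← Equiv.sum_comp s]
    simp only [blkE_mapDomain]
    exact (hf m hm).2

theorem pderiv_rename_zero {σ τ : Type} (ι : σ → τ) {v : τ} (hv : v ∉ Set.range ι)
    (F : MvPolynomial σ ℂ) : pderiv v (rename ι F) = 0 := by
  classical
  induction F using MvPolynomial.induction_on with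
  | C x => simp
  | add p q hp hq => simp [hp, hq]
  | mul_X p i hp =>
    have : ι i ≠ v := fun h => hv ⟨i, h⟩
    rw [map_mul, rename_X, pderiv_mul, hp, pderiv_X_of_ne this]
    simp

theorem EE_mul (i j : Fin n) (f g : MvPolynomial (Var a n) ℂ) :
    EE a i j (f * g) = EE a i j f * g + f * EE a i j g := by
  simp only [EE_apply, pderiv_mul, Finset.sum_mul, Finset.mul_sum, ← Finset.sum_add_distrib]
  exact Finset.sum_congr rfl fun l _ => by ring

theorem EE_i1 (i j : Fin n) (F : MvPolynomial (Var c n) ℂ) :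
    EE (c + e) i j (rename (i1 c e n) F) = rename (i1 c e n) (EE c i j F) := by
  rw [EE_apply, EE_apply, Fin.sum_univ_add, map_sum]
  simp only [pderiv_rename_zero _ (notMem_i1 _ _), mul_zero, Finset.sum_const_zero, add_zero]
  refine Finset.sum_congr rfl fun l _ => ?_
  rw [map_mul, rename_X, ← pderiv_rename i1_inj]
  rfl

theorem EE_i2 (i j : Fin n) (G : MvPolynomial (Var e n) ℂ) :
    EE (c + e) i j (rename (i2 c e n) G) = rename (i2 c e n) (EE e i j G) := by
  rw [EE_apply, EE_apply, Fin.sum_univ_add, map_sum]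
  simp only [pderiv_rename_zero _ (notMem_i2 _ _), mul_zero, Finset.sum_const_zero, zero_add]
  refine Finset.sum_congr rfl fun l _ => ?_
  rw [map_mul, rename_X, ← pderiv_rename i2_inj]
  rfl

theorem mem_hwv {μ : Fin n →₀ ℕ} {f : MvPolynomial (Var a n) ℂ} :
    f ∈ hwv (blockSym a n d) μ ↔ f ∈ wsp (multiHom a n d) μ ∧
      (∀ s : Equiv.Perm (Fin a), rename (blockPerm s) f = f) ∧
      ∀ i j : Fin n, i < j → EE a i j f = 0 := by
  simp only [hwv, Submodule.mem_inf, Submodule.mem_iInf, LinearMap.mem_ker, mem_wsp,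
    mem_blockSym_iff]
  tauto

/-- symmetrised product with `G` -/
noncomputable def J (c : ℕ) (G : MvPolynomial (Var e n) ℂ) :
    MvPolynomial (Var c n) ℂ →ₗ[ℂ] MvPolynomial (Var (c + e) n) ℂ :=
  ∑ s : Equiv.Perm (Fin (c + e)), (rename (blockPerm s)).toLinearMap ∘ₗ
    LinearMap.mulRight ℂ (rename (i2 c e n) G) ∘ₗ (rename (i1 c e n)).toLinearMap

theorem J_apply (G : MvPolynomial (Var e n) ℂ) (F : MvPolynomial (Var c n) ℂ) :
    J c G F = ∑ s : Equiv.Perm (Fin (c + e)),
      rename (blockPerm s) (rename (i1 c e n) F * rename (i2 c e n) G) := by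
  simp only [J, LinearMap.sum_apply, LinearMap.comp_apply, AlgHom.toLinearMap_apply,
    LinearMap.mulRight_apply]

theorem J_mem {μ ν : Fin n →₀ ℕ} {F : MvPolynomial (Var c n) ℂ} {G : MvPolynomial (Var e n) ℂ}
    (hF : F ∈ hwv (blockSym c n d) μ) (hG : G ∈ hwv (blockSym e n d) ν) :
    J c G F ∈ hwv (blockSym (c + e) n d) (μ + ν) := by
  rw [mem_hwv] at hF hG ⊢
  rw [J_apply]
  refine ⟨Submodule.sum_mem _ fun s _ => rename_mem (mul_mem hF.1 hG.1) s, fun t => ?_,
    fun i j hij => ?_⟩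
  · rw [map_sum]
    conv_rhs => rw [← Equiv.sum_comp (Equiv.mulLeft t)]
    refine Finset.sum_congr rfl fun s _ => ?_
    rw [rename_rename]
    rfl
  · rw [map_sum]
    refine Finset.sum_eq_zero fun s _ => ?_
    rw [← rename_EE, EE_mul, EE_i1, EE_i2, hF.2.2 i j hij, hG.2.2 i j hij]
    simp

theorem Theta_J (G : MvPolynomial (Var e n) ℂ) (F : MvPolynomial (Var c n) ℂ) :
    Theta (c + e) (J c G F) =
      (Fintype.card (Equiv.Perm (Fin (c + e))) : ℂ) • (Theta c F * Theta e G) := by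
  rw [J_apply, map_sum]
  simp only [Theta_rename, Theta_mul, Finset.sum_const, Finset.card_univ]
  rw [Nat.cast_smul_eq_nsmul]

theorem finite_hwv (μ : Fin n →₀ ℕ) : Module.Finite ℂ (hwv (blockSym a n d) μ) := by
  refine Submodule.finiteDimensional_of_le (S₂ := restrictDegree (Var a n) ℂ d) fun f hf => ?_
  rw [mem_restrictDegree]
  intro m hm v
  have := mem_mons.1 ((mem_wsp_multiHom.1 (mem_hwv.1 hf).1 m hm).1 v.1)
  rw [← this]
  exact Finset.single_le_sum (f := fun k => blkE m v.1 k) (fun _ _ => Nat.zero_le _)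
    (Finset.mem_univ v.2)

end SemiAux

open SemiAux in
/-- multiplication by a nonzero highest weight vector in the domain `Sym (Sym^d)` -/
theorem hwv_semigroup (n d c e : ℕ) (μ ν : Fin n →₀ ℕ) (h : hwv (blockSym e n d) ν ≠ ⊥) :
    finrank ℂ (hwv (blockSym c n d) μ) ≤ finrank ℂ (hwv (blockSym (c + e) n d) (μ + ν)) := by
  obtain ⟨G, hG, hG0⟩ := (Submodule.ne_bot_iff _).1 h
  have := finite_hwv (a := c + e) (d := d) (μ + ν)
  refine LinearMap.finrank_le_finrank_of_injective
    (f := (J c G).restrict fun F hF => J_mem hF hG) ?_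
  rw [injective_iff_map_eq_zero]
  intro F hF
  have h1 : J c G F = 0 := congrArg Subtype.val hF
  have h2 := Theta_J G (F : MvPolynomial (Var c n) ℂ)
  rw [h1, map_zero, eq_comm, smul_eq_zero, mul_eq_zero] at h2
  rcases h2 with h2 | h2 | h2
  · exact absurd h2 (Nat.cast_ne_zero.2 Fintype.card_ne_zero)
  · exact Subtype.ext (Theta_eq_zero (mem_hwv.1 F.2).2.1 h2)
  · exact absurd (Theta_eq_zero (mem_hwv.1 hG).2.1 h2) hG0

end Crest.Agent.R187
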