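import Crest.Agent.R187.Conc
import Crest.Agent.R187.Semi
import Crest.Agent.R187.Pieri

set_option autoImplicit false
open MvPolynomial Crest.AlgebraR.FoulkesHowe Module

namespace Crest.Agent.R187


theorem mult_HH_eq (n a d : ℕ) (l : Fin n →₀ ℕ) (hl : Antitone l) :
    mult (HH n a d) l = (finrank ℂ (hwv (blockSym a n d) l) : ℤ) :=
  (good_blockSym a n d).wcf _ (char_blockSym a n d) l hl

theorem mult_HH_nonneg (n a d : ℕ) (l : Fin n →₀ ℕ) (hl : Antitone l) : 0 ≤ mult (HH n a d) l := by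
  rw [mult_HH_eq n a d l hl]; positivity

theorem mult_semigroup (n d c e : ℕ) (μ ν : Fin n →₀ ℕ) (hμ : Antitone μ) (hν : Antitone ν)
    (h : 0 < mult (HH n e d) ν) : mult (HH n c d) μ ≤ mult (HH n (c + e) d) (μ + ν) := by
  have hμν : Antitone (μ + ν : Fin n →₀ ℕ) := fun i j hij => by
    simpa using add_le_add (hμ hij) (hν hij)
  rw [mult_HH_eq _ _ _ _ hμ, mult_HH_eq _ _ _ _ hμν]
  rw [mult_HH_eq _ _ _ _ hν] at h
  have hne : hwv (blockSym e n d) ν ≠ ⊥ := by
    intro h0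
    rw [h0] at h
    simp at h
  exact_mod_cast hwv_semigroup n d c e μ ν hne

theorem mult_HH_le (b : ℕ) (l : Fin 6 →₀ ℕ) (hl : Antitone l) :
    mult (HH 6 6 b) l ≤
      (((b + 4).choose 4 * (b + 3).choose 3 * (b + 2).choose 2 * (b + 1) : ℕ) : ℤ) := by
  refine le_trans ?_ (mult_hp_pow_le b l hl)
  rw [mult_HH_eq _ _ _ _ hl, (good_multiHom 6 6 b).wcf _ (char_multiHom 6 6 b) l hl]
  have hfd := (good_multiHom 6 6 b).finiteDimensional
  have h1 : hwv (blockSym 6 6 b) l ≤ hwv (multiHom 6 6 b) l :=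
    inf_le_inf_right _ (inf_le_inf_right _ inf_le_left)
  have h2 : hwv (multiHom 6 6 b) l ≤ multiHom 6 6 b := le_trans inf_le_left inf_le_left
  have : FiniteDimensional ℂ (hwv (multiHom 6 6 b) l) := Submodule.finiteDimensional_of_le h2
  exact_mod_cast Submodule.finrank_mono h1

end Crest.Agent.R187
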