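import Crest.Agent.R187.RepB
import Crest.Agent.R187.Iface

set_option autoImplicit false
open MvPolynomial

namespace Crest.Agent.R187.Alg
open Crest.Agent.R187

namespace Cmp1

theorem pow_lt57 {p : ℕ} (hp : p ≤ 46) : 720 * 2 ^ p ≤ 2 ^ 56 :=
  calc 720 * 2 ^ p ≤ 2 ^ 10 * 2 ^ 46 :=
        Nat.mul_le_mul (by norm_num) (Nat.pow_le_pow_right (by norm_num) hp)
    _ = 2 ^ 56 := by rw [← pow_add]

theorem mod_lt56 {p : ℕ} (hp : p ≤ 46) (x : ℕ) : 720 * (x % 2 ^ p) < 2 ^ 56 :=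
  lt_of_lt_of_le (Nat.mul_lt_mul_of_pos_left (Nat.mod_lt _ (by positivity)) (by norm_num))
    (pow_lt57 hp)

theorem lt5657 : 2 ^ 56 < 2 ^ 57 := Nat.pow_lt_pow_right (by norm_num) (by norm_num)

theorem fld_ones {p w : ℕ} (hp : p ≤ 46) (hw : w ≤ 78) (j : ℕ) :
    fld (nth (onesL p) w) j = if j < w then 2 ^ p - 1 else 0 := by
  have h1 : 2 ^ p - 1 < 2 ^ 57 := by
    have := pow_lt57 hp
    have := lt5657
    omega
  rw [onesL, nth_tab, if_pos (by omega)]
  have := fld_rep (x := 2 ^ p - 1) (s := 1)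
    (fun i hi => by rw [fld_small h1, if_neg (by omega)]) w j 0 one_pos
  rw [zero_add, one_mul, fld_small h1, if_pos rfl] at this
  exact this

theorem fld_mask {p w : ℕ} (hp : p ≤ 46) (hw : w ≤ 78) (Y j : ℕ) :
    fld (Y &&& nth (onesL p) w) j = if j < w then fld Y j % 2 ^ p else 0 := by
  rw [fld_and, fld_ones hp hw]
  split_ifs
  · exact Nat.and_two_pow_sub_one_eq_mod _ _
  · exact Nat.and_zero _

theorem fld_row {p w : ℕ} (hp : p ≤ 46) (hw : w ≤ 78) (Y o i : ℕ) :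
    fld (((Y &&& nth (onesL p) w) * 720) <<< (57 * o)) i =
      if o ≤ i ∧ i - o < w then 720 * (fld Y (i - o) % 2 ^ p) else 0 := by
  rw [fld_shl, mul_comm _ 720]
  by_cases h : o ≤ i
  · rw [if_pos h, fld_mul, fld_mask hp hw]
    · by_cases h' : i - o < w
      · rw [if_pos h', if_pos ⟨h, h'⟩]
      · rw [if_neg h', if_neg fun hh => h' hh.2]
    · intro j
      rw [fld_mask hp hw]
      split_ifs
      · exact (mod_lt56 hp _).trans lt5657
      · positivity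
  · rw [if_neg h, if_neg fun hh => h hh.1]

theorem fld_fRows {p h : ℕ} (hp : p ≤ 46) (hh : h ≤ 78) (c3 s X n : ℕ) (v2 v3 : ℕ) (hv : v2 < 78) :
    fld (fRows c3 h s X (onesL p) n) (v2 + 78 * v3) =
      if 1 ≤ v3 ∧ v3 ≤ n ∧ v3 + 1 ≤ v2 ∧ v2 < min h ((s - (v3 - 1)) / 2) then
        720 * (fld X (v2 + c3 * v3) % 2 ^ p) else 0 := by
  induction n generalizing v2 v3 with
  | zero => rw [fRows, fld_zero, if_neg (by omega)]
  | succ v ih =>
    have hw : min h ((s - v) / 2) - (v + 2) ≤ 78 := by omega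
    have key : ∀ v2 v3, v2 < 78 →
        fld (fRows c3 h s X (onesL p) v) (v2 + 78 * v3) +
          fld ((((X >>> (57 * (c3 * (v + 1) + (v + 2)))) &&&
            nth (onesL p) (min h ((s - v) / 2) - (v + 2))) * 720) <<<
            (57 * (78 * (v + 1) + (v + 2)))) (v2 + 78 * v3) =
        if 1 ≤ v3 ∧ v3 ≤ v + 1 ∧ v3 + 1 ≤ v2 ∧ v2 < min h ((s - (v3 - 1)) / 2) then
          720 * (fld X (v2 + c3 * v3) % 2 ^ p) else 0 := by
      intro v2 v3 hv
      rw [ih v2 v3 hv, fld_row hp hw, fld_shr]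
      by_cases h3 : v3 = v + 1
      · subst h3
        rw [if_neg (by omega), zero_add, Nat.add_sub_cancel]
        by_cases h4 : v + 1 + 1 ≤ v2 ∧ v2 < min h ((s - v) / 2)
        · rw [if_pos (by omega), if_pos (by omega)]
          congr 3
          omega
        · rw [if_neg (by omega), if_neg (by omega)]
      · rw [if_neg (c := _ ∧ _ - _ < _) (by omega), add_zero]
        exact if_congr (by omega) rfl rfl
    rw [fRows, fld_add, key v2 v3 hv]
    intro i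
    rw [← Nat.mod_add_div i 78, key _ _ (Nat.mod_lt _ (by norm_num))]
    split_ifs
    · exact (mod_lt56 hp _).trans lt5657
    · positivity

theorem antitone_mk6 {a b c d e f : ℕ} (h1 : b ≤ a) (h2 : c ≤ b) (h3 : d ≤ c) (h4 : e ≤ d)
    (h5 : f ≤ e) : Antitone (mk6 a b c d e f) := by
  rw [Fin.antitone_iff_succ_le]
  intro i
  fin_cases i <;> assumption

theorem sum_mk6 (a b c d e f : ℕ) : ∑ i, mk6 a b c d e f i = a + b + c + d + e + f := by
  rw [Fin.sum_univ_six]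
  rfl

theorem res_le {x p p' : ℕ} {f : ℤ} (hp : p' ≤ p) (h : (x : ℤ) ≡ f [ZMOD 2 ^ p]) (hf : 0 ≤ f) :
    ((x % 2 ^ p' : ℕ) : ℤ) ≤ f := by
  have h1 : (x : ℤ) % 2 ^ p' = f % 2 ^ p' := h.of_dvd (pow_dvd_pow 2 hp)
  push_cast
  rw [h1]
  have h2 := Int.emod_add_mul_ediv f (2 ^ p')
  have h3 : 0 ≤ 2 ^ p' * (f / 2 ^ p') := mul_nonneg (by positivity) (Int.ediv_nonneg hf (by positivity))
  linarith

/-- occurring partitions -/
def Occ (c : ℕ) (l : Fin 6 →₀ ℕ) : Prop :=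
  Antitone l ∧ ∑ i, l i = 6 * c ∧ 0 < mult (HH 6 c 6) l

theorem Occ.add {c e : ℕ} {μ ν : Fin 6 →₀ ℕ} (h : Occ c μ) (h' : Occ e ν) : Occ (c + e) (μ + ν) := by
  refine ⟨fun i j hij => by simpa using add_le_add (h.1 hij) (h'.1 hij), ?_,
    h.2.2.trans_le (mult_semigroup 6 6 c e μ ν h.1 h'.1 h'.2.2)⟩
  simp only [Finsupp.add_apply, Finset.sum_add_distrib, h.2.1, h'.2.1]
  ring

theorem Occ.add_smul {c e : ℕ} {μ ν : Fin 6 →₀ ℕ} (h : Occ c μ) (h' : Occ e ν) (k : ℕ) :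
    Occ (c + e * k) (μ + k • ν) := by
  induction k with
  | zero => simpa using h
  | succ k ih =>
    have := ih.add h'
    rwa [add_assoc, add_assoc, ← Nat.mul_succ, ← succ_nsmul] at this

theorem LeafOk.occ {f : Leaf} (hf : LeafOk f) {v2 v3 : ℕ} (hv : v2 < 78)
    (h : 0 < fld f.g (v2 + 78 * v3)) : Occ f.c (muOf f.c f.m4 f.m5 f.m6 v2 v3) := by
  obtain ⟨h1, h2, h3, h4, h5, h6⟩ := hf.val v2 v3 hv h
  refine ⟨antitone_mk6 (by omega) (by omega) (by omega) h4 h3, ?_, ?_⟩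
  · rw [muOf, sum_mk6]
    omega
  · have : (0 : ℤ) < fld f.g (v2 + 78 * v3) := by exact_mod_cast h
    linarith

end Cmp1

open Cmp1

theorem chkTr_spec {L : Lay} {p p' k M5 M6 : ℕ} {Q : List (List ℕ)} {T : Tr} (hL : L.Ok)
    (hc2 : L.c2 = 1) (hn2 : L.n2 ≤ 78) (hp : p' ≤ p) (hp' : p' ≤ 46)
    (hQ : RepQ L p M5 M6 Q (15 + 6 * k) (Del 6 * HH 6 k 6))
    (h : chkTr L (onesL p') Q k M5 M6 T = true) : TrOk T := by
  induction T with
  | node l r ihl ihr =>
    rw [chkTr, Bool.and_eq_true] at h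
    intro q
    rw [Tr.look]
    cases Nat.beq (q % 2) 0
    · exact ihr h.2 _
    · exact ihl h.1 _
  | leaf c m4 m5 m6 g =>
    simp only [chkTr, Bool.and_eq_true, Nat.beq_eq, Nat.ble_eq, Nat.blt_eq] at h
    obtain ⟨⟨⟨⟨⟨⟨rfl, a1⟩, a2⟩, a3⟩, a4⟩, a5⟩, rfl⟩ := h
    have hh : L.n2 - (m4 + 2) ≤ 78 := by omega
    intro q
    refine ⟨fun i => ?_, fun v2 v3 hv hpos => ?_⟩
    · simp only [Tr.look, fPlane]
      rw [← Nat.mod_add_div i 78, fld_fRows hp' hh _ _ _ _ _ _ (Nat.mod_lt _ (by norm_num))]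
      split_ifs
      · exact mod_lt56 hp' _
      · positivity
    · simp only [Tr.look, fPlane] at hpos ⊢
      rw [fld_fRows hp' hh _ _ _ _ _ _ hv] at hpos ⊢
      split_ifs at hpos ⊢ with hc
      swap
      · exact absurd hpos (lt_irrefl 0)
      have b1 : 2 * (v2 + m4 - 2) + (v3 + m4 - 1) + m4 + m5 + m6 ≤ 6 * c := by omega
      refine ⟨hc.1, by omega, a3, a4, b1, ?_⟩
      have hanti : Antitone (muOf c m4 m5 m6 v2 v3) :=
        antitone_mk6 (by omega) (by omega) (by omega) a4 a3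
      have hsum : ∑ i, muOf c m4 m5 m6 v2 v3 i = 6 * c := by
        rw [muOf, sum_mk6]
        omega
      have hf := mult_HH_nonneg 6 c 6 _ hanti
      rw [fld_mod, fld_shr]
      split_ifs
      swap
      · simp only [Nat.zero_mod, mul_zero, Nat.cast_zero]
        positivity
      have hv := (hQ (m5 + 1) m6 (by omega) a1 a2).val (v2 + m4 + 2) (v3 + m4 + 2) (m4 + 2)
        (by omega) (by omega) a5
      have e1 : L.idx (v2 + m4 + 2) (v3 + m4 + 2) (m4 + 2) =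
          v2 + L.c3 * v3 + (m4 + 2) * (1 + L.c3 + L.c4) := by
        rw [Lay.idx, hc2]
        ring
      have e2 : mult (HH 6 c 6) (muOf c m4 m5 m6 v2 v3) =
          sl (15 + 6 * c) (Del 6 * HH 6 c 6) (m5 + 1) m6 (v2 + m4 + 2) (v3 + m4 + 2) (m4 + 2) := by
        rw [mult_eq_deh _ _ _ hsum, sl, add_comm 15]
        have d1 : muOf c m4 m5 m6 v2 v3 1 + 4 = v2 + m4 + 2 := by
          change v2 + m4 - 2 + 4 = _
          omega
        have d2 : muOf c m4 m5 m6 v2 v3 2 + 3 = v3 + m4 + 2 := by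
          change v3 + m4 - 1 + 3 = _
          omega
        rw [d1, d2]
        rfl
      rw [e1, ← e2] at hv
      rw [Nat.cast_mul, Nat.cast_ofNat]
      exact mul_le_mul_of_nonneg_left (res_le hp hv hf) (by norm_num)

theorem TrOk.node {l r : Tr} (hl : TrOk l) (hr : TrOk r) : TrOk (.node l r) := by
  intro q
  rw [Tr.look]
  cases Nat.beq (q % 2) 0
  · exact hr _
  · exact hl _

theorem NuOk.node {l r : Nu} (hl : NuOk l) (hr : NuOk r) : NuOk (.node l r) := by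
  intro q
  rw [Nu.look]
  cases Nat.beq (q % 2) 0
  · exact hr _
  · exact hl _

theorem TrOk.pos {T : Tr} (hT : TrOk T) (p c m4 m5 m6 v2 v3 : ℕ) (hv : v2 < 78)
    (h : (Nat.beq (T.look p).c c && Nat.beq (T.look p).m4 m4 && Nat.beq (T.look p).m5 m5 &&
      Nat.beq (T.look p).m6 m6 && Nat.blt 0 (fld (T.look p).g (v2 + 78 * v3))) = true) :
    0 < mult (HH 6 c 6) (muOf c m4 m5 m6 v2 v3) := by
  simp only [Bool.and_eq_true, Nat.beq_eq, Nat.blt_eq] at h
  obtain ⟨⟨⟨⟨rfl, rfl⟩, rfl⟩, rfl⟩, h⟩ := h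
  exact (LeafOk.occ (hT p) hv h).2.2

theorem chkNu_spec {T : Tr} {N : Nu} (hT : TrOk T) (hR : RectOk) (h : chkNu T N = true) : NuOk N := by
  induction N with
  | node l r ihl ihr =>
    rw [chkNu, Bool.and_eq_true] at h
    exact (ihl h.1).node (ihr h.2)
  | leaf e n4 n5 n6 d2 d3 p g2 g3 k1 k2 k3 k4 k5 k6 =>
    simp only [chkNu, chkNuLeaf, Bool.and_eq_true, Nat.beq_eq, Nat.blt_eq] at h
    obtain ⟨⟨⟨⟨⟨⟨⟨a1, a2⟩, a3⟩, a4⟩, a5⟩, a6⟩, a7⟩, a8⟩ := h
    obtain ⟨h1, h2, -⟩ := (hT p).val g2 g3 a7 a8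
    have o0 := LeafOk.occ (hT p) a7 a8
    generalize T.look p = f at *
    have o1 : Occ 1 (mk6 6 0 0 0 0 0) :=
      ⟨antitone_mk6 (by omega) (by omega) (by omega) (by omega) (by omega), sum_mk6 .., hR.r1⟩
    have o2 : Occ 2 (mk6 6 6 0 0 0 0) :=
      ⟨antitone_mk6 (by omega) (by omega) (by omega) (by omega) (by omega), sum_mk6 .., hR.r2⟩
    have o3 : Occ 3 (mk6 6 6 6 0 0 0) :=
      ⟨antitone_mk6 (by omega) (by omega) (by omega) (by omega) (by omega), sum_mk6 .., hR.r3⟩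
    have o4 : Occ 4 (mk6 6 6 6 6 0 0) :=
      ⟨antitone_mk6 (by omega) (by omega) (by omega) (by omega) (by omega), sum_mk6 .., hR.r4⟩
    have o5 : Occ 5 (mk6 6 6 6 6 6 0) :=
      ⟨antitone_mk6 (by omega) (by omega) (by omega) (by omega) (by omega), sum_mk6 .., hR.r5⟩
    have o6 : Occ 6 (mk6 6 6 6 6 6 6) :=
      ⟨antitone_mk6 (by omega) (by omega) (by omega) (by omega) (by omega), sum_mk6 .., hR.r6⟩
    have o := (((((o0.add_smul o1 k1).add_smul o2 k2).add_smul o3 k3).add_smul o4 k4).add_smul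
      o5 k5).add_smul o6 k6
    rw [one_mul, ← a1] at o
    intro q
    refine ⟨_, o.1, o.2.1, o.2.2, ?_, ?_, ?_, ?_, ?_⟩ <;>
      simp only [Nu.look, Finsupp.add_apply, Finsupp.smul_apply, smul_eq_mul, muOf, Deh_apply,
        Matrix.cons_val] <;> omega

end Crest.Agent.R187.Alg
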