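import Crest.Agent.R187.Defs

set_option autoImplicit false
open MvPolynomial Crest.AlgebraR.FoulkesHowe Module

namespace Crest.Agent.R187

variable {n a a' D : ℕ}

namespace GroupAux

theorem aeval_comm {M M' : Type*} [AddCommGroup M] [Module ℂ M] [AddCommGroup M'] [Module ℂ M']
    {V : Submodule ℂ M} {φ : M →ₗ[ℂ] M'} {A : End ℂ M} {A' : End ℂ M'}
    (h : ∀ f ∈ V, A f ∈ V ∧ φ (A f) = A' (φ f)) (q : Polynomial ℂ) :
    ∀ f ∈ V, Polynomial.aeval A q f ∈ V ∧
      φ (Polynomial.aeval A q f) = Polynomial.aeval A' q (φ f) := by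
  induction q using Polynomial.induction_on with
  | C c => exact fun f hf => ⟨by simpa using V.smul_mem c hf, by simp⟩
  | add p q hp hq =>
    exact fun f hf => ⟨by simpa using V.add_mem (hp f hf).1 (hq f hf).1, by
      simp [(hp f hf).2, (hq f hf).2]⟩
  | monomial m c ih =>
    intro f hf
    simp only [pow_succ, ← mul_assoc, map_mul (Polynomial.aeval _) _ Polynomial.X,
      Polynomial.aeval_X, End.mul_apply]
    rw [← (h f hf).2]
    exact ih _ (h f hf).1

theorem EE_apply (i j : Fin n) (f : MvPolynomial (Var a n) ℂ) :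
    EE a i j f = ∑ l : Fin a, X (l, i) * pderiv (l, j) f := by
  simp [EE]

theorem EE_mul (i j : Fin n) (f g : MvPolynomial (Var a n) ℂ) :
    EE a i j (f * g) = EE a i j f * g + f * EE a i j g := by
  simp only [EE_apply, pderiv_mul, Finset.sum_mul, Finset.mul_sum, ← Finset.sum_add_distrib]
  exact Finset.sum_congr rfl fun l _ => by ring

theorem EE_X (i j : Fin n) (l : Fin a) (k : Fin n) :
    EE a i j (X (l, k)) = if k = j then X (l, i) else 0 := by
  rw [EE_apply, Finset.sum_eq_single l (fun b _ hb => by simp [pderiv_X, hb]) (by simp)]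
  by_cases h : k = j
  · simp [h]
  · simp [pderiv_X, h]

theorem linSubst_X (g : Matrix (Fin n) (Fin n) ℂ) (l : Fin a) (k : Fin n) :
    linSubst a g (X (l, k)) = ∑ j, g k j • X (l, j) := by
  simp [linSubst]

theorem linSubst_mul (g h : Matrix (Fin n) (Fin n) ℂ) (f : MvPolynomial (Var a n) ℂ) :
    linSubst a (g * h) f = linSubst a h (linSubst a g f) := by
  refine AlgHom.congr_fun (show linSubst a (g * h) = (linSubst a h).comp (linSubst a g) from
    algHom_ext fun ⟨l, k⟩ => ?_) f
  simp only [AlgHom.comp_apply, linSubst_X, map_sum, map_smul, Matrix.mul_apply, Finset.sum_smul,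
    Finset.smul_sum, mul_smul]
  exact Finset.sum_comm

theorem linSubst_one (f : MvPolynomial (Var a n) ℂ) : linSubst a (1 : Matrix _ _ ℂ) f = f := by
  refine AlgHom.congr_fun (show linSubst a (1 : Matrix _ _ ℂ) = AlgHom.id _ _ from
    algHom_ext fun ⟨l, k⟩ => ?_) f
  simp [linSubst_X, Matrix.one_apply]

theorem conj {k l : Fin n} (hkl : k ≠ l) (t : ℂ) (f : MvPolynomial (Var a n) ℂ) :
    linSubst a (Matrix.transvection k l t) (EE a k k f) =
      (EE a k k + t • EE a l k) (linSubst a (Matrix.transvection k l t) f) := by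
  have hX : ∀ (i : Fin a) (j : Fin n), linSubst a (Matrix.transvection k l t) (X (i, j)) =
      X (i, j) + if j = k then t • X (i, l) else 0 := fun i j => by
    by_cases h : j = k
    · simp [linSubst_X, Matrix.transvection, Matrix.one_apply, Matrix.single_apply, add_smul,
        Finset.sum_add_distrib, h]
    · simp [linSubst_X, Matrix.transvection, Matrix.one_apply, h, Ne.symm h]
  induction f using MvPolynomial.induction_on with
  | C c => simp [EE_apply]
  | add p q hp hq => simp only [map_add, hp, hq]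
  | mul_X p v hp =>
    obtain ⟨i, j⟩ := v
    simp only [EE_mul, map_add, map_mul, hp, LinearMap.add_apply, LinearMap.smul_apply, EE_X, hX]
    by_cases h : j = k
    · simp only [if_pos h, hX, if_true, map_smul, EE_X, if_neg hkl.symm]
      simp only [smul_eq_C_mul]
      ring
    · simp only [if_neg h, map_zero, smul_eq_C_mul]
      ring

theorem diag (k : Fin n) (c : ℂ) (N : ℕ) : ∃ q : Polynomial ℂ, ∀ (a : ℕ)
    (f : MvPolynomial (Var a n) ℂ), f.totalDegree ≤ N →
      linSubst a (Matrix.diagonal (Pi.mulSingle k c)) f = Polynomial.aeval (EE a k k) q f := by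
  refine ⟨Lagrange.interpolate (Finset.range (N + 1)) (fun i => (i : ℂ)) fun i => c ^ i,
    fun a f hf => ?_⟩
  rw [f.as_sum, map_sum, map_sum]
  refine Finset.sum_congr rfl fun m hm => ?_
  have h1 : ∑ l : Fin a, m (l, k) ≤ N := by
    refine le_trans ?_ ((le_totalDegree hm).trans hf)
    rw [Finsupp.sum_fintype _ _ (fun _ => rfl), Fintype.sum_prod_type]
    exact Finset.sum_le_sum fun l _ =>
      Finset.single_le_sum (f := fun j => m (l, j)) (fun _ _ => Nat.zero_le _) (Finset.mem_univ k)
  have h2 : EE a k k (monomial m (coeff m f)) =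
      ((∑ l : Fin a, m (l, k) : ℕ) : ℂ) • monomial m (coeff m f) := by
    simp only [EE_apply, X_mul_pderiv_monomial, Nat.cast_smul_eq_nsmul, Finset.sum_smul]
  rw [End.aeval_apply_of_mem_apply_eq_smul h2, Lagrange.eval_interpolate_at_node
    (v := fun i : ℕ => (i : ℂ)) _ Nat.cast_injective.injOn (Finset.mem_range_succ_iff.2 h1),
    linSubst, aeval_monomial, monomial_eq, Finsupp.prod_fintype _ _ (fun _ => pow_zero _),
    Finsupp.prod_fintype _ _ (fun _ => pow_zero _), ← mul_smul_comm]
  congr 1
  simp only [Matrix.diagonal_apply, ite_smul, zero_smul, Finset.sum_ite_eq, Finset.mem_univ,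
    if_true, smul_pow, Finset.prod_smul]
  congr 1
  rw [Fintype.prod_prod_type, ← Finset.prod_pow_eq_pow_sum]
  exact Finset.prod_congr rfl fun l _ => by
    rw [Finset.prod_eq_single k (fun j _ hj => by simp [hj]) (by simp), Pi.mulSingle_eq_same]

theorem conj_diag {V : Submodule ℂ (MvPolynomial (Var a n) ℂ)}
    {φ : MvPolynomial (Var a n) ℂ →ₗ[ℂ] MvPolynomial (Var a' n) ℂ}
    (A : ∀ a : ℕ, End ℂ (MvPolynomial (Var a n) ℂ))
    (hA : ∀ f ∈ V, A a f ∈ V ∧ φ (A a f) = A a' (φ f)) {g h : Matrix (Fin n) (Fin n) ℂ}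
    (hgh : g * h = 1) (k : Fin n) (c : ℂ)
    (hc : ∀ a f, linSubst a h (EE a k k f) = A a (linSubst a h f)) :
    ∀ f ∈ V, linSubst a (g * Matrix.diagonal (Pi.mulSingle k c) * h) f ∈ V ∧
      φ (linSubst a (g * Matrix.diagonal (Pi.mulSingle k c) * h) f) =
        linSubst a' (g * Matrix.diagonal (Pi.mulSingle k c) * h) (φ f) := by
  intro f hf
  obtain ⟨q, hq⟩ := diag k c
    (max (linSubst a g f).totalDegree (linSubst a' g (φ f)).totalDegree)
  have key : ∀ a u, (linSubst a g u).totalDegree ≤ _ →
      linSubst a (g * Matrix.diagonal (Pi.mulSingle k c) * h) u = Polynomial.aeval (A a) q u :=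
    fun a u hu => by
      rw [linSubst_mul, linSubst_mul, hq a _ hu]
      refine ((aeval_comm (V := ⊤) (φ := (linSubst a h).toLinearMap)
        (fun f _ => ⟨trivial, hc a f⟩) q _ trivial).2).trans ?_
      rw [AlgHom.toLinearMap_apply, ← linSubst_mul, hgh, linSubst_one]
  rw [key a f (le_max_left _ _), key a' _ (le_max_right _ _)]
  exact aeval_comm hA q f hf

theorem trans_eq {k l : Fin n} (hkl : k ≠ l) (t : ℂ) :
    Matrix.transvection k l (-t) * Matrix.diagonal (Pi.mulSingle k 2) * Matrix.transvection k l t *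
      Matrix.diagonal (Pi.mulSingle k 2⁻¹) = Matrix.transvection k l t := by
  have : Matrix.diagonal (Pi.mulSingle k 2) * Matrix.transvection k l t *
      Matrix.diagonal (Pi.mulSingle k 2⁻¹) = Matrix.transvection k l (2 * t) := by
    ext i j
    rw [Matrix.mul_diagonal, Matrix.diagonal_mul]
    by_cases hi : i = k <;> by_cases hj : j = k <;>
      simp [Matrix.transvection, Matrix.one_apply, Matrix.single_apply, hi, hj, hkl.symm, Ne.symm]
  rw [mul_assoc, mul_assoc, ← mul_assoc (Matrix.diagonal _), this,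
    Matrix.transvection_mul_transvection_same _ _ hkl]
  congr 1
  ring

end GroupAux

open GroupAux

/-- equivariance for the Lie algebra implies equivariance for the group -/
theorem Good.linSubst_comm {V : Submodule ℂ (MvPolynomial (Var a n) ℂ)} (hV : Good V D)
    (φ : MvPolynomial (Var a n) ℂ →ₗ[ℂ] MvPolynomial (Var a' n) ℂ)
    (hc : ∀ i j, ∀ f ∈ V, φ (EE a i j f) = EE a' i j (φ f))
    (g : Matrix (Fin n) (Fin n) ℂ) (_hg : IsUnit g) :
    ∀ f ∈ V, linSubst a g f ∈ V ∧ φ (linSubst a g f) = linSubst a' g (φ f) := by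
  let P : Matrix (Fin n) (Fin n) ℂ → Prop := fun g =>
    ∀ f ∈ V, linSubst a g f ∈ V ∧ φ (linSubst a g f) = linSubst a' g (φ f)
  have hmul : ∀ g h, P g → P h → P (g * h) := fun g h pg ph f hf => by
    rw [linSubst_mul, linSubst_mul, ← (pg f hf).2]
    exact ph _ (pg f hf).1
  have hdiag : ∀ d, P (Matrix.diagonal d) := fun d => by
    refine Pi.mulSingle_induction (fun d => P (Matrix.diagonal d)) d (fun f hf => ?_)
      (fun d e pd pe => ?_) fun k c => ?_
    · simpa [show Matrix.diagonal (1 : Fin n → ℂ) = 1 from Matrix.diagonal_one,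
        linSubst_one] using hf
    · exact (Matrix.diagonal_mul_diagonal d e : _ = Matrix.diagonal (d * e)) ▸ hmul _ _ pd pe
    · simpa using conj_diag (fun a => EE a k k) (fun f hf => ⟨hV.stab k k f hf, hc k k f hf⟩)
        (mul_one 1) k c fun a f => by rw [linSubst_one, linSubst_one]
  refine Matrix.diagonal_transvection_induction P g (fun d _ => hdiag d) ?_ hmul
  rintro ⟨k, l, hkl, t⟩
  rw [Matrix.TransvectionStruct.toMatrix_mk, ← trans_eq hkl t]
  refine hmul _ _ (conj_diag (fun a => EE a k k + t • EE a l k) (fun f hf => ⟨?_, ?_⟩) ?_ k 2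
    fun a f => conj hkl t f) (hdiag _)
  · exact V.add_mem (hV.stab k k f hf) (V.smul_mem t (hV.stab l k f hf))
  · simp [hc k k f hf, hc l k f hf]
  · simp [Matrix.transvection_mul_transvection_same _ _ hkl]

end Crest.Agent.R187
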