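import Crest.Agent.R187.ThetaDef

/-! Row 187: construction of the Foulkes–Howe map by coefficient extraction. -/

set_option autoImplicit false
open MvPolynomial Crest.AlgebraR.FoulkesHowe Module

namespace Crest.Agent.R187

/-- the coefficients of a polynomial lie in the span of its values -/
theorem Psi_coeff_mem {σ A : Type} [CommRing A] [Algebra ℂ A] (U : Submodule ℂ A)
    (G : MvPolynomial σ A) (h : ∀ y : σ → ℂ, eval (fun v => algebraMap ℂ A (y v)) G ∈ U)
    (m : σ →₀ ℕ) : coeff m G ∈ U := by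
  classical
  by_contra hm
  obtain ⟨φ, h1, h2⟩ := U.exists_dual_map_eq_bot_of_notMem hm inferInstance
  have h3 : (∑ d ∈ G.support, monomial d (φ (coeff d G)) : MvPolynomial σ ℂ) = 0 := by
    refine MvPolynomial.funext fun y => ?_
    have h4 : φ (eval (fun v => algebraMap ℂ A (y v)) G) = 0 :=
      (Submodule.mem_bot ℂ).1 (h2 ▸ Submodule.mem_map_of_mem (h y))
    rw [map_zero, ← h4, map_sum, eval_eq, map_sum]
    refine Finset.sum_congr rfl fun d _ => ?_
    rw [eval_monomial, Finsupp.prod, mul_comm (coeff d G)]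
    simp only [← map_pow, ← map_prod, ← Algebra.smul_def, map_smul, smul_eq_mul]
    exact mul_comm _ _
  have h5 := congrArg (coeff m) h3
  rw [coeff_sum, coeff_zero, Finset.sum_eq_single m (fun d _ hd => by rw [coeff_monomial, if_neg hd])
    (fun hd => by rw [notMem_support_iff.1 hd, map_zero, monomial_zero, coeff_zero]),
    coeff_monomial, if_pos rfl] at h5
  exact h1 h5

theorem Psi_prod_X {ι σ A : Type} [Fintype ι] [CommSemiring A] (g : ι → σ) :
    (∏ p, X (g p) : MvPolynomial σ A) = monomial (∑ p, Finsupp.single (g p) 1) 1 := by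
  rw [monomial_sum_one]
  rfl

/-- the all-ones exponent -/
noncomputable def Psi_one (b a : ℕ) : Fin b × Fin a →₀ ℕ := ∑ q, Finsupp.single q 1

/-- the multilinear coefficient -/
theorem Psi_key (a b : ℕ) : ∃ N : ℕ, N ≠ 0 ∧ ∀ (A : Type) [CommRing A] (c : Fin b × Fin a → A),
    coeff (Psi_one b a) (∏ j, (∑ l, X (j, l) * C (c (j, l))) ^ a) = N • ∏ q, c q := by
  classical
  refine ⟨(Finset.univ.filter fun φ : Fin b × Fin a → Fin a =>
    ∑ p, Finsupp.single (p.1, φ p) 1 = Psi_one b a).card,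
    Finset.card_ne_zero.2 ⟨Prod.snd, by simp [Psi_one]⟩, fun A _ c => ?_⟩
  have h1 : (∏ j, (∑ l, X (j, l) * C (c (j, l))) ^ a : MvPolynomial (Fin b × Fin a) A) =
      ∏ p : Fin b × Fin a, ∑ l, X (p.1, l) * C (c (p.1, l)) := by
    rw [Fintype.prod_prod_type]
    simp
  rw [h1, Finset.prod_univ_sum, coeff_sum, Fintype.piFinset_univ, ← Finset.sum_const,
    Finset.sum_filter]
  refine Finset.sum_congr rfl fun φ _ => ?_
  rw [Finset.prod_mul_distrib, Psi_prod_X, ← map_prod, mul_comm, C_mul_monomial, mul_one,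
    coeff_monomial]
  split_ifs with h
  · have h2 := congrArg (fun m => eval c (monomial m 1)) h
    simp only [Psi_one, ← Psi_prod_X, map_prod, eval_X] at h2
    exact h2
  · rfl

theorem Psi_word {n : ℕ} (a : ℕ) (α : Fin n →₀ ℕ) (h : ∑ k, α k = a) :
    ∃ v : Fin a → Fin n, ∑ l, Finsupp.single (v l) 1 = α := by
  induction a generalizing α with
  | zero =>
    refine ⟨Fin.elim0, ?_⟩
    ext k
    simpa using (Finset.sum_eq_zero_iff.1 h k (Finset.mem_univ k)).symm
  | succ a ih =>
    obtain ⟨k, -, hk⟩ := Finset.exists_ne_zero_of_sum_ne_zero (h.trans_ne a.succ_ne_zero)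
    obtain ⟨β, rfl⟩ := exists_add_of_le (Finsupp.single_le_iff.2 (Nat.one_le_iff_ne_zero.2 hk))
    obtain ⟨v, hv⟩ := ih β (by
      simp only [Finsupp.add_apply, Finset.sum_add_distrib, Finsupp.single_apply,
        Finset.sum_ite_eq, Finset.mem_univ, if_true] at h
      omega)
    exact ⟨Fin.cons k v, by simp [Fin.sum_univ_succ, hv]⟩

variable {a b n : ℕ}

/-- the substitution `x_j ↦ ∑_l t_{j,l} x_l` -/
noncomputable def Psi_sub (a b n : ℕ) :
    MvPolynomial (Var b n) ℂ →ₐ[ℂ] MvPolynomial (Fin b × Fin a) (MvPolynomial (Var a n) ℂ) :=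
  aeval fun v => ∑ l, X (v.1, l) * C (X (l, v.2))

/-- the Foulkes–Howe map -/
noncomputable def Psi_map (a b n : ℕ) : MvPolynomial (Var b n) ℂ →ₗ[ℂ] MvPolynomial (Var a n) ℂ :=
  (lcoeff _ (Psi_one b a)).restrictScalars ℂ ∘ₗ (Psi_sub a b n).toLinearMap

theorem Psi_map_apply (f : MvPolynomial (Var b n) ℂ) :
    Psi_map a b n f = coeff (Psi_one b a) (Psi_sub a b n f) := rfl

theorem Psi_EE_mul_X (i j : Fin n) (f : MvPolynomial (Var a n) ℂ) (l : Fin a) (k : Fin n) :
    EE a i j (f * X (l, k)) = EE a i j f * X (l, k) + if k = j then f * X (l, i) else 0 := by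
  classical
  simp only [EE_apply, Derivation.leibniz, smul_eq_mul, mul_add, Finset.sum_add_distrib,
    Finset.sum_mul, pderiv_X, Pi.single_apply, Prod.mk.injEq]
  rw [add_comm]
  congr 1
  · exact Finset.sum_congr rfl fun _ _ => by ring
  · split_ifs with h
    · simp [h, mul_comm]
    · simp [h]

theorem Psi_coeff_mul (g : MvPolynomial (Fin b × Fin a) (MvPolynomial (Var a n) ℂ)) (j : Fin b)
    (k : Fin n) (τ : Fin b × Fin a →₀ ℕ) : coeff τ (g * Psi_sub a b n (X (j, k))) =
      ∑ l, if (j, l) ∈ τ.support then coeff (τ - Finsupp.single (j, l) 1) g * X (l, k) else 0 := by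
  classical
  rw [Psi_sub, aeval_X, Finset.mul_sum, coeff_sum]
  refine Finset.sum_congr rfl fun l _ => ?_
  rw [← mul_assoc, mul_comm _ (C _), coeff_C_mul, coeff_mul_X', mul_ite, mul_zero, mul_comm]

theorem Psi_equiv (i j : Fin n) (f : MvPolynomial (Var b n) ℂ) (τ : Fin b × Fin a →₀ ℕ) :
    coeff τ (Psi_sub a b n (EE b i j f)) = EE a i j (coeff τ (Psi_sub a b n f)) := by
  classical
  induction f using MvPolynomial.induction_on generalizing τ with
  | C c =>
    have : Psi_sub a b n (C c) = C (C c) := (Psi_sub a b n).commutes c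
    rw [this, coeff_C]
    split_ifs <;> simp [EE_apply]
  | add p q hp hq => simp only [map_add, coeff_add, hp, hq]
  | mul_X p v hp =>
    obtain ⟨l, k⟩ := v
    rw [Psi_EE_mul_X, map_add, map_mul, map_mul, coeff_add, Psi_coeff_mul, Psi_coeff_mul, map_sum]
    by_cases h : k = j
    · rw [if_pos h, map_mul, Psi_coeff_mul, ← Finset.sum_add_distrib]
      refine Finset.sum_congr rfl fun l' _ => ?_
      split_ifs
      · rw [Psi_EE_mul_X, if_pos h, hp]
      · simp
    · rw [if_neg h, map_zero, coeff_zero, add_zero]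
      refine Finset.sum_congr rfl fun l' _ => ?_
      split_ifs
      · rw [Psi_EE_mul_X, if_neg h, hp, add_zero]
      · simp

/-- products of powers of linear forms -/
noncomputable def Psi_P (a : ℕ) (y : Fin b → Fin n → ℂ) : MvPolynomial (Var b n) ℂ :=
  ∏ j, (∑ k, y j k • X (j, k)) ^ a

theorem Psi_map_P (a b n : ℕ) : ∃ N : ℕ, N ≠ 0 ∧ ∀ y : Fin b → Fin n → ℂ,
    Psi_map a b n (Psi_P a y) = N • ∏ j, NN a (y j) := by
  obtain ⟨N, hN, h⟩ := Psi_key a b
  refine ⟨N, hN, fun y => ?_⟩
  have h1 := h _ fun q => (∑ k, y q.1 k • X (q.2, k) : MvPolynomial (Var a n) ℂ)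
  rw [Fintype.prod_prod_type] at h1
  rw [Psi_map_apply, Psi_P, map_prod]
  refine Eq.trans ?_ h1
  congr 1
  refine Finset.prod_congr rfl fun j _ => ?_
  rw [map_pow, map_sum]
  congr 1
  simp only [map_smul, Psi_sub, aeval_X, map_sum, Finset.smul_sum, Finset.mul_sum]
  rw [Finset.sum_comm]
  refine Finset.sum_congr rfl fun l _ => Finset.sum_congr rfl fun k _ => ?_
  rw [← mul_smul_comm, ← algebraMap_smul (MvPolynomial (Var a n) ℂ) (y j k) (C _), smul_eq_C_mul,
    ← map_mul, ← Algebra.smul_def]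

theorem Psi_P_mem (y : Fin b → Fin n → ℂ) : Psi_P a y ∈ multiHom b n a := by
  refine (Submodule.mem_iInf _).2 fun i => ?_
  have h := IsWeightedHomogeneous.prod (w := blockWeight i) Finset.univ
    (fun j => (∑ k, y j k • X (j, k) : MvPolynomial (Var b n) ℂ) ^ a)
    (fun j => a • (if j = i then 1 else 0)) fun j _ => IsWeightedHomogeneous.pow
      (Submodule.sum_mem (weightedHomogeneousSubmodule ℂ (blockWeight i) _) fun k _ =>
        Submodule.smul_mem _ _ (isWeightedHomogeneous_X ℂ (blockWeight i) (j, k))) a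
  simpa [Psi_P] using h

theorem Psi_rename_P (s : Equiv.Perm (Fin b)) (y : Fin b → Fin n → ℂ) :
    rename (blockPerm s) (Psi_P a (fun j => y (s j))) = Psi_P a y := by
  rw [Psi_P, Psi_P, map_prod, ← Equiv.prod_comp s fun j => (∑ k, y j k • X (j, k)) ^ a]
  simp [blockPerm]

/-- the products of powers of linear forms span the multihomogeneous polynomials -/
theorem Psi_multiHom_le {U : Submodule ℂ (MvPolynomial (Var b n) ℂ)} (h : ∀ y, Psi_P a y ∈ U) :
    multiHom b n a ≤ U := by
  classical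
  intro f hf
  rw [f.as_sum]
  refine Submodule.sum_mem _ fun m hm => ?_
  choose u hu using fun j => Psi_word a _ (mem_mons.1 (mem_multiHom.1 hf m hm j))
  obtain ⟨N, hN, hk⟩ := Psi_key a b
  have h1 := Psi_coeff_mem U (∏ j, (∑ l, X (j, l) * C (X (j, u j l))) ^ a) (fun t => by
    convert h fun j k => ∑ l, if u j l = k then t (j, l) else 0 using 1
    rw [map_prod, Psi_P]
    refine Finset.prod_congr rfl fun j _ => ?_
    rw [map_pow, map_sum]
    congr 1
    simp only [Finset.sum_smul, ite_smul, zero_smul]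
    rw [Finset.sum_comm]
    simp [Algebra.smul_def]) (Psi_one b a)
  rw [hk _ fun q => (X (q.1, u q.1 q.2) : MvPolynomial (Var b n) ℂ), Psi_prod_X] at h1
  have h2 : ∑ q : Fin b × Fin a, Finsupp.single (q.1, u q.1 q.2) 1 = m := by
    ext ⟨j, k⟩
    have := DFunLike.congr_fun (hu j) k
    simp only [Finsupp.finsetSum_apply, Finsupp.single_apply, blkE_apply] at this
    simp [Finsupp.finsetSum_apply, Finsupp.single_apply, Fintype.sum_prod_type, ← this, ite_and]
  rw [h2, ← Nat.cast_smul_eq_nsmul ℂ] at h1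
  have h3 := U.smul_mem (coeff m f * (N : ℂ)⁻¹) h1
  rwa [smul_smul, inv_mul_cancel_right₀ (Nat.cast_ne_zero.2 hN), smul_monomial, smul_eq_mul,
    mul_one] at h3

theorem Psi_map_blockSym (a n b : ℕ) : (blockSym b n a).map (Psi_map a b n) = RR a n b := by
  obtain ⟨N, hN, h⟩ := Psi_map_P a b n
  refine le_antisymm (Submodule.map_le_iff_le_comap.2 fun f hf =>
    Psi_multiHom_le (fun y => ?_) (mem_blockSym_iff.1 hf).1) (Submodule.span_le.2 ?_)
  · rw [Submodule.mem_comap, h]
    exact nsmul_mem (Submodule.subset_span (Set.mem_range_self y)) N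
  · rintro _ ⟨y, rfl⟩
    have h1 : ∑ s : Equiv.Perm (Fin b), Psi_P a (fun j => y (s j)) ∈ blockSym b n a := by
      refine mem_blockSym_iff.2 ⟨Submodule.sum_mem _ fun s _ => Psi_P_mem _, fun t => ?_⟩
      rw [map_sum, ← Equiv.sum_comp (Equiv.mulRight t)]
      exact Finset.sum_congr rfl fun s _ => Psi_rename_P t fun j => y (s j)
    have h2 : Psi_map a b n (∑ s : Equiv.Perm (Fin b), Psi_P a (fun j => y (s j))) =
        ((Fintype.card (Equiv.Perm (Fin b)) * N : ℕ) : ℂ) • ∏ j, NN a (y j) := by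
      rw [map_sum, Nat.cast_smul_eq_nsmul, mul_nsmul', ← Finset.card_univ, ← Finset.sum_const]
      refine Finset.sum_congr rfl fun s _ => ?_
      rw [h, Equiv.prod_comp s fun j => NN a (y j)]
    have h3 := Submodule.smul_mem _ ((Fintype.card (Equiv.Perm (Fin b)) * N : ℕ) : ℂ)⁻¹
      (Submodule.mem_map_of_mem (f := Psi_map a b n) h1)
    rwa [h2, inv_smul_smul₀ (Nat.cast_ne_zero.2 (mul_ne_zero Fintype.card_ne_zero hN))] at h3

end Crest.Agent.R187
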