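import Mathlib

/-! Row 187: the algebraic core of the surjectivity of the Foulkes–Howe map. -/

set_option autoImplicit false

namespace Crest.Agent.R187.SurjAux

open Polynomial

variable {A : Type} [CommRing A] [Algebra ℂ A]

/-- A polynomial all of whose values lie in a subspace has its coefficients in the subspace. -/
theorem coeff_mem (U : Submodule ℂ A) (p : A[X]) (h : ∀ c : ℂ, p.eval (algebraMap ℂ A c) ∈ U)
    (j : ℕ) : p.coeff j ∈ U := by
  rw [← Subspace.forall_mem_dualAnnihilator_apply_eq_zero_iff]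
  intro φ hφ
  have h0 : (∑ i ∈ p.support, monomial i (φ (p.coeff i)) : ℂ[X]) = 0 := by
    refine Polynomial.funext fun c => ?_
    have := (Submodule.mem_dualAnnihilator φ).1 hφ _ (h c)
    rw [eval_eq_sum, Polynomial.sum, map_sum] at this
    rw [eval_finsetSum, eval_zero, ← this]
    refine Finset.sum_congr rfl fun i _ => ?_
    rw [eval_monomial, ← map_pow, mul_comm (p.coeff i), ← Algebra.smul_def, map_smul, smul_eq_mul,
      mul_comm]
  have h1 := congrArg (fun q => coeff q j) h0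
  simp only [finsetSum_coeff, coeff_monomial, Finset.sum_ite_eq', coeff_zero] at h1
  split_ifs at h1 with hj
  · exact h1
  · rw [notMem_support_iff.1 hj, map_zero]

theorem mem_of_smul_mem {U : Submodule ℂ A} {k : ℕ} (hk : k ≠ 0) {x : A} (h : (k : ℂ) • x ∈ U) :
    x ∈ U :=
  (U.smul_mem_iff (Nat.cast_ne_zero.2 hk)).1 h

/-- Polarisation. -/
theorem pow_le_span (V : Submodule ℂ A) (d : ℕ) :
    V ^ d ≤ Submodule.span ℂ {a | ∃ x ∈ V, a = x ^ d} := by
  induction d with
  | zero =>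
    rw [pow_zero, Submodule.one_le]
    exact Submodule.subset_span ⟨0, V.zero_mem, by simp⟩
  | succ d ih =>
    rw [pow_succ]
    refine (mul_le_mul_left ih V).trans ?_
    refine (mul_le_mul_right (Submodule.span_eq V).ge _).trans ?_
    rw [Submodule.span_mul_span, Submodule.span_le]
    rintro _ ⟨_, ⟨x, hx, rfl⟩, w, hw, rfl⟩
    have h := coeff_mem (Submodule.span ℂ {a | ∃ x ∈ V, a = x ^ (d + 1)})
      (((X + C x) ^ (d + 1)).comp (C w * X)) (fun c => Submodule.subset_span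
        ⟨c • w + x, V.add_mem (V.smul_mem c hw) hx, by
          rw [Algebra.smul_def, mul_comm (algebraMap ℂ A c)]; simp⟩) 1
    rw [comp_C_mul_X_coeff, coeff_X_add_C_pow] at h
    refine mem_of_smul_mem (Nat.succ_ne_zero d) ?_
    convert h using 1
    simp [Algebra.smul_def]
    ring

theorem div_one {U V : Submodule ℂ A} {y : A} (hy : y ∈ V) {Q : A[X]}
    (h : ∀ j, ((1 + C y * X) * Q).coeff j ∈ U * V ^ j) (j : ℕ) : Q.coeff j ∈ U * V ^ j := by
  induction j with
  | zero => simpa using h 0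
  | succ j ih =>
    have h1 := h (j + 1)
    rw [add_mul, one_mul, coeff_add, mul_assoc, coeff_C_mul, coeff_X_mul] at h1
    have h2 : y * Q.coeff j ∈ U * V ^ (j + 1) := by
      rw [pow_succ, ← mul_assoc, mul_comm y]
      exact Submodule.mul_mem_mul ih hy
    simpa using Submodule.sub_mem _ h1 h2

theorem div_pow {U V : Submodule ℂ A} {y : A} (hy : y ∈ V) (m : ℕ) {Q : A[X]}
    (h : ∀ j, ((1 + C y * X) ^ m * Q).coeff j ∈ U * V ^ j) (j : ℕ) : Q.coeff j ∈ U * V ^ j := by
  induction m with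
  | zero => simpa using h j
  | succ m ih =>
    refine ih (div_one hy fun j => ?_)
    rw [← mul_assoc, ← pow_succ']
    exact h j

theorem prod_mem_prod {ι : Type} (s : Finset ι) {P : ι → Submodule ℂ A} {x : ι → A}
    (h : ∀ i ∈ s, x i ∈ P i) : ∏ i ∈ s, x i ∈ ∏ i ∈ s, P i := by
  classical
  induction s using Finset.induction_on with
  | empty => exact Submodule.one_le.1 le_rfl
  | insert a s ha ih =>
    rw [Finset.prod_insert ha, Finset.prod_insert ha]
    exact Submodule.mul_mem_mul (h a (Finset.mem_insert_self _ _))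
      (ih fun i hi => h i (Finset.mem_insert_of_mem hi))

variable {ι W : Type} [DecidableEq ι] [AddCommGroup W] [Module ℂ W] (v : ι → W →ₗ[ℂ] A)

/-- The span of the `m`-th powers of the products of a linear form over the blocks of `S`. -/
def Nsp (S : Finset ι) (m : ℕ) : Submodule ℂ A :=
  Submodule.span ℂ (Set.range fun z : W => (∏ l ∈ S, v l z) ^ m)

omit [DecidableEq ι] in
theorem mem_Nsp (S : Finset ι) (m : ℕ) (z : W) : (∏ l ∈ S, v l z) ^ m ∈ Nsp v S m :=
  Submodule.subset_span ⟨z, rfl⟩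

omit [DecidableEq ι] in
theorem mem_Nsp_one (S : Finset ι) (z : W) : ∏ l ∈ S, v l z ∈ Nsp v S 1 := by
  simpa using mem_Nsp v S 1 z

theorem B0 {S : Finset ι} {l0 : ι} (h0 : l0 ∉ S) (m : ℕ) (x y : W) :
    v l0 x ^ (m + m * S.card) * (∏ l ∈ S, v l y) ^ m ∈
      Nsp v (insert l0 S) m * LinearMap.range (v l0) ^ (m * S.card) := by
  set Ψ : A[X] := (∏ l ∈ S, (C (v l x) + C (v l y) * X)) ^ m with hΨ
  have htop : Ψ.coeff (m * S.card) = (∏ l ∈ S, v l y) ^ m := by
    have hd : ∀ l ∈ S, (C (v l x) + C (v l y) * X : A[X]).natDegree ≤ 1 := fun l _ => by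
      compute_degree
    have h1 := coeff_prod_of_natDegree_le S _ 1 hd
    rw [mul_one] at h1
    rw [hΨ, coeff_pow_of_natDegree_le, h1]
    · simp [coeff_C]
    · exact (natDegree_prod_le _ _).trans (by simpa using Finset.sum_le_card_nsmul S _ 1 hd)
  have hΦ : ∀ j, ((C (v l0 x) + C (v l0 y) * X) ^ m * Ψ).coeff j ∈ Nsp v (insert l0 S) m := by
    refine coeff_mem _ _ fun c => ?_
    convert mem_Nsp v (insert l0 S) m (x + c • y) using 1
    simp only [hΨ, eval_prod, Finset.prod_insert h0, mul_pow, eval_mul, eval_pow, eval_add, eval_C,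
      eval_X, map_add, map_smul]
    simp only [Algebra.smul_def, mul_comm (algebraMap ℂ A c)]
  have := div_pow (U := Nsp v (insert l0 S) m) (V := LinearMap.range (v l0)) ⟨y, rfl⟩ m
    (Q := C (v l0 x ^ m) * Ψ.comp (C (v l0 x) * X)) (fun j => by
      have e : (1 + C (v l0 y) * X) ^ m * (C (v l0 x ^ m) * Ψ.comp (C (v l0 x) * X)) =
          ((C (v l0 x) + C (v l0 y) * X) ^ m * Ψ).comp (C (v l0 x) * X) := by
        simp only [add_comp, mul_comp, C_comp, X_comp, pow_comp, map_pow]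
        rw [← mul_assoc, ← mul_pow]
        congr 2
        ring
      rw [e, comp_C_mul_X_coeff]
      exact Submodule.mul_mem_mul (hΦ j) (Submodule.pow_mem_pow _ (LinearMap.mem_range_self _ x) j)) (m * S.card)
  rw [coeff_C_mul, comp_C_mul_X_coeff, htop] at this
  convert this using 1
  ring

theorem B1 {S : Finset ι} {l0 : ι} (h0 : l0 ∉ S) (m : ℕ) {e : ℕ} (he : m * S.card ≤ e) :
    LinearMap.range (v l0) ^ (m + e) * Nsp v S m ≤
      Nsp v (insert l0 S) m * LinearMap.range (v l0) ^ e := by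
  obtain ⟨e, rfl⟩ := Nat.exists_eq_add_of_le he
  have h : LinearMap.range (v l0) ^ (m + m * S.card) * Nsp v S m ≤
      Nsp v (insert l0 S) m * LinearMap.range (v l0) ^ (m * S.card) := by
    refine (mul_le_mul_left (pow_le_span _ _) _).trans ?_
    rw [Nsp, Submodule.span_mul_span, Submodule.span_le]
    rintro _ ⟨_, ⟨_, ⟨x, rfl⟩, rfl⟩, _, ⟨y, rfl⟩, rfl⟩
    exact B0 v h0 m x y
  rw [← add_assoc, pow_add, mul_right_comm, pow_add _ (m * S.card), ← mul_assoc]
  exact mul_le_mul_left h _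

theorem B2 (S : Finset ι) (m : ℕ) {e : ℕ} (he : m * (S.card - 1) ≤ e) :
    ∏ l ∈ S, LinearMap.range (v l) ^ (m + e) ≤ Nsp v S m * ∏ l ∈ S, LinearMap.range (v l) ^ e := by
  induction S using Finset.induction_on with
  | empty =>
    simpa [Submodule.one_le] using mem_Nsp v ∅ m 0
  | insert l0 S h0 ih =>
    rw [Finset.card_insert_of_notMem h0, Nat.add_sub_cancel] at he
    rw [Finset.prod_insert h0, Finset.prod_insert h0, ← mul_assoc]
    refine (mul_le_mul_right (ih ((Nat.mul_le_mul_left m (Nat.sub_le _ _)).trans he)) _).trans ?_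
    rw [← mul_assoc]
    exact mul_le_mul_left (B1 v h0 m he) _

theorem B3 {S : Finset ι} {l0 : ι} (h0 : l0 ∉ S) (j : ℕ) :
    LinearMap.range (v l0) ^ (j + S.card) * Nsp v S 1 ^ j ≤
      Nsp v (insert l0 S) 1 ^ j * LinearMap.range (v l0) ^ S.card := by
  induction j with
  | zero => simp
  | succ j ih =>
    rw [pow_succ' (Nsp v S 1), ← mul_assoc, add_comm j 1, add_assoc]
    refine (mul_le_mul_left (B1 v h0 1 (by omega)) _).trans ?_
    rw [mul_assoc, pow_add (Nsp v (insert l0 S) 1), pow_one, mul_assoc]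
    exact mul_le_mul_right ih _

theorem eps_mem (S : Finset ι) (x z : W) (j : ℕ) :
    ∑ T ∈ S.powersetCard j, (∏ l ∈ T, v l z) * ∏ l ∈ S \ T, v l x ∈ Nsp v S 1 := by
  have h := coeff_mem (Nsp v S 1)
    (∑ T ∈ S.powerset, monomial T.card ((∏ l ∈ T, v l z) * ∏ l ∈ S \ T, v l x)) (fun c => by
      convert mem_Nsp_one v S (c • z + x) using 1
      simp only [map_add, map_smul, Finset.prod_add, eval_finsetSum, eval_monomial,
        Algebra.smul_def, Finset.prod_mul_distrib, Finset.prod_const]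
      exact Finset.sum_congr rfl fun T _ => by ring) j
  simp only [finsetSum_coeff, coeff_monomial] at h
  rwa [Finset.powersetCard_eq_filter, Finset.sum_filter]

omit [Algebra ℂ A] in
theorem prod_erase (S : Finset ι) (x : ι → A) {T : Finset ι} (hT : T.Nonempty) (hS : T ⊆ S) :
    ∏ l ∈ T, ∏ l' ∈ S.erase l, x l' = (∏ l ∈ S \ T, x l) * (∏ l ∈ S, x l) ^ (T.card - 1) := by
  induction hT using Finset.Nonempty.cons_induction with
  | singleton a => simp [Finset.sdiff_singleton_eq_erase]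
  | cons a T ha hT ih =>
    have haS : a ∈ S := hS (Finset.mem_cons_self _ _)
    have hTS : T ⊆ S := (Finset.subset_cons ha).trans hS
    obtain ⟨k, hk⟩ := Nat.exists_eq_add_one_of_ne_zero hT.card_pos.ne'
    rw [Finset.prod_cons, ih hTS, Finset.card_cons, hk, Nat.add_sub_cancel, Nat.add_sub_cancel,
      ← Finset.mul_prod_erase (S \ T) x (Finset.mem_sdiff.2 ⟨haS, ha⟩), Finset.cons_eq_insert,
      Finset.sdiff_insert, pow_succ]
    rw [← Finset.mul_prod_erase S x haS]
    ring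

theorem esymm_mem (S : Finset ι) (x z : W) (j : ℕ) :
    ∑ T ∈ S.powersetCard j, ∏ l ∈ T, (v l z * ∏ l' ∈ S.erase l, v l' x) ∈ Nsp v S 1 ^ j := by
  rcases j with _ | j
  · simpa using ⟨1, map_one _⟩
  have e : ∑ T ∈ S.powersetCard (j + 1), ∏ l ∈ T, (v l z * ∏ l' ∈ S.erase l, v l' x) =
      (∏ l ∈ S, v l x) ^ j *
        ∑ T ∈ S.powersetCard (j + 1), (∏ l ∈ T, v l z) * ∏ l ∈ S \ T, v l x := by
    rw [Finset.mul_sum]
    refine Finset.sum_congr rfl fun T hT => ?_
    obtain ⟨h1, h2⟩ := Finset.mem_powersetCard.1 hT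
    rw [Finset.prod_mul_distrib, prod_erase S (fun l => v l x) (Finset.card_pos.1 (by omega)) h1,
      h2, Nat.add_sub_cancel]
    ring
  rw [e, pow_succ]
  exact Submodule.mul_mem_mul (Submodule.pow_mem_pow _ (mem_Nsp_one v S x) j) (eps_mem v S x z _)

omit [DecidableEq ι] in
/-- Newton's identities. -/
theorem psum_mem_of_esymm (R : Submodule ℂ A) (S : Finset ι) (t : ι → A)
    (h : ∀ j, ∑ T ∈ S.powersetCard j, ∏ l ∈ T, t l ∈ R ^ j) (k : ℕ) :
    ∑ l ∈ S, t l ^ k ∈ R ^ k := by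
  classical
  have he : ∀ j, MvPolynomial.aeval (fun l : S => t l) (MvPolynomial.esymm S ℂ j) ∈ R ^ j := by
    intro j
    rw [MvPolynomial.aeval_esymm_eq_multiset_esymm]
    have e : Multiset.map (fun l : S => t l) Finset.univ.val = S.val.map t := by
      rw [Finset.univ_eq_attach, Finset.attach_val]
      exact Multiset.attach_map_val' _ _
    rw [e, Finset.esymm_map_val]
    exact h j
  have hp : ∀ j, MvPolynomial.aeval (fun l : S => t l) (MvPolynomial.psum S ℂ j) =
      ∑ l ∈ S, t l ^ j := by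
    intro j
    simp only [MvPolynomial.psum, map_sum, map_pow, MvPolynomial.aeval_X]
    exact Finset.sum_coe_sort S fun l => t l ^ j
  induction k using Nat.strong_induction_on with
  | h k ih =>
    rcases Nat.eq_zero_or_pos k with rfl | hk
    · simp only [pow_zero]
      exact Submodule.sum_mem _ fun _ _ => Submodule.one_le.1 le_rfl
    have hs : ∀ (i : ℕ) (U : Submodule ℂ A) (a : A), a ∈ U → (-1) ^ i * a ∈ U := by
      intro i U a ha
      rcases neg_one_pow_eq_or A i with h | h <;> rw [h]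
      · rwa [one_mul]
      · rw [neg_one_mul]
        exact U.neg_mem ha
    rw [← hp, MvPolynomial.psum_eq_mul_esymm_sub_sum _ _ k hk]
    simp only [map_sub, map_mul, map_pow, map_neg, map_one, map_natCast, map_sum, mul_assoc]
    refine Submodule.sub_mem _ (hs _ _ _ ?_) (Submodule.sum_mem _ fun a ha => hs _ _ _ ?_)
    · rw [← nsmul_eq_mul]
      exact Submodule.smul_of_tower_mem _ k (he k)
    · obtain ⟨h1, h2⟩ := Finset.mem_filter.1 ha
      have h3 := Finset.HasAntidiagonal.mem_antidiagonal.1 h1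
      rw [← h3, pow_add, hp]
      exact Submodule.mul_mem_mul (he _) (ih _ (by have := h2.1; omega))

section sym

open Equiv

variable [Fintype ι] (ρ : Perm ι → A →ₐ[ℂ] A)

/-- The permutations supported in `S`. -/
def GS (S : Finset ι) : Finset (Perm ι) := Finset.univ.filter fun σ => ∀ l ∉ S, σ l = l

theorem mem_GS {S : Finset ι} {σ : Perm ι} : σ ∈ GS S ↔ ∀ l ∉ S, σ l = l := by simp [GS]

theorem card_GS_ne (S : Finset ι) : (GS S).card ≠ 0 :=
  Finset.card_ne_zero.2 ⟨1, mem_GS.2 fun _ _ => rfl⟩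

/-- Symmetrisation over the blocks of `S`. -/
noncomputable def Sym (S : Finset ι) : A →ₗ[ℂ] A := ∑ σ ∈ GS S, (ρ σ).toLinearMap

theorem Sym_apply (S : Finset ι) (f : A) : Sym ρ S f = ∑ σ ∈ GS S, ρ σ f := by
  simp [Sym, LinearMap.sum_apply]

/-- The invariants. -/
def Inv (S : Finset ι) : Subalgebra ℂ A := ⨅ σ ∈ GS S, AlgHom.equalizer (ρ σ) (AlgHom.id ℂ A)

theorem mem_Inv {S : Finset ι} {f : A} : f ∈ Inv ρ S ↔ ∀ σ ∈ GS S, ρ σ f = f := by
  simp [Inv, Algebra.mem_iInf]

theorem Sym_mul {S : Finset ι} {r : A} (hr : r ∈ Inv ρ S) (g : A) :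
    Sym ρ S (r * g) = r * Sym ρ S g := by
  rw [Sym_apply, Sym_apply, Finset.mul_sum]
  exact Finset.sum_congr rfl fun σ hσ => by rw [map_mul, (mem_Inv ρ).1 hr σ hσ]

theorem Sym_of_mem {S : Finset ι} {r : A} (hr : r ∈ Inv ρ S) :
    Sym ρ S r = ((GS S).card : ℂ) • r := by
  rw [Sym_apply, Finset.sum_congr rfl ((mem_Inv ρ).1 hr), Finset.sum_const, Nat.cast_smul_eq_nsmul]

theorem mul_le_Inv {S : Finset ι} {P Q : Submodule ℂ A} (hP : P ≤ (Inv ρ S).toSubmodule)
    (hQ : Q ≤ (Inv ρ S).toSubmodule) : P * Q ≤ (Inv ρ S).toSubmodule :=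
  Submodule.mul_le.2 fun _ ha _ hb => (Inv ρ S).mul_mem (hP ha) (hQ hb)

theorem pow_le_Inv {S : Finset ι} {P : Submodule ℂ A} (hP : P ≤ (Inv ρ S).toSubmodule) (k : ℕ) :
    P ^ k ≤ (Inv ρ S).toSubmodule := by
  induction k with
  | zero => exact Submodule.one_le.2 (Inv ρ S).one_mem
  | succ k ih => rw [pow_succ]; exact mul_le_Inv ρ ih hP

variable (hmul : ∀ σ τ f, ρ (σ * τ) f = ρ σ (ρ τ f)) (hv : ∀ σ l y, ρ σ (v l y) = v (σ l) y)

include hmul in
theorem Sym_rho {S : Finset ι} {τ : Perm ι} (hτ : τ ∈ GS S) (g : A) :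
    Sym ρ S (ρ τ g) = Sym ρ S g := by
  rw [Sym_apply, Sym_apply]
  refine Finset.sum_equiv (Equiv.mulRight τ) (fun σ => ?_) fun σ _ => (hmul σ τ g).symm
  simp only [mem_GS, coe_mulRight, Perm.mul_apply] at hτ ⊢
  exact forall₂_congr fun l hl => by rw [hτ l hl]

include hmul in
theorem Sym_Sym {S S' : Finset ι} (h : S' ⊆ S) (g : A) :
    Sym ρ S (Sym ρ S' g) = ((GS S').card : ℂ) • Sym ρ S g := by
  rw [Sym_apply ρ S', map_sum, Finset.sum_congr rfl fun τ hτ => Sym_rho ρ hmul
    (mem_GS.2 fun l hl => mem_GS.1 hτ l fun h' => hl (h h')) g, Finset.sum_const,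
    Nat.cast_smul_eq_nsmul]

include hv in
theorem Nsp_le_Inv (S : Finset ι) (m : ℕ) : Nsp v S m ≤ (Inv ρ S).toSubmodule := by
  rw [Nsp, Submodule.span_le]
  rintro _ ⟨z, rfl⟩
  refine (mem_Inv ρ).2 fun σ hσ => ?_
  simp only [map_pow, map_prod, hv]
  rw [Perm.prod_comp σ S (fun l => v l z) fun l hl => by
    by_contra h
    exact hl (mem_GS.1 hσ l h)]

include hv in
theorem range_le_Inv {S : Finset ι} {l : ι} (hl : l ∉ S) :
    LinearMap.range (v l) ≤ (Inv ρ S).toSubmodule := by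
  rintro _ ⟨z, rfl⟩
  exact (mem_Inv ρ).2 fun σ hσ => by rw [hv, mem_GS.1 hσ l hl]

include hv in
theorem rho_term {S : Finset ι} {σ : Perm ι} (hσ : σ ∈ GS S) (l : ι) (x z : W) :
    ρ σ (v l z * ∏ l' ∈ S.erase l, v l' x) = v (σ l) z * ∏ l' ∈ S.erase (σ l), v l' x := by
  simp only [map_mul, map_prod, hv]
  congr 1
  refine Finset.prod_equiv σ (fun i => ?_) fun _ _ => rfl
  have : σ i ∈ S ↔ i ∈ S := by
    constructor
    · intro h
      by_contra hi
      exact hi (mem_GS.1 hσ i hi ▸ h)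
    · intro h
      by_contra hi
      exact hi ((σ.injective (mem_GS.1 hσ _ hi)).symm ▸ h)
  simp [this]

include hmul hv in
theorem T1 {S : Finset ι} {l0 : ι} (h0 : l0 ∈ S) (x z : W) (k : ℕ) :
    Sym ρ S ((v l0 z * ∏ l' ∈ S.erase l0, v l' x) ^ k) ∈ Nsp v S 1 ^ k := by
  have hP := psum_mem_of_esymm (Nsp v S 1) S _ (esymm_mem v S x z) k
  have h1 := Sym_of_mem ρ (pow_le_Inv ρ (Nsp_le_Inv v ρ hv S 1) k hP)
  have h2 : ∀ l ∈ S, Sym ρ S ((v l z * ∏ l' ∈ S.erase l, v l' x) ^ k) =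
      Sym ρ S ((v l0 z * ∏ l' ∈ S.erase l0, v l' x) ^ k) := by
    intro l hl
    have hs : swap l0 l ∈ GS S := mem_GS.2 fun i hi =>
      swap_apply_of_ne_of_ne (fun e => hi (e ▸ h0)) fun e => hi (e ▸ hl)
    rw [← Sym_rho ρ hmul hs ((v l0 z * _) ^ k), map_pow (ρ _), rho_term v ρ hv hs,
      swap_apply_left]
  rw [map_sum, Finset.sum_congr rfl h2, Finset.sum_const, ← Nat.cast_smul_eq_nsmul ℂ] at h1
  refine mem_of_smul_mem (Finset.card_ne_zero.2 ⟨l0, h0⟩) ?_
  rw [h1]
  exact Submodule.smul_mem _ _ hP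

include hmul hv in
theorem T2 {S : Finset ι} {l0 : ι} (h0 : l0 ∉ S) (k : ℕ) :
    LinearMap.range (v l0) ^ k * Nsp v S k ≤
      (Nsp v (insert l0 S) 1 ^ k).comap (Sym ρ (insert l0 S)) := by
  refine (mul_le_mul_left (pow_le_span _ _) _).trans ?_
  rw [Nsp, Submodule.span_mul_span, Submodule.span_le]
  rintro _ ⟨_, ⟨_, ⟨z, rfl⟩, rfl⟩, _, ⟨x, rfl⟩, rfl⟩
  have := T1 v ρ hmul hv (Finset.mem_insert_self l0 S) x z k
  rwa [Finset.erase_insert h0, mul_pow] at this

include hmul hv in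
theorem main (S : Finset ι) {b : ℕ} (hb : (S.card - 1) ^ 2 ≤ b) :
    ∏ l ∈ S, LinearMap.range (v l) ^ b ≤ (Nsp v S 1 ^ b).comap (Sym ρ S) := by
  induction S using Finset.induction_on generalizing b with
  | empty =>
    rw [Finset.prod_empty, Submodule.one_le, Submodule.mem_comap,
      Sym_of_mem ρ (Inv ρ ∅).one_mem]
    simpa using Submodule.smul_mem _ ((GS (∅ : Finset ι)).card : ℂ)
      (Submodule.pow_mem_pow _ (mem_Nsp_one v ∅ 0) b)
  | insert l0 S h0 ih =>
    rw [Finset.card_insert_of_notMem h0, Nat.add_sub_cancel] at hb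
    obtain ⟨e, rfl, he⟩ : ∃ e, b = S.card + e ∧ S.card * (S.card - 1) ≤ e := by
      rcases Nat.eq_zero_or_pos S.card with h | h
      · exact ⟨b, by omega, by simp [h]⟩
      · obtain ⟨k, hk⟩ := Nat.exists_eq_add_one_of_ne_zero h.ne'
        rw [hk] at hb ⊢
        exact ⟨b - (k + 1), by nlinarith [Nat.sub_add_cancel (show k + 1 ≤ b by nlinarith)],
          Nat.le_sub_of_add_le (by rw [Nat.add_sub_cancel]; nlinarith)⟩
    have he' : (S.card - 1) ^ 2 ≤ e :=
      le_trans (by rw [sq]; exact Nat.mul_le_mul_right _ (Nat.sub_le _ _)) he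
    rw [Finset.prod_insert h0]
    refine (mul_le_mul_right (B2 v S S.card he) _).trans ?_
    rw [← mul_assoc, Submodule.mul_le]
    intro w hw F hF
    have hwI : w ∈ Inv ρ S :=
      mul_le_Inv ρ (pow_le_Inv ρ (range_le_Inv v ρ hv h0) _) (Nsp_le_Inv v ρ hv S _) hw
    refine mem_of_smul_mem (card_GS_ne S) ?_
    rw [Submodule.mem_comap, map_smul, ← Sym_Sym ρ hmul (Finset.subset_insert l0 S),
      Sym_mul ρ hwI]
    have h1 : w * Sym ρ S F ∈ Nsp v (insert l0 S) 1 ^ e *
        (LinearMap.range (v l0) ^ S.card * Nsp v S S.card) := by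
      have := Submodule.mul_mem_mul hw (Submodule.mem_comap.1 (ih he' hF))
      rw [mul_right_comm, add_comm S.card e] at this
      rw [← mul_assoc]
      exact mul_le_mul_left (B3 v h0 e) _ this
    have h2 : Nsp v (insert l0 S) 1 ^ e * (LinearMap.range (v l0) ^ S.card * Nsp v S S.card) ≤
        (Nsp v (insert l0 S) 1 ^ (S.card + e)).comap (Sym ρ (insert l0 S)) := by
      rw [Submodule.mul_le]
      intro r hr w' hw'
      rw [Submodule.mem_comap, Sym_mul ρ (pow_le_Inv ρ (Nsp_le_Inv v ρ hv _ 1) e hr),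
        add_comm S.card e, pow_add]
      exact Submodule.mul_mem_mul hr (T2 v ρ hmul hv h0 _ hw')
    exact h2 h1

end sym

/-- Equation lemmas are realised here once and for all. -/
theorem anchor_SurjAux : True := by
  have := @Nsp.eq_1; have := @GS.eq_1; have := @Sym.eq_1; have := @Inv.eq_1
  trivial

end Crest.Agent.R187.SurjAux
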