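import Crest.Agent.R187.Defs
import Crest.Agent.R187.SurjAux

set_option autoImplicit false
open MvPolynomial Crest.AlgebraR.FoulkesHowe Module

namespace Crest.Agent.R187

theorem Surj_mem_blockSym {a n b : ℕ} {f : MvPolynomial (Var a n) ℂ} :
    f ∈ blockSym a n b ↔ (∀ i, f.IsWeightedHomogeneous (blockWeight i) b) ∧
      ∀ σ : Equiv.Perm (Fin a), rename (blockPerm σ) f = f := by
  simp [blockSym, Submodule.mem_iInf, LinearMap.mem_eqLocus]

theorem Surj_le_prod (a n b : ℕ) : blockSym a n b ≤ ∏ l : Fin a,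
    LinearMap.range (Fintype.linearCombination ℂ
      fun k : Fin n => (X (l, k) : MvPolynomial (Var a n) ℂ)) ^ b := by
  intro f hf
  rw [f.as_sum]
  refine Submodule.sum_mem _ fun d hd => ?_
  rw [monomial_eq, C_mul', Finsupp.prod_fintype _ _ (by simp), Fintype.prod_prod_type]
  refine Submodule.smul_mem _ _ (SurjAux.prod_mem_prod _ fun l _ => ?_)
  have h1 : ∑ k, d (l, k) = b := by
    rw [← (Surj_mem_blockSym.1 hf).1 l (mem_support_iff.1 hd), Finsupp.weight_apply,
      Finsupp.sum_fintype _ _ (by simp), Fintype.sum_prod_type, Finset.sum_eq_single l]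
    · simp [blockWeight]
    · intro l' _ h
      simp [blockWeight, h]
    · simp
  rw [← h1, ← Finset.prod_pow_eq_pow_sum]
  refine SurjAux.prod_mem_prod _ fun k _ => Submodule.pow_mem_pow _ ?_ _
  exact ⟨Pi.single k 1, by simp⟩

theorem Surj_pow_le_RR (a n b : ℕ) :
    Submodule.span ℂ (Set.range fun y : Fin n → ℂ => NN a y ^ 1) ^ b ≤ RR a n b := by
  induction b with
  | zero =>
    rw [pow_zero, Submodule.one_le]
    exact Submodule.subset_span ⟨fun i => i.elim0, by simp⟩
  | succ b ih =>
    rw [pow_succ']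
    refine (mul_le_mul_right ih _).trans ?_
    rw [RR, Submodule.span_mul_span, Submodule.span_le]
    rintro _ ⟨_, ⟨y, rfl⟩, _, ⟨z, rfl⟩, rfl⟩
    exact Submodule.subset_span ⟨Fin.cons y z, by simp [Fin.prod_univ_succ]⟩

/-- surjectivity of the Foulkes–Howe map for `b ≥ (a-1)^2` -/
theorem blockSym_le_RR (a n b : ℕ) (hb : (a - 1) ^ 2 ≤ b) : blockSym a n b ≤ RR a n b := by
  intro f hf
  have h := SurjAux.main
    (fun l : Fin a => Fintype.linearCombination ℂ
      fun k : Fin n => (X (l, k) : MvPolynomial (Var a n) ℂ))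
    (fun σ => rename (blockPerm σ)) (fun σ τ f => by rw [rename_rename]; rfl)
    (fun σ l y => by simp [Fintype.linearCombination_apply, blockPerm]) Finset.univ (b := b)
    (by simpa using hb) (Surj_le_prod a n b hf)
  rw [Submodule.mem_comap, SurjAux.Sym_of_mem _
    ((SurjAux.mem_Inv _).2 fun σ _ => (Surj_mem_blockSym.1 hf).2 σ)] at h
  exact Surj_pow_le_RR a n b (SurjAux.mem_of_smul_mem (SurjAux.card_GS_ne _) h)

theorem NN_mem (a n : ℕ) (y : Fin n → ℂ) : NN a y ∈ blockSym a n 1 := by
  refine Surj_mem_blockSym.2 ⟨fun i => ?_, fun σ => ?_⟩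
  · have := IsWeightedHomogeneous.prod Finset.univ
      (fun l : Fin a => ∑ k : Fin n, y k • (X (l, k) : MvPolynomial (Var a n) ℂ))
      (fun l => if l = i then 1 else 0) (w := blockWeight i) fun l _ =>
        (weightedHomogeneousSubmodule ℂ (blockWeight i) _).sum_mem fun k _ =>
          Submodule.smul_mem _ _ (isWeightedHomogeneous_X ℂ (blockWeight i) (l, k))
    simpa [NN] using this
  · simp only [NN, map_prod, map_sum, map_smul, rename_X, blockPerm]
    exact Equiv.prod_comp σ fun l => ∑ k : Fin n, y k • (X (l, k) : MvPolynomial (Var a n) ℂ)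

theorem RR_le_blockSym (a n b : ℕ) : RR a n b ≤ blockSym a n b := by
  rw [RR, Submodule.span_le]
  rintro _ ⟨y, rfl⟩
  refine Surj_mem_blockSym.2 ⟨fun i => ?_, fun σ => ?_⟩
  · have := IsWeightedHomogeneous.prod Finset.univ (fun j => NN a (y j)) (fun _ => 1)
      (w := blockWeight i) fun j _ => (Surj_mem_blockSym.1 (NN_mem a n (y j))).1 i
    simpa using this
  · simp only [map_prod, (Surj_mem_blockSym.1 (NN_mem a n _)).2 σ]

end Crest.Agent.R187
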