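import Crest.Agent.R187.ThetaDef

set_option autoImplicit false
open MvPolynomial Crest.AlgebraR.FoulkesHowe Module

namespace Crest.Agent.R187

theorem Theta_homog_X_mul_pderiv {σ M : Type} [AddCommMonoid M] {w : σ → M} {u v : σ}
    (h : w u = w v) {f : MvPolynomial σ ℂ} {d : M} (hf : f.IsWeightedHomogeneous w d) :
    (X u * pderiv v f).IsWeightedHomogeneous w d := by
  classical
  rw [f.as_sum, map_sum, Finset.mul_sum]
  refine IsWeightedHomogeneous.sum _ _ _ fun m hm => ?_
  rw [pderiv_monomial, X, monomial_mul]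
  by_cases h0 : m v = 0
  · simpa [h0] using isWeightedHomogeneous_zero ℂ w d
  · refine isWeightedHomogeneous_monomial _ _ _ ?_
    have h1 : Finsupp.single v 1 + (m - Finsupp.single v 1) = m :=
      add_tsub_cancel_of_le (Finsupp.single_le_iff.2 (Nat.one_le_iff_ne_zero.2 h0))
    rw [← hf (MvPolynomial.mem_support_iff.1 hm)]
    conv_rhs => rw [← h1]
    rw [map_add, map_add, Finsupp.weight_single, Finsupp.weight_single, h]

theorem good_multiHom (a n d : ℕ) : Good (multiHom a n d) (a * d) := by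
  refine ⟨fun f hf m hm => ?_, fun i j f hf => ?_⟩
  · have := mem_multiHom.1 hf m (MvPolynomial.mem_support_iff.2 hm)
    simp only [mem_mons, blkE_apply] at this
    rw [Finsupp.weight_eq_sum, Fintype.sum_prod_type]
    simp [this]
  · rw [EE_apply]
    refine Submodule.sum_mem _ fun l _ => (Submodule.mem_iInf _).2 fun l' => ?_
    have h1 : f.IsWeightedHomogeneous (blockWeight l') d := (Submodule.mem_iInf _).1 hf l'
    exact Theta_homog_X_mul_pderiv (w := blockWeight l') (u := (l, i)) (v := (l, j)) rfl h1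

theorem good_blockSym (a n d : ℕ) : Good (blockSym a n d) (a * d) := by
  refine ⟨fun f hf => (good_multiHom a n d).homog f hf.1, fun i j f hf => mem_blockSym_iff.2
    ⟨(good_multiHom a n d).stab i j f hf.1, fun s => ?_⟩⟩
  rw [rename_EE, rename_of_mem_blockSym hf]

theorem char_multiHom (a n d : ℕ) (μ : Fin n →₀ ℕ) :
    coeff μ (hp n d 1 ^ a) = (finrank ℂ (wsp (multiHom a n d) μ) : ℤ) := by
  classical
  set S := (Fintype.piFinset fun _ : Fin a => mons n d).filter fun p => ∑ l, p l = μ with hS
  have h1 : wsp (multiHom a n d) μ = restrictSupport ℂ (blkEquiv a n ⁻¹' S) := by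
    ext f
    rw [mem_wsp, mem_multiHom, mem_restrictSupport_iff]
    simp only [Set.subset_def, Finset.mem_coe, Set.mem_preimage, hS, Finset.mem_filter,
      Fintype.mem_piFinset]
    exact ⟨fun h m hm => ⟨h.1 m hm, h.2 m hm⟩,
      fun h => ⟨fun m hm => (h m hm).1, fun m hm => (h m hm).2⟩⟩
  rw [h1, finrank_eq_nat_card_basis (basisRestrictSupport ℂ _),
    Nat.card_preimage_of_injective (blkEquiv a n).injective (by simp), Nat.card_coe_set_eq,
    Set.ncard_coe_finset, ← Fin.prod_const, hp, Finset.prod_univ_sum, coeff_sum, hS,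
    Finset.card_filter]
  push_cast
  refine Finset.sum_congr rfl fun p _ => ?_
  simp only [one_smul]
  rw [← monomial_sum_one, coeff_monomial]

theorem Theta_exists_fun {α : Type} (a : ℕ) : ∀ M : α →₀ ℕ, (M.sum fun _ x => x) = a →
    ∃ p : Fin a → α, ∑ l, Finsupp.single (p l) 1 = M := by
  induction a with
  | zero =>
    intro M hM
    refine ⟨Fin.elim0, ?_⟩
    ext x
    by_contra h
    have := Finset.sum_eq_zero_iff.1 hM x (Finsupp.mem_support_iff.2 fun h' => h (by simp [h']))
    simp [this] at h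
  | succ a ih =>
    intro M hM
    obtain ⟨x, hx, -⟩ := Finset.exists_ne_zero_of_sum_ne_zero (s := M.support) (f := fun x => M x)
      (by rw [Finsupp.sum] at hM; omega)
    have h1 : Finsupp.single x 1 + (M - Finsupp.single x 1) = M :=
      add_tsub_cancel_of_le (Finsupp.single_le_iff.2
        (Nat.one_le_iff_ne_zero.2 (Finsupp.mem_support_iff.1 hx)))
    obtain ⟨p, hp⟩ := ih (M - Finsupp.single x 1) (by
      rw [← h1, Finsupp.sum_add_index' (by simp) (by simp), Finsupp.sum_single_index rfl] at hM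
      omega)
    exact ⟨Fin.cons x p, by rw [Fin.sum_univ_succ]; simpa [hp] using h1⟩

theorem wt_msetE {a n : ℕ} (m : Var a n →₀ ℕ) : wt (msetE m) = ∑ l, blkE m l := by
  rw [wt, msetE, ← Finsupp.sum_finsetSum_index (by simp) (by simp [add_smul])]
  simp

theorem msetE_mem_iff {a n d : ℕ} {m : Var a n →₀ ℕ} :
    msetE m ∈ (mons n d).finsuppAntidiag a ↔ ∀ l, blkE m l ∈ mons n d := by
  classical
  have h1 : ((msetE m).sum fun _ x => x) = a := by
    rw [msetE, ← Finsupp.sum_finsetSum_index (by simp) (by simp)]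
    simp
  rw [Finset.mem_finsuppAntidiag', and_iff_right h1]
  constructor
  · refine fun h l => h (Finsupp.mem_support_iff.2 ?_)
    rw [msetE, Finsupp.finsetSum_apply, Ne, Finset.sum_eq_zero_iff]
    intro h
    simpa using h l (Finset.mem_univ l)
  · intro h x hx
    obtain ⟨l, -, hl⟩ := Finset.mem_biUnion.1 (Finsupp.support_finsetSum hx)
    rw [Finset.mem_singleton.1 (Finsupp.support_single_subset hl)]
    exact h l

theorem Theta_map_wsp (a n d : ℕ) (μ : Fin n →₀ ℕ) (T : Set ((Fin n →₀ ℕ) →₀ ℕ))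
    (hT : ∀ M, M ∈ T ↔ M ∈ (mons n d).finsuppAntidiag a ∧ wt M = μ) :
    (wsp (blockSym a n d) μ).map (Theta a) = restrictSupport ℂ T := by
  classical
  refine le_antisymm ?_ ?_
  · rintro _ ⟨f, hf, rfl⟩
    rw [mem_restrictSupport_iff]
    intro M hM
    have h2 := MvPolynomial.mem_support_iff.1 hM
    rw [coeff_Theta] at h2
    obtain ⟨m, hm, -⟩ := Finset.exists_ne_zero_of_sum_ne_zero h2
    rw [Finset.mem_filter] at hm
    rw [SetLike.mem_coe, mem_wsp] at hf
    rw [← hm.2, hT, msetE_mem_iff, wt_msetE]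
    exact ⟨mem_multiHom.1 (mem_blockSym_iff.1 hf.1).1 m hm.1, hf.2 m hm.1⟩
  · rw [restrictSupport_eq_span, Submodule.span_le]
    rintro _ ⟨M, hM, rfl⟩
    rw [hT] at hM
    obtain ⟨p, hp⟩ := Theta_exists_fun a M (Finset.mem_finsuppAntidiag'.1 hM.1).1
    obtain ⟨m, rfl⟩ := (blkEquiv a n).surjective p
    have hp' : msetE m = M := hp
    refine ⟨(a.factorial : ℂ)⁻¹ • ∑ s : Equiv.Perm (Fin a), rename (blockPerm s) (monomial m 1),
      Submodule.smul_mem _ _ ?_, ?_⟩
    · have h3 : ∀ s : Equiv.Perm (Fin a),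
          rename (blockPerm s) (monomial m (1 : ℂ)) ∈ wsp (multiHom a n d) μ := by
        intro s
        rw [rename_monomial, mem_wsp, mem_multiHom, support_monomial, if_neg one_ne_zero]
        simp only [Finset.mem_singleton, forall_eq]
        rw [← msetE_mem_iff, ← wt_msetE, msetE_mapDomain, hp']
        exact hM
      have h4 := mem_wsp.1 (Submodule.sum_mem _ fun s (_ : s ∈ Finset.univ) => h3 s)
      refine mem_wsp.2 ⟨mem_blockSym_iff.2 ⟨h4.1, fun t => ?_⟩, h4.2⟩
      rw [map_sum, ← Equiv.sum_comp (Equiv.mulLeft t) fun s => rename (blockPerm s) _]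
      refine Finset.sum_congr rfl fun s _ => ?_
      rw [rename_rename]
      rfl
    · rw [map_smul, map_sum]
      simp only [Theta_rename, Theta_monomial, Finset.sum_const, Finset.card_univ,
        Fintype.card_perm, Fintype.card_fin]
      rw [← Nat.cast_smul_eq_nsmul ℂ, smul_smul,
        inv_mul_cancel₀ (Nat.cast_ne_zero.2 a.factorial_ne_zero), one_smul, hp']

theorem char_blockSym (a n d : ℕ) (μ : Fin n →₀ ℕ) :
    coeff μ (HH n a d) = (finrank ℂ (wsp (blockSym a n d) μ) : ℤ) := by
  classical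
  have h1 := Theta_map_wsp a n d μ
    (((mons n d).finsuppAntidiag a).filter fun M => wt M = μ :) fun M => by
      rw [Finset.mem_coe, Finset.mem_filter]
  have h2 : Function.Injective ((Theta a).domRestrict (wsp (blockSym a n d) μ)) :=
    fun f g h => Subtype.ext (Theta_injOn a n d (mem_wsp.1 f.2).1 (mem_wsp.1 g.2).1 h)
  rw [← LinearMap.finrank_range_of_inj h2, LinearMap.range_domRestrict, h1,
    finrank_eq_nat_card_basis (basisRestrictSupport ℂ _), Nat.card_coe_set_eq,
    Set.ncard_coe_finset, HH, coeff_sum, Finset.card_filter]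
  push_cast
  refine Finset.sum_congr rfl fun M _ => ?_
  rw [coeff_monomial]

end Crest.Agent.R187
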