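import Crest.Agent.R187.Conc
import Crest.Agent.R187.Theta
import Crest.Agent.R187.Surj
import Crest.Agent.R187.PsiAux

set_option autoImplicit false
open MvPolynomial Crest.AlgebraR.FoulkesHowe Module

namespace Crest.Agent.R187


/-- the Foulkes–Howe map: equivariant, and it maps `blockSym b n a` onto `RR a n b` -/
theorem exists_psi (a n b : ℕ) :
    ∃ ψ : MvPolynomial (Var b n) ℂ →ₗ[ℂ] MvPolynomial (Var a n) ℂ,
      (blockSym b n a).map ψ = RR a n b ∧
      ∀ i j, ∀ f ∈ blockSym b n a, ψ (EE b i j f) = EE a i j (ψ f) :=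
  ⟨Psi_map a b n, Psi_map_blockSym a n b, fun i j f _ => Psi_equiv i j f _⟩

theorem hwv_le_of_large (a n b : ℕ) (hb : (a - 1) ^ 2 ≤ b) (μ : Fin n →₀ ℕ) :
    finrank ℂ (hwv (blockSym a n b) μ) ≤ finrank ℂ (hwv (blockSym b n a) μ) := by
  obtain ⟨ψ, h1, h2⟩ := exists_psi a n b
  refine (good_blockSym a n b).hwv_le_of_surj (good_blockSym b n a) ψ ?_ h2 μ
  rw [h1]
  exact le_antisymm (RR_le_blockSym a n b) (blockSym_le_RR a n b hb)

end Crest.Agent.R187
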