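import Crest.Agent.R187.Defs

set_option autoImplicit false
open MvPolynomial Crest.AlgebraR.FoulkesHowe Module

namespace Crest.Agent.R187

theorem wt_add {n : ℕ} (M N : (Fin n →₀ ℕ) →₀ ℕ) : wt (M + N) = wt M + wt N :=
  Finsupp.sum_add_index' (fun _ => zero_smul _ _) fun _ _ _ => add_smul _ _ _

theorem wt_single {n : ℕ} (α : Fin n →₀ ℕ) (k : ℕ) : wt (Finsupp.single α k) = k • α :=
  Finsupp.sum_single_index (zero_smul _ _)

theorem HH_zero (n d : ℕ) : HH n 0 d = 1 := by
  simp [HH, wt]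

theorem hp_zero (n k : ℕ) : hp n 0 k = 1 := by
  simp [hp, mons]

theorem newton_aux (n a d i : ℕ) (hi : i < a) (α : Fin n →₀ ℕ) (hα : α ∈ mons n d) :
    ∑ M ∈ ((mons n d).finsuppAntidiag a).filter (fun M => i < M α),
      (monomial (wt M) 1 : MvPolynomial (Fin n) ℤ) =
      monomial ((i + 1) • α) 1 * HH n (a - 1 - i) d := by
  classical
  rw [HH, Finset.mul_sum]
  symm
  refine Finset.sum_bij' (fun M _ => M + Finsupp.single α (i + 1))
    (fun M _ => M - Finsupp.single α (i + 1)) ?_ ?_ ?_ ?_ ?_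
  · intro M hM
    rw [Finset.mem_finsuppAntidiag] at hM
    rw [Finset.mem_filter, Finset.mem_finsuppAntidiag]
    refine ⟨⟨?_, Finsupp.support_add.trans (Finset.union_subset hM.2
      (Finsupp.support_single_subset.trans (Finset.singleton_subset_iff.2 hα)))⟩, by simp; omega⟩
    have h1 : ∑ β ∈ mons n d, (Finsupp.single α (i + 1)) β = i + 1 := by
      rw [Finset.sum_eq_single_of_mem α hα fun β _ hβ => Finsupp.single_eq_of_ne hβ]
      exact Finsupp.single_eq_same
    simp only [Finsupp.coe_add, Pi.add_apply, Finset.sum_add_distrib, hM.1, h1]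
    omega
  · intro M hM
    rw [Finset.mem_filter, Finset.mem_finsuppAntidiag] at hM
    rw [Finset.mem_finsuppAntidiag]
    refine ⟨?_, Finsupp.support_tsub.trans hM.1.2⟩
    have h0 : Finsupp.single α (i + 1) ≤ M := Finsupp.single_le_iff.2 hM.2
    have h1 : ∑ β ∈ mons n d, (Finsupp.single α (i + 1)) β = i + 1 := by
      rw [Finset.sum_eq_single_of_mem α hα fun β _ hβ => Finsupp.single_eq_of_ne hβ]
      exact Finsupp.single_eq_same
    have h2 : ∑ β ∈ mons n d, (M - Finsupp.single α (i + 1) + Finsupp.single α (i + 1)) β = a := by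
      rw [tsub_add_cancel_of_le h0]
      exact hM.1.1
    simp only [Finsupp.coe_add, Pi.add_apply, Finset.sum_add_distrib, h1] at h2
    change ∑ β ∈ mons n d, (M - Finsupp.single α (i + 1)) β = _
    omega
  · intro M _
    exact add_tsub_cancel_right _ _
  · intro M hM
    exact tsub_add_cancel_of_le (Finsupp.single_le_iff.2 (Finset.mem_filter.1 hM).2)
  · intro M _
    rw [monomial_mul, one_mul, wt_add, wt_single, add_comm]

/-- Newton's identity for the plethysms `h_a[h_d]` -/
theorem newton (n a d : ℕ) :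
    (a : ℤ) • HH n a d = ∑ i ∈ Finset.range a, hp n d (i + 1) * HH n (a - 1 - i) d := by
  classical
  have h1 : ∀ i ∈ Finset.range a, hp n d (i + 1) * HH n (a - 1 - i) d =
      ∑ α ∈ mons n d, ∑ M ∈ (mons n d).finsuppAntidiag a,
        if i < M α then (monomial (wt M) 1 : MvPolynomial (Fin n) ℤ) else 0 := fun i hi => by
    rw [hp, Finset.sum_mul]
    refine Finset.sum_congr rfl fun α hα => ?_
    rw [← newton_aux n a d i (Finset.mem_range.1 hi) α hα, Finset.sum_filter]
  rw [Finset.sum_congr rfl h1, Finset.sum_comm, HH, Finset.smul_sum]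
  simp only [Finset.sum_comm (s := Finset.range a)]
  rw [Finset.sum_comm]
  refine Finset.sum_congr rfl fun M hM => ?_
  rw [Finset.mem_finsuppAntidiag] at hM
  have h2 : ∀ α ∈ mons n d, ∑ i ∈ Finset.range a,
      (if i < M α then (monomial (wt M) 1 : MvPolynomial (Fin n) ℤ) else 0) =
      M α • monomial (wt M) 1 := fun α hα => by
    have h3 : M α ≤ a := hM.1 ▸ Finset.single_le_sum (f := M) (fun _ _ => Nat.zero_le _) hα
    have h4 : (Finset.range a).filter (fun i => i < M α) = Finset.range (M α) := by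
      ext i
      simp only [Finset.mem_filter, Finset.mem_range]
      omega
    rw [← Finset.sum_filter, h4, Finset.sum_const, Finset.card_range]
  rw [Finset.sum_congr rfl h2, ← Finset.sum_smul, hM.1, natCast_zsmul]

/-- the cycle index of the symmetric group on six letters -/
theorem cycle_index (n d : ℕ) :
    (720 : ℤ) • HH n 6 d =
      hp n d 1 ^ 6 + 15 * (hp n d 1 ^ 4 * hp n d 2) + 40 * (hp n d 1 ^ 3 * hp n d 3)
      + 45 * (hp n d 1 ^ 2 * hp n d 2 ^ 2) + 90 * (hp n d 1 ^ 2 * hp n d 4)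
      + 120 * (hp n d 1 * hp n d 2 * hp n d 3) + 144 * (hp n d 1 * hp n d 5)
      + 15 * hp n d 2 ^ 3 + 90 * (hp n d 2 * hp n d 4) + 40 * hp n d 3 ^ 2 + 120 * hp n d 6 := by
  have h1 := newton n 1 d
  have h2 := newton n 2 d
  have h3 := newton n 3 d
  have h4 := newton n 4 d
  have h5 := newton n 5 d
  have h6 := newton n 6 d
  simp only [Finset.sum_range_succ, Finset.sum_range_zero, zero_add, zsmul_eq_mul, Nat.reduceAdd,
    Nat.reduceSub, HH_zero, Nat.cast_ofNat, Int.cast_ofNat, Nat.cast_one, Int.cast_one,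
    Nat.sub_self] at h1 h2 h3 h4 h5 h6 ⊢
  generalize hp n d 1 = p1 at *
  generalize hp n d 2 = p2 at *
  generalize hp n d 3 = p3 at *
  generalize hp n d 4 = p4 at *
  generalize hp n d 5 = p5 at *
  generalize hp n d 6 = p6 at *
  generalize HH n 1 d = H1 at *
  generalize HH n 2 d = H2 at *
  generalize HH n 3 d = H3 at *
  generalize HH n 4 d = H4 at *
  generalize HH n 5 d = H5 at *
  generalize HH n 6 d = H6 at *
  have e1 : H1 = p1 := by linear_combination h1
  have e2 : 2 * H2 = p1 ^ 2 + p2 := by linear_combination h2 + p1 * e1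
  have e3 : 6 * H3 = p1 ^ 3 + 3 * p1 * p2 + 2 * p3 := by
    linear_combination 2 * h3 + p1 * e2 + 2 * p2 * e1
  have e4 : 24 * H4 = p1 ^ 4 + 6 * p1 ^ 2 * p2 + 8 * p1 * p3 + 3 * p2 ^ 2 + 6 * p4 := by
    linear_combination 6 * h4 + p1 * e3 + 3 * p2 * e2 + 6 * p3 * e1
  have e5 : 120 * H5 = p1 ^ 5 + 10 * p1 ^ 3 * p2 + 20 * p1 ^ 2 * p3 + 15 * p1 * p2 ^ 2
      + 30 * p1 * p4 + 20 * p2 * p3 + 24 * p5 := by
    linear_combination 24 * h5 + p1 * e4 + 4 * p2 * e3 + 12 * p3 * e2 + 24 * p4 * e1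
  linear_combination 120 * h6 + p1 * e5 + 5 * p2 * e4 + 20 * p3 * e3 + 60 * p4 * e2 + 120 * p5 * e1

theorem expand_hp (n d j k : ℕ) : expand k (hp n d j) = hp n d (k * j) := by
  simp only [hp, map_sum, expand_monomial, mul_smul]

end Crest.Agent.R187
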