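import Crest.Agent.R187.Sym1

set_option autoImplicit false
open MvPolynomial Crest.AlgebraR.FoulkesHowe Module

namespace Crest.Agent.R187

namespace TwistAux

variable {n : ℕ}

@[simp] theorem pad_castSucc (l : Fin n →₀ ℕ) (i : Fin n) : pad l i.castSucc = l i := by
  simp [pad]

@[simp] theorem pad_last (l : Fin n →₀ ℕ) : pad l (Fin.last n) = 0 := by
  simp [pad]

@[simp] theorem rho_apply (i : Fin n) : rho n i = n - 1 - (i : ℕ) := by
  simp [rho]

@[simp] theorem ones_apply (i : Fin n) : ones n i = 1 := by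
  simp [ones]

theorem pad_injective : Function.Injective (pad (n := n)) := by
  intro l l' h
  ext i
  rw [← pad_castSucc l, h, pad_castSucc]

theorem exists_pad {α : Fin (n + 1) →₀ ℕ} (h : α (Fin.last n) = 0) : ∃ l, α = pad l := by
  refine ⟨Finsupp.equivFunOnFinite.symm fun i => α i.castSucc, ?_⟩
  ext i
  induction i using Fin.lastCases with
  | last => simp [h]
  | cast i => simp

theorem pad_smul (k : ℕ) (l : Fin n →₀ ℕ) : k • pad l = pad (k • l) := by
  ext i
  induction i using Fin.lastCases with
  | last => simp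
  | cast i => simp

theorem mem_mons {d : ℕ} {α : Fin n →₀ ℕ} : α ∈ mons n d ↔ ∑ i, α i = d := by
  simp [mons, Finset.mem_finsuppAntidiag]

theorem pad_mem_mons {d : ℕ} {α : Fin n →₀ ℕ} : pad α ∈ mons (n + 1) d ↔ α ∈ mons n d := by
  simp [mem_mons, Fin.sum_univ_castSucc]

theorem kill_monomial (α : Fin (n + 1) →₀ ℕ) (c : ℤ) : kill n (monomial α c) =
    C c * ((∏ i : Fin n, X i ^ α i.castSucc) * 0 ^ α (Fin.last n)) := by
  rw [kill, aeval_monomial, Finsupp.prod_fintype _ _ (by simp), Fin.prod_univ_castSucc]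
  simp

theorem kill_monomial_pad (l : Fin n →₀ ℕ) (c : ℤ) :
    kill n (monomial (pad l) c) = monomial l c := by
  rw [kill_monomial, monomial_eq, Finsupp.prod_fintype _ _ (by simp)]
  simp

theorem kill_monomial_of_ne {α : Fin (n + 1) →₀ ℕ} (h : α (Fin.last n) ≠ 0) (c : ℤ) :
    kill n (monomial α c) = 0 := by
  rw [kill_monomial, zero_pow h]
  simp

theorem coeff_kill (G : MvPolynomial (Fin (n + 1)) ℤ) (e : Fin n →₀ ℕ) :
    coeff e (kill n G) = coeff (pad e) G := by
  induction G using MvPolynomial.induction_on' with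
  | monomial α c =>
    by_cases h : α (Fin.last n) = 0
    · obtain ⟨l, rfl⟩ := exists_pad h
      rw [kill_monomial_pad, coeff_monomial, coeff_monomial]
      simp only [pad_injective.eq_iff]
    · rw [kill_monomial_of_ne h, coeff_monomial, if_neg, coeff_zero]
      rintro rfl
      exact h (pad_last e)
  | add p q hp hq => simp only [map_add, coeff_add, hp, hq]

theorem prod_X_eq : (∏ i : Fin n, X i : MvPolynomial (Fin n) ℤ) = monomial (ones n) 1 := by
  rw [monomial_eq, Finsupp.prod_fintype _ _ (by simp)]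
  simp

theorem kill_Del (n : ℕ) : kill n (Del (n + 1)) = monomial (ones n) 1 * Del n := by
  have hX : ∀ i : Fin n, kill n (X i.castSucc) = X i := fun i => by simp [kill]
  have hl : kill n (X (Fin.last n)) = 0 := by simp [kill]
  rw [Del, Del, ← prod_X_eq, ← Finset.prod_mul_distrib, map_prod, Fin.prod_univ_castSucc]
  have h1 : Finset.Ioi (Fin.last n) = ∅ := by
    ext j
    simp [Fin.le_last]
  rw [h1, Finset.prod_empty, map_one, mul_one]
  refine Finset.prod_congr rfl fun i _ => ?_
  have h2 : Finset.Ioi i.castSucc = insert (Fin.last n) ((Finset.Ioi i).map Fin.castSuccEmb) := by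
    ext j
    induction j using Fin.lastCases with
    | last => simp
    | cast j => simp [Fin.le_last]
  rw [h2, Finset.prod_insert (by simp), Finset.prod_map, map_mul, map_prod]
  simp [hX, hl]

theorem wt_mapDomain_pad (M : (Fin n →₀ ℕ) →₀ ℕ) : wt (M.mapDomain pad) = pad (wt M) := by
  rw [wt, Finsupp.sum_mapDomain_index (by simp) (by simp [add_smul])]
  ext i
  induction i using Fin.lastCases with
  | last => simp [Finsupp.sum, Finsupp.finsetSum_apply]
  | cast i => simp [wt, Finsupp.sum, Finsupp.finsetSum_apply]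

theorem mapDomain_pad_mem {a d : ℕ} {M : (Fin n →₀ ℕ) →₀ ℕ} :
    M.mapDomain pad ∈ (mons (n + 1) d).finsuppAntidiag a ↔ M ∈ (mons n d).finsuppAntidiag a := by
  classical
  rw [Finset.mem_finsuppAntidiag', Finset.mem_finsuppAntidiag',
    Finsupp.sum_mapDomain_index (by simp) (by simp),
    Finsupp.mapDomain_support_of_injective pad_injective, Finset.image_subset_iff]
  simp only [pad_mem_mons]
  rfl

theorem kill_sum_wt (S : Finset ((Fin n →₀ ℕ) →₀ ℕ)) (S' : Finset ((Fin (n + 1) →₀ ℕ) →₀ ℕ))
    (hS : ∀ M : (Fin n →₀ ℕ) →₀ ℕ, M.mapDomain pad ∈ S' ↔ M ∈ S) :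
    kill n (∑ M ∈ S', monomial (wt M) 1) = ∑ M ∈ S, monomial (wt M) 1 := by
  rw [map_sum]
  symm
  refine Finset.sum_of_injOn (Finsupp.mapDomain pad)
    (Finsupp.mapDomain_injective pad_injective).injOn (fun M hM => (hS M).2 hM) ?_ ?_
  · intro M hM hn
    refine kill_monomial_of_ne (fun h => hn ?_) _
    have h1 : (M.support : Set (Fin (n + 1) →₀ ℕ)) ⊆ Set.range pad := by
      intro α hα
      rw [wt, Finsupp.sum, Finsupp.finsetSum_apply, Finset.sum_eq_zero_iff] at h
      have h2 := h α hα
      have h3 := Finsupp.mem_support_iff.1 hα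
      simp only [Finsupp.smul_apply, smul_eq_mul, mul_eq_zero] at h2
      obtain ⟨l, rfl⟩ := exists_pad (h2.resolve_left h3)
      exact ⟨l, rfl⟩
    have h4 := Finsupp.mapDomain_comapDomain pad pad_injective M h1
    rw [← h4] at hM
    exact ⟨_, (hS _).1 hM, h4⟩
  · intro M _
    rw [wt_mapDomain_pad, kill_monomial_pad]

/-! ### alternants -/

/-- the alternant of an exponent vector -/
noncomputable def alt (μ : Fin n →₀ ℕ) : MvPolynomial (Fin n) ℤ :=
  ∑ w : Equiv.Perm (Fin n), monomial (Finsupp.equivMapDomain w μ) (Equiv.Perm.sign w : ℤ)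

theorem alt_perm (σ : Equiv.Perm (Fin n)) (μ : Fin n →₀ ℕ) :
    alt (Finsupp.equivMapDomain σ μ) = (Equiv.Perm.sign σ : ℤ) • alt μ := by
  rw [alt, alt, Finset.smul_sum, ← Equiv.sum_comp (Equiv.mulRight σ)
    (fun w => (Equiv.Perm.sign σ : ℤ) •
      (monomial (Finsupp.equivMapDomain w μ) (Equiv.Perm.sign w : ℤ) : MvPolynomial (Fin n) ℤ))]
  refine Finset.sum_congr rfl fun w _ => ?_
  rw [← Finsupp.equivMapDomain_trans, smul_monomial, ← Equiv.Perm.mul_def]
  simp only [Equiv.coe_mulRight]
  congr 1
  rw [Equiv.Perm.sign_mul]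
  rcases Int.units_eq_one_or (Equiv.Perm.sign σ) with h | h <;> simp [h]

theorem alt_eq_zero {μ : Fin n →₀ ℕ} {i j : Fin n} (hij : i ≠ j) (h : μ i = μ j) : alt μ = 0 := by
  have h1 : Finsupp.equivMapDomain (Equiv.swap i j) μ = μ := by
    ext x
    rw [Finsupp.equivMapDomain_apply, Equiv.symm_swap]
    exact Equiv.apply_swap_eq_self h x
  have h2 := alt_perm (Equiv.swap i j) μ
  rw [h1, Equiv.Perm.sign_swap hij] at h2
  ext e
  have h3 := congrArg (coeff e) h2
  simp only [Units.val_neg, Units.val_one, neg_smul, one_smul, coeff_neg] at h3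
  rw [coeff_zero]
  omega

theorem alt_add_ones (μ : Fin n →₀ ℕ) : alt (μ + ones n) = monomial (ones n) 1 * alt μ := by
  rw [alt, alt, Finset.mul_sum]
  refine Finset.sum_congr rfl fun w _ => ?_
  rw [monomial_mul, one_mul]
  congr 2
  ext x
  simp [add_comm]

theorem alt_rho : alt (rho n) = Del n := (Del_eq_sum n).symm

theorem alt_rho_add_top (m : ℕ) :
    alt (rho (m + 1) + Finsupp.single (Fin.last m) (m + 1)) =
      (-1 : ℤ) ^ m • (monomial (ones (m + 1)) 1 * Del (m + 1)) := by
  have h1 : rho (m + 1) + Finsupp.single (Fin.last m) (m + 1) =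
      Finsupp.equivMapDomain (finRotate (m + 1)).symm (rho (m + 1) + ones (m + 1)) := by
    ext x
    rw [Finsupp.equivMapDomain_apply, Equiv.symm_symm]
    by_cases hx : x = Fin.last m
    · subst hx
      simp
    · have h2 := coe_finRotate_of_ne_last hx
      have h3 : (x : ℕ) < m := Fin.val_lt_last hx
      simp only [Finsupp.add_apply, rho_apply, ones_apply, h2, Finsupp.single_eq_of_ne hx]
      omega
  rw [h1, alt_perm, alt_add_ones, alt_rho, Equiv.Perm.sign_symm, sign_finRotate]
  simp

theorem alt_rho_add_mid {m j : ℕ} (h1 : 1 ≤ j) (h2 : j ≤ m) :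
    alt (rho (m + 1) + Finsupp.single (Fin.last m) j) = 0 := by
  have hne : (⟨m - j, by omega⟩ : Fin (m + 1)) ≠ Fin.last m := by
    intro h
    have := congrArg Fin.val h
    simp at this
    omega
  refine alt_eq_zero hne ?_
  simp only [Finsupp.add_apply, rho_apply, Finsupp.single_eq_of_ne hne, Finsupp.single_eq_same,
    Fin.val_last]
  omega

/-- the basic relation -/
theorem key (m : ℕ) (P : Polynomial (MvPolynomial (Fin (m + 1)) ℤ)) (hP : P.natDegree ≤ m + 1)
    (hX : ∀ i, degreeOf i (P.eval (X i)) = 0) (e : Fin (m + 1) →₀ ℕ) (he : ∀ i, 1 ≤ e i) :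
    coeff e (Del (m + 1) * P.coeff 0) +
      (-1) ^ m * coeff e (monomial (ones (m + 1)) 1 * (Del (m + 1) * P.coeff (m + 1))) = 0 := by
  have h1 : ∑ w : Equiv.Perm (Fin (m + 1)),
      monomial (Finsupp.equivMapDomain w (rho (m + 1))) (Equiv.Perm.sign w : ℤ) *
        P.eval (X (w (Fin.last m))) =
      ∑ j ∈ Finset.range (m + 2),
        alt (rho (m + 1) + Finsupp.single (Fin.last m) j) * P.coeff j := by
    simp only [Polynomial.eval_eq_sum_range' (Nat.lt_succ_of_le hP), Finset.mul_sum, alt,
      Finset.sum_mul]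
    rw [Finset.sum_comm]
    refine Finset.sum_congr rfl fun j _ => Finset.sum_congr rfl fun w _ => ?_
    rw [mul_comm (P.coeff j), ← mul_assoc, X_pow_eq_monomial, monomial_mul, mul_one]
    congr 3
    ext x
    simp [Finsupp.single_apply, Equiv.eq_symm_apply]
  have h2 : coeff e (∑ w : Equiv.Perm (Fin (m + 1)),
      monomial (Finsupp.equivMapDomain w (rho (m + 1))) (Equiv.Perm.sign w : ℤ) *
        P.eval (X (w (Fin.last m)))) = 0 := by
    rw [coeff_sum]
    refine Finset.sum_eq_zero fun w _ => ?_
    by_contra hne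
    have h3 := monomial_le_degreeOf (w (Fin.last m)) (mem_support_iff.2 hne)
    have h4 := degreeOf_mul_le (w (Fin.last m))
      (monomial (Finsupp.equivMapDomain w (rho (m + 1))) (Equiv.Perm.sign w : ℤ))
      (P.eval (X (w (Fin.last m))))
    rw [hX, degreeOf_monomial_eq _ _ (by simp)] at h4
    have h5 := he (w (Fin.last m))
    simp at h4
    omega
  rw [h1, Finset.sum_range_succ, Finset.sum_range_succ', Finset.sum_eq_zero, alt_rho_add_top] at h2
  · rwa [zero_add, Finsupp.single_zero, add_zero, alt_rho, smul_mul_assoc, coeff_add, coeff_smul,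
      smul_eq_mul, mul_assoc] at h2
  · intro j hj
    rw [alt_rho_add_mid (by omega) (Finset.mem_range.1 hj), zero_mul]

/-- the monomials without `X i` -/
theorem degreeOf_hp_sub (b k : ℕ) (i : Fin n) :
    degreeOf i (hp n (b + 1) k - X i ^ k * hp n b k) = 0 := by
  classical
  have h1 : X i ^ k * hp n b k =
      ∑ α ∈ (mons n (b + 1)).filter (fun α => ¬ α i = 0), monomial (k • α) 1 := by
    rw [hp, Finset.mul_sum]
    refine Finset.sum_nbij' (fun α => α + Finsupp.single i 1) (fun α => α - Finsupp.single i 1)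
      ?_ ?_ ?_ ?_ ?_
    · intro α hα
      simp only [Finset.mem_filter, mem_mons] at hα ⊢
      simp [Finset.sum_add_distrib, hα, Finsupp.single_apply]
    · intro α hα
      simp only [Finset.mem_filter, mem_mons] at hα ⊢
      have h2 : α - Finsupp.single i 1 + Finsupp.single i 1 = α :=
        tsub_add_cancel_of_le (Finsupp.single_le_iff.2 (Nat.one_le_iff_ne_zero.2 hα.2))
      have h3 := hα.1
      rw [← h2] at h3
      simpa [Finset.sum_add_distrib, Finsupp.single_apply] using h3
    · intro α _
      simp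
    · intro α hα
      simp only [Finset.mem_filter] at hα
      exact tsub_add_cancel_of_le (Finsupp.single_le_iff.2 (Nat.one_le_iff_ne_zero.2 hα.2))
    · intro α _
      rw [X_pow_eq_monomial, monomial_mul, mul_one, smul_add, add_comm]
      simp
  rw [h1, hp, ← Finset.sum_filter_add_sum_filter_not _ (fun α => α i = 0), add_sub_cancel_right]
  refine Nat.le_zero.1 ((degreeOf_sum_le _ _ _).trans (Finset.sup_le fun α hα => ?_))
  rw [degreeOf_monomial_eq _ _ one_ne_zero]
  simp [(Finset.mem_filter.1 hα).2]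

/-- the generating polynomial -/
noncomputable def PP (n b : ℕ) (ks : List ℕ) : Polynomial (MvPolynomial (Fin n) ℤ) :=
  (ks.map fun k => Polynomial.C (hp n (b + 1) k) - Polynomial.monomial k (hp n b k)).prod

theorem PP_cons (b k : ℕ) (ks : List ℕ) : PP n b (k :: ks) =
    (Polynomial.C (hp n (b + 1) k) - Polynomial.monomial k (hp n b k)) * PP n b ks := by
  simp [PP]

theorem natDegree_factor (b k : ℕ) :
    (Polynomial.C (hp n (b + 1) k) - Polynomial.monomial k (hp n b k)).natDegree ≤ k :=
  (Polynomial.natDegree_sub_le _ _).trans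
    (max_le (by simp) (Polynomial.natDegree_monomial_le _))

theorem natDegree_PP (b : ℕ) (ks : List ℕ) : (PP n b ks).natDegree ≤ ks.sum := by
  induction ks with
  | nil => simp [PP]
  | cons k ks ih =>
    rw [PP_cons, List.sum_cons]
    exact Polynomial.natDegree_mul_le.trans (add_le_add (natDegree_factor b k) ih)

theorem coeff_PP_zero (b : ℕ) (ks : List ℕ) (hk : ∀ k ∈ ks, 1 ≤ k) :
    (PP n b ks).coeff 0 = (ks.map (hp n (b + 1))).prod := by
  induction ks with
  | nil => simp [PP]
  | cons k ks ih =>
    have h1 : k ≠ 0 := Nat.one_le_iff_ne_zero.1 (hk k (by simp))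
    rw [PP_cons, Polynomial.mul_coeff_zero, ih fun k hk' => hk k (by simp [hk'])]
    simp [Polynomial.coeff_monomial, h1]

theorem coeff_PP_top (b : ℕ) (ks : List ℕ) (hk : ∀ k ∈ ks, 1 ≤ k) :
    (PP n b ks).coeff ks.sum = (-1 : ℤ) ^ ks.length • (ks.map (hp n b)).prod := by
  induction ks with
  | nil => simp [PP]
  | cons k ks ih =>
    have h1 : k ≠ 0 := Nat.one_le_iff_ne_zero.1 (hk k (by simp))
    rw [PP_cons, List.sum_cons,
      Polynomial.coeff_mul_add_eq_of_natDegree_le (natDegree_factor b k) (natDegree_PP b ks),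
      ih fun k hk' => hk k (by simp [hk'])]
    simp [Polynomial.coeff_C, h1, pow_succ, mul_left_comm]

theorem degreeOf_eval_PP (b : ℕ) (ks : List ℕ) (i : Fin n) :
    degreeOf i ((PP n b ks).eval (X i)) = 0 := by
  induction ks with
  | nil => simp [PP]
  | cons k ks ih =>
    rw [PP_cons, Polynomial.eval_mul]
    refine Nat.le_zero.1 ((degreeOf_mul_le _ _ _).trans ?_)
    rw [ih, Polynomial.eval_sub, Polynomial.eval_C, Polynomial.eval_monomial, mul_comm,
      degreeOf_hp_sub]

theorem hp_zero' (n k : ℕ) : hp n 0 k = 1 := by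
  simp [hp, mons]

end TwistAux

open TwistAux

theorem mult_pad {n : ℕ} (F : MvPolynomial (Fin (n + 1)) ℤ) (l : Fin n →₀ ℕ) :
    mult F (pad l) = mult (kill n F) l := by
  have h1 : pad l + rho (n + 1) = pad (ones n + (l + rho n)) := by
    ext i
    induction i using Fin.lastCases with
    | last => simp
    | cast i =>
      have := i.2
      simp only [Finsupp.add_apply, pad_castSucc, rho_apply, ones_apply, Fin.val_castSucc]
      omega
  rw [mult, mult, h1, ← coeff_kill, map_mul, kill_Del, mul_assoc, coeff_monomial_mul, one_mul]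

theorem kill_hp (n d k : ℕ) (hk : 1 ≤ k) : kill n (hp (n + 1) d k) = hp n d k := by
  rw [hp, hp, map_sum]
  symm
  refine Finset.sum_of_injOn pad pad_injective.injOn
    (fun α hα => Finset.mem_coe.2 (pad_mem_mons.2 (Finset.mem_coe.1 hα))) ?_ ?_
  · intro β hβ hn
    refine kill_monomial_of_ne (fun h => hn ?_) _
    have h1 : β (Fin.last n) = 0 := by
      simp only [Finsupp.smul_apply, smul_eq_mul, mul_eq_zero] at h
      omega
    obtain ⟨l, rfl⟩ := exists_pad h1
    exact ⟨l, Finset.mem_coe.2 (pad_mem_mons.1 hβ), rfl⟩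
  · intro α _
    rw [pad_smul, kill_monomial_pad]

theorem kill_HH (n a d : ℕ) : kill n (HH (n + 1) a d) = HH n a d :=
  kill_sum_wt _ _ fun M => mapDomain_pad_mem (n := n) (a := a) (d := d) (M := M)

/-- twisting by the determinant -/
theorem mult_twist (n b : ℕ) (ks : List ℕ) (hk : ∀ k ∈ ks, 1 ≤ k) (hs : ks.sum = n)
    (l : Fin n →₀ ℕ) :
    mult (ks.map (hp n (b + 1))).prod (l + ones n) =
      (-1) ^ (n + ks.length) * mult (ks.map (hp n b)).prod l := by
  cases n with
  | zero =>
    have h1 : ks = [] := by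
      cases ks with
      | nil => rfl
      | cons k ks =>
        have := hk k (by simp)
        simp only [List.sum_cons] at hs
        omega
    have h2 : l + ones 0 = l := Subsingleton.elim _ _
    simp [h1, h2]
  | succ m =>
    have h1 := key m (PP (m + 1) b ks) (hs ▸ natDegree_PP b ks) (degreeOf_eval_PP b ks)
      (ones (m + 1) + (l + rho (m + 1))) (fun i => by simp)
    have h2 := coeff_PP_top (n := m + 1) b ks hk
    rw [hs] at h2
    rw [coeff_monomial_mul, one_mul, coeff_PP_zero b ks hk, h2, mul_smul_comm, coeff_smul,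
      smul_eq_mul] at h1
    rw [mult, mult, add_comm l, add_assoc]
    linear_combination h1

/-- `p_μ[h_b]` has no Schur component with more than `|μ|` rows -/
theorem mult_eq_zero_of_rows (n b : ℕ) (ks : List ℕ) (hk : ∀ k ∈ ks, 1 ≤ k)
    (l : Fin n →₀ ℕ) (hl : Antitone l) (m : Fin n) (hm : ks.sum ≤ m) (h : 0 < l m) :
    mult (ks.map (hp n b)).prod l = 0 := by
  induction n with
  | zero => exact m.elim0
  | succ n ih =>
    by_cases h0 : l (Fin.last n) = 0
    · obtain ⟨l', rfl⟩ := exists_pad h0
      induction m using Fin.lastCases with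
      | last => simp at h
      | cast m =>
        have h1 : kill n (ks.map (hp (n + 1) b)).prod = (ks.map (hp n b)).prod := by
          rw [map_list_prod, List.map_map]
          exact congrArg List.prod (List.map_congr_left fun k hk' => kill_hp n b k (hk k hk'))
        rw [mult_pad, h1]
        refine ih l' (fun i j hij => ?_) m hm (by simpa using h)
        simpa using hl (Fin.castSucc_le_castSucc_iff.2 hij)
    · cases b with
      | zero =>
        have h1 : (ks.map (hp (n + 1) 0)).prod = 1 :=
          List.prod_eq_one fun x hx => by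
            obtain ⟨k, -, rfl⟩ := List.mem_map.1 hx
            exact hp_zero' _ _
        rw [h1]
        refine mult_one_of_ne l hl ?_
        rintro rfl
        simp at h
      | succ b =>
        have h2 := natDegree_PP (n := n + 1) b ks
        have h3 := m.2
        have h1 := key n (PP (n + 1) b ks) (by omega) (degreeOf_eval_PP b ks)
          (l + rho (n + 1)) (fun i => by
            have := hl (Fin.le_last i)
            simp only [Finsupp.add_apply]
            omega)
        rw [coeff_PP_zero b ks hk, Polynomial.coeff_eq_zero_of_natDegree_lt (by omega)] at h1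
        simpa [mult] using h1

end Crest.Agent.R187
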