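import Crest.Agent.R187.Iface
import Crest.Agent.R187.Psi
import Crest.Agent.R187.Group
import Crest.Agent.R187.Twist
import Crest.Agent.R187.Sym2

set_option autoImplicit false
open MvPolynomial Crest.AlgebraR.FoulkesHowe Module

namespace Crest.Agent.R187


theorem Final_mult_add {n : ℕ} (F G : MvPolynomial (Fin n) ℤ) (l : Fin n →₀ ℕ) :
    mult (F + G) l = mult F l + mult G l := by
  rw [mult, mul_add, coeff_add, mult, mult]

theorem Final_mult_smul {n : ℕ} (c : ℤ) (F : MvPolynomial (Fin n) ℤ) (l : Fin n →₀ ℕ) :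
    mult (c • F) l = c * mult F l := by
  rw [mult, mul_smul_comm, coeff_smul, mult, smul_eq_mul]

theorem Final_cyc (n d : ℕ) (l : Fin n →₀ ℕ) :
    720 * mult (HH n 6 d) l =
      mult ([1, 1, 1, 1, 1, 1].map (hp n d)).prod l + 15 * mult ([1, 1, 1, 1, 2].map (hp n d)).prod l
      + 40 * mult ([1, 1, 1, 3].map (hp n d)).prod l + 45 * mult ([1, 1, 2, 2].map (hp n d)).prod l
      + 90 * mult ([1, 1, 4].map (hp n d)).prod l + 120 * mult ([1, 2, 3].map (hp n d)).prod l
      + 144 * mult ([1, 5].map (hp n d)).prod l + 15 * mult ([2, 2, 2].map (hp n d)).prod l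
      + 90 * mult ([2, 4].map (hp n d)).prod l + 40 * mult ([3, 3].map (hp n d)).prod l
      + 120 * mult ([6].map (hp n d)).prod l := by
  simp only [← Final_mult_smul, ← Final_mult_add]
  refine congrArg (fun F => mult F l) ?_
  rw [cycle_index]
  simp only [List.map_cons, List.map_nil, List.prod_cons, List.prod_nil, zsmul_eq_mul]
  push_cast
  ring

theorem Final_ext {n d d' : ℕ} {l l' : Fin n →₀ ℕ} {c : ℤ}
    (h : ∀ ks : List ℕ, (∀ k ∈ ks, 1 ≤ k) → ks.sum = 6 →
      mult (ks.map (hp n d)).prod l = c * mult (ks.map (hp n d')).prod l') :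
    mult (HH n 6 d) l = c * mult (HH n 6 d') l' := by
  have h1 := Final_cyc n d l
  have h2 := Final_cyc n d' l'
  rw [h _ (by decide) rfl, h _ (by decide) rfl, h _ (by decide) rfl, h _ (by decide) rfl,
    h _ (by decide) rfl, h _ (by decide) rfl, h _ (by decide) rfl, h _ (by decide) rfl,
    h _ (by decide) rfl, h _ (by decide) rfl, h _ (by decide) rfl] at h1
  have h3 : 720 * mult (HH n 6 d) l = 720 * (c * mult (HH n 6 d') l') := by
    rw [mul_left_comm, h2, h1]
    ring
  exact mul_left_cancel₀ (by norm_num) h3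

theorem Final_twist (b j : ℕ) (ks : List ℕ) (hk : ∀ k ∈ ks, 1 ≤ k) (hs : ks.sum = 6)
    (l : Fin 6 →₀ ℕ) :
    mult (ks.map (hp 6 (b + j))).prod (l + j • ones 6) =
      ((-1) ^ (6 + ks.length)) ^ j * mult (ks.map (hp 6 b)).prod l := by
  induction j with
  | zero => simp
  | succ j ih =>
    rw [← add_assoc, succ_nsmul, ← add_assoc, mult_twist 6 (b + j) ks hk hs, ih]
    ring

theorem Final_six (hN : Numeric) (h6 : 0 < mult (HH 6 6 6) (6 • ones 6)) (b : ℕ) :
    6 ≤ b → ∀ l : Fin 6 →₀ ℕ, Antitone l → mult (HH 6 6 b) l ≤ mult (HH 6 b 6) l := by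
  induction b using Nat.strong_induction_on with
  | _ b ih =>
  intro hb l hl
  rcases hb.eq_or_lt with rfl | hb7
  · exact le_rfl
  by_cases h25 : 25 ≤ b
  · rw [mult_HH_eq _ _ _ _ hl, mult_HH_eq _ _ _ _ hl]
    exact_mod_cast hwv_le_of_large 6 6 b h25 l
  by_cases hdeg : ∑ i, l i = 6 * b
  swap
  · rw [mult_eq_zero_of_degree _ (HH_isHomogeneous 6 6 b) l hdeg]
    exact mult_HH_nonneg _ _ _ _ hl
  by_cases h12 : 12 ≤ b → l 5 ≤ 5
  · exact hN b l hb7 (by omega) hl hdeg h12
  push Not at h12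
  obtain ⟨c, rfl⟩ : ∃ c, b = c + 6 := ⟨b - 6, by omega⟩
  have hge : ∀ i, 6 ≤ l i := fun i => le_trans h12.2 (hl (Fin.le_last i))
  obtain ⟨l', rfl⟩ : ∃ l', l = l' + 6 • ones 6 := by
    refine ⟨l - 6 • ones 6, Finsupp.ext fun i => ?_⟩
    have := hge i
    simp only [ones, Finsupp.add_apply, Finsupp.tsub_apply, Finsupp.smul_apply,
      Finsupp.equivFunOnFinite_symm_apply_apply, smul_eq_mul]
    omega
  have hl' : Antitone l' := fun i j hij => by
    have := hl hij
    simp only [ones, Finsupp.add_apply, Finsupp.smul_apply,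
      Finsupp.equivFunOnFinite_symm_apply_apply] at this
    omega
  have h1 : mult (HH 6 6 (c + 6)) (l' + 6 • ones 6) = 1 * mult (HH 6 6 c) l' :=
    Final_ext fun ks hk hs => by
      rw [Final_twist c 6 ks hk hs, ← pow_mul, mul_comm _ 6, pow_mul]
      norm_num
  rw [h1, one_mul]
  refine (ih c (by omega) (by omega) l' hl').trans (mult_semigroup 6 6 c 6 l' _ hl' ?_ h6)
  intro i j _
  simp [ones]

theorem Final_pad_antitone {n : ℕ} {l : Fin n →₀ ℕ} (hl : Antitone l) : Antitone (pad l) := by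
  intro i j hij
  induction j using Fin.lastCases with
  | last => simp [pad]
  | cast j =>
    induction i using Fin.lastCases with
    | last => exact absurd hij (not_le.2 (Fin.castSucc_lt_last j))
    | cast i => simpa [pad] using hl (Fin.castSucc_le_castSucc_iff.1 hij)

theorem Final_down {n b : ℕ}
    (h : ∀ l : Fin (n + 1) →₀ ℕ, Antitone l → mult (HH (n + 1) 6 b) l ≤ mult (HH (n + 1) b 6) l)
    (l : Fin n →₀ ℕ) (hl : Antitone l) : mult (HH n 6 b) l ≤ mult (HH n b 6) l := by
  have := h _ (Final_pad_antitone hl)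
  rwa [mult_pad, mult_pad, kill_HH, kill_HH] at this

theorem Final_up {n b : ℕ} (hn : 6 ≤ n)
    (h : ∀ l : Fin n →₀ ℕ, Antitone l → mult (HH n 6 b) l ≤ mult (HH n b 6) l)
    (l : Fin (n + 1) →₀ ℕ) (hl : Antitone l) :
    mult (HH (n + 1) 6 b) l ≤ mult (HH (n + 1) b 6) l := by
  rcases Nat.eq_zero_or_pos (l (Fin.last n)) with h0 | h0
  · have h1 : l = pad (Finsupp.equivFunOnFinite.symm fun i : Fin n => l i.castSucc) := by
      ext i
      induction i using Fin.lastCases with
      | last => simpa [pad] using h0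
      | cast i => simp [pad]
    rw [h1, mult_pad, mult_pad, kill_HH, kill_HH]
    exact h _ fun i j hij => hl (Fin.castSucc_le_castSucc_iff.2 hij)
  · have h1 : mult (HH (n + 1) 6 b) l = 0 * mult (HH (n + 1) 6 b) l :=
      Final_ext fun ks hk hs => by
        rw [zero_mul]
        exact mult_eq_zero_of_rows _ b ks hk l hl (Fin.last n) (by rw [hs]; exact hn) h0
    rw [h1, zero_mul]
    exact mult_HH_nonneg _ _ _ _ hl

/-- Foulkes' inequality for all `n`, `b ≥ 6`, from the finite check -/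
theorem mult_le_of_numeric (hN : Numeric) (h6 : 0 < mult (HH 6 6 6) (6 • ones 6))
    (n b : ℕ) (hb : 6 ≤ b) (l : Fin n →₀ ℕ) (hl : Antitone l) :
    mult (HH n 6 b) l ≤ mult (HH n b 6) l := by
  revert l
  rcases le_total 6 n with hn | hn
  · induction n, hn using Nat.le_induction with
    | base => exact Final_six hN h6 b hb
    | succ n hn ih => exact Final_up hn ih
  · induction hn using Nat.decreasingInduction with
    | self => exact Final_six hN h6 b hb
    | of_succ n _ ih => exact Final_down ih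

theorem main_of_numeric (hN : Numeric) (h6 : 0 < mult (HH 6 6 6) (6 • ones 6))
    (n b : ℕ) (hb : 6 ≤ b) :
    ∃ φ : MvPolynomial (Var 6 n) ℂ →ₗ[ℂ] MvPolynomial (Var b n) ℂ,
      (∀ f ∈ blockSym 6 n b, φ f ∈ blockSym b n 6) ∧
      Set.InjOn φ (blockSym 6 n b) ∧
      ∀ g : Matrix (Fin n) (Fin n) ℂ, IsUnit g →
        ∀ f ∈ blockSym 6 n b, φ (linSubst 6 g f) = linSubst b g (φ f) := by
  have h : ∀ μ, finrank ℂ (hwv (blockSym 6 n b) μ) ≤ finrank ℂ (hwv (blockSym b n 6) μ) := by
    intro μ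
    by_cases h0 : hwv (blockSym 6 n b) μ = ⊥
    · rw [h0]; simp
    · have hμ := (good_blockSym 6 n b).hwv_antitone μ h0
      have := mult_le_of_numeric hN h6 n b hb μ hμ
      rw [mult_HH_eq _ _ _ _ hμ, mult_HH_eq _ _ _ _ hμ] at this
      exact_mod_cast this
  obtain ⟨φ, h1, h2, h3⟩ := (good_blockSym 6 n b).exists_inj (good_blockSym b n 6) h
  exact ⟨φ, h1, h2, fun g hg f hf => ((good_blockSym 6 n b).linSubst_comm φ h3 g hg f hf).2⟩

end Crest.Agent.R187
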