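import Crest.Agent.R187.RepB

set_option autoImplicit false
open MvPolynomial

namespace Crest.Agent.R187.Alg
open Crest.Agent.R187

theorem Spread_step {A Bq c : ℕ} (hA : ∀ i, c ≤ i → fld A i = 0) (i : ℕ) :
    fld (A + Bq <<< (57 * c)) i = if c ≤ i then fld Bq (i - c) else fld A i := by
  rw [fld_add, fld_shl]
  · split_ifs with h
    · rw [hA i h, Nat.zero_add]
    · rw [Nat.add_zero]
  · intro j
    rw [fld_shl]
    split_ifs with h
    · rw [hA j h, Nat.zero_add]; exact fld_lt _ _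
    · rw [Nat.add_zero]; exact fld_lt _ _

theorem Spread_supp {cin cout : ℕ} {f : ℕ → ℕ}
    (hf : ∀ y i, cout ≤ i → fld (f (y % 2 ^ (57 * cin))) i = 0) (n : ℕ) :
    ∀ X i, cout * n ≤ i → fld (sp cin cout f n X) i = 0 := by
  induction n with
  | zero => intro X i _; exact fld_zero i
  | succ n ih =>
    intro X i hi
    rw [Nat.mul_succ] at hi
    rw [sp, Spread_step (hf X), if_pos (by omega)]
    exact ih _ _ (by omega)

theorem Spread_sp {cin cout : ℕ} {f : ℕ → ℕ}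
    (hf : ∀ y i, cout ≤ i → fld (f (y % 2 ^ (57 * cin))) i = 0) (n : ℕ) :
    ∀ X t j, t < cout → fld (sp cin cout f n X) (t + cout * j) =
      if j < n then fld (f ((X >>> (57 * (cin * j))) % 2 ^ (57 * cin))) t else 0 := by
  induction n with
  | zero => intro X t j _; rw [if_neg (Nat.not_lt_zero j)]; exact fld_zero _
  | succ n ih =>
    intro X t j ht
    rw [sp, Spread_step (hf X)]
    cases j with
    | zero =>
      rw [if_neg (by omega), if_pos (Nat.succ_pos n)]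
      simp only [Nat.mul_zero, Nat.add_zero, Nat.shiftRight_zero]
    | succ j =>
      rw [Nat.mul_succ cout, if_pos (by omega), show t + (cout * j + cout) - cout = t + cout * j by omega,
        ih _ t j ht, ← Nat.shiftRight_add, show 57 * cin + 57 * (cin * j) = 57 * (cin * (j + 1)) by ring]
      simp only [Nat.succ_lt_succ_iff]

theorem Spread_radix {c a a' j j' : ℕ} (ha : a < c) (ha' : a' < c) (h : a + c * j = a' + c * j') :
    a = a' ∧ j = j' := by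
  have h1 : (a + c * j) % c = (a' + c * j') % c := by rw [h]
  rw [Nat.add_mul_mod_self_left, Nat.add_mul_mod_self_left, Nat.mod_eq_of_lt ha,
    Nat.mod_eq_of_lt ha'] at h1
  subst h1
  exact ⟨rfl, Nat.eq_of_mul_eq_mul_left (by omega) (Nat.add_left_cancel h)⟩

theorem Spread_lt {c t j n d : ℕ} (ht : t < c) (hj : j < n) (hd : c * n ≤ d) : t + c * j < d := by
  have : c * (j + 1) ≤ c * n := Nat.mul_le_mul_left c hj
  rw [Nat.mul_succ] at this
  omega

theorem Spread_ceil {k n j : ℕ} (hk : 1 ≤ k) : j < (n + k - 1) / k ↔ k * j < n := by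
  rw [Nat.lt_iff_add_one_le, Nat.le_div_iff_mul_le (by omega), Nat.add_mul, Nat.mul_comm j k]
  omega

section
variable {c3 c4 c4' n3' n4' k : ℕ}

theorem Spread_id (hk : 1 ≤ k) (y i : ℕ) (hi : k * c3 ≤ i) : fld (id (y % 2 ^ (57 * c3))) i = 0 := by
  have : c3 ≤ k * c3 := Nat.le_mul_of_pos_left c3 hk
  rw [id, fld_mod, if_neg (by omega)]

theorem Spread_inner (hk : 1 ≤ k) (h : c3 * n3' ≤ c4) (y i : ℕ) (hi : k * c4 ≤ i) :
    fld (sp c3 (k * c3) id n3' (y % 2 ^ (57 * c4'))) i = 0 := by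
  refine Spread_supp (Spread_id hk) _ _ _ (le_trans ?_ hi)
  rw [Nat.mul_assoc]
  exact Nat.mul_le_mul_left k h

theorem Spread_formula (hk : 1 ≤ k) (h : c3 * n3' ≤ c4) (h' : c3 * n3' ≤ c4') (X t j3 j4 : ℕ)
    (ht : t < k * c3) (hs : t + k * c3 * j3 < k * c4) :
    fld (sp c4' (k * c4) (sp c3 (k * c3) id n3') n4' X) (t + k * c3 * j3 + k * c4 * j4) =
      if j4 < n4' ∧ j3 < n3' ∧ t < c3 then fld X (t + c3 * j3 + c4' * j4) else 0 := by
  rw [Spread_sp (Spread_inner hk h) _ _ _ _ hs]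
  by_cases h4 : j4 < n4'
  · rw [if_pos h4, Spread_sp (Spread_id hk) _ _ _ _ ht]
    by_cases h3 : j3 < n3'
    · rw [if_pos h3, id, fld_mod]
      by_cases h2 : t < c3
      · rw [if_pos h2, if_pos ⟨h4, h3, h2⟩, fld_shr, fld_mod, if_pos (Spread_lt h2 h3 h'), fld_shr]
      · rw [if_neg h2, if_neg (fun hh => h2 hh.2.2)]
    · rw [if_neg h3, if_neg (fun hh => h3 hh.2.1)]
  · rw [if_neg h4, if_neg (fun hh => h4 hh.1)]

theorem Spread_cases (hk : 1 ≤ k) (h : c3 * n3' ≤ c4) (h' : c3 * n3' ≤ c4') (X i : ℕ) :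
    fld (sp c4' (k * c4) (sp c3 (k * c3) id n3') n4' X) i = 0 ∨
      ∃ t j3 j4, t < c3 ∧ j3 < n3' ∧ j4 < n4' ∧ i = t + k * c3 * j3 + k * c4 * j4 ∧
        fld (sp c4' (k * c4) (sp c3 (k * c3) id n3') n4' X) i = fld X (t + c3 * j3 + c4' * j4) := by
  rcases Nat.eq_zero_or_pos (k * c4) with h4 | h4
  · left
    exact Spread_supp (Spread_inner hk h) _ _ _ (by rw [h4, Nat.zero_mul]; exact Nat.zero_le _)
  have hs : i % (k * c4) < k * c4 := Nat.mod_lt _ h4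
  have hi : i = i % (k * c4) + k * c4 * (i / (k * c4)) := (Nat.mod_add_div _ _).symm
  generalize i % (k * c4) = s at hs hi
  generalize i / (k * c4) = j4 at hi
  rcases Nat.eq_zero_or_pos (k * c3) with h3 | h3
  · left
    rw [hi, Spread_sp (Spread_inner hk h) _ _ _ _ hs]
    split_ifs
    · exact Spread_supp (Spread_id hk) _ _ _ (by rw [h3, Nat.zero_mul]; exact Nat.zero_le _)
    · rfl
  have ht : s % (k * c3) < k * c3 := Nat.mod_lt _ h3
  have hs' : s = s % (k * c3) + k * c3 * (s / (k * c3)) := (Nat.mod_add_div _ _).symm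
  generalize s % (k * c3) = t at ht hs'
  generalize s / (k * c3) = j3 at hs'
  subst hs'
  subst hi
  rw [Spread_formula hk h h' X t j3 j4 ht hs]
  split_ifs with hh
  · exact Or.inr ⟨t, j3, j4, hh.2.2, hh.2.1, hh.1, rfl, rfl⟩
  · exact Or.inl rfl

end

theorem Spread_idx_inj {L : Lay} (hL : L.Ok) {e2 e3 e4 f2 f3 f4 : ℕ} (h2 : e2 < L.n2) (h3 : e3 < L.n3)
    (h2' : f2 < L.n2) (h3' : f3 < L.n3) (h : L.idx e2 e3 e4 = L.idx f2 f3 f4) :
    e2 = f2 ∧ e3 = f3 ∧ e4 = f4 := by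
  have hc := hL.h2
  have a1 : L.c2 * e2 < L.c3 := lt_of_lt_of_le (Nat.mul_lt_mul_of_pos_left h2 (by omega)) hL.h3
  have a2 : L.c2 * f2 < L.c3 := lt_of_lt_of_le (Nat.mul_lt_mul_of_pos_left h2' (by omega)) hL.h3
  obtain ⟨b1, b2⟩ := Spread_radix (Spread_lt a1 h3 hL.h4) (Spread_lt a2 h3' hL.h4) h
  obtain ⟨b3, b4⟩ := Spread_radix a1 a2 b1
  exact ⟨Nat.eq_of_mul_eq_mul_left (by omega) b3, b4, b2⟩

theorem spread_spec {L' L : Lay} {k m5 D : ℕ} {G : List (List ℕ)} {P : MvPolynomial (Fin 6) ℤ}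
    (hL' : L'.Ok) (hL : L.Ok) (hk : 1 ≤ k) (h2 : L.c2 = 1) (h2' : L'.c2 = k) (h3 : L'.c3 = L.c3)
    (hn2 : k * L'.n2 = L.n2) (hn3 : L'.n3 = (L.n3 + k - 1) / k) (hn4 : L'.n4 = (L.n4 + k - 1) / k)
    (h : RepG L' (m5 / k) 0 G D P) :
    RepG L m5 0 (spread L' L k m5 G) (k * D) (expand k P) := by
  intro a b ha hb
  obtain rfl : b = 0 := Nat.le_zero.1 hb
  rw [spread, get_single_tab _ _ _ ha]
  by_cases hka : a % k = 0
  swap
  · have : Nat.beq (a % k) 0 = false := by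
      rw [← Bool.not_eq_true, Nat.beq_eq]; exact hka
    rw [this, cond_false]
    refine Rep.zero.congr fun e2 e3 e4 _ _ _ => ?_
    rw [sl, deh_expand _ _ _ _ _ _ _ _ hk, if_neg]
    exact fun hh => hka (Nat.mod_eq_zero_of_dvd hh.2.2.2.1)
  have hb' : Nat.beq (a % k) 0 = true := by rw [Nat.beq_eq]; exact hka
  rw [hb', cond_true, h3]
  have hX := h (a / k) 0 (Nat.div_le_div_right ha) le_rfl
  generalize get G (a / k) 0 = X at hX
  have hn3' : L'.n3 ≤ L.n3 := by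
    by_contra hc
    have h1 : L.n3 < (L.n3 + k - 1) / k := by omega
    have h2 := (Spread_ceil hk).1 h1
    have : L.n3 ≤ k * L.n3 := Nat.le_mul_of_pos_left _ hk
    omega
  have g1 : L.c3 * L'.n3 ≤ L.c4 := (Nat.mul_le_mul_left _ hn3').trans hL.h4
  have g2 : L.c3 * L'.n3 ≤ L'.c4 := h3 ▸ hL'.h4
  have g3 : k * L'.n2 ≤ L.c3 := by have := hL'.h3; rwa [h2', h3] at this
  have key : ∀ i, fld (sp L'.c4 (k * L.c4) (sp L.c3 (k * L.c3) id L'.n3) L'.n4 X) i = 0 ∨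
      ∃ f2 f3 f4, k * f2 < L.n2 ∧ k * f3 < L.n3 ∧ k * f4 < L.n4 ∧
        i = L.idx (k * f2) (k * f3) (k * f4) := by
    intro i
    rcases Spread_cases (n4' := L'.n4) hk g1 g2 X i with h0 | ⟨t, j3, j4, ht, hj3, hj4, hi, he⟩
    · exact Or.inl h0
    by_cases hin : L'.inb (t + L.c3 * j3 + L'.c4 * j4)
    · obtain ⟨f2, f3, f4, hf2, hf3, hf4, hf⟩ := hin
      rw [Lay.idx, h2', h3] at hf
      have a1 : k * f2 < L.n2 := hn2 ▸ Nat.mul_lt_mul_of_pos_left hf2 (by omega)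
      have a2 : k * f2 < L.c3 := by omega
      obtain ⟨b1, b2⟩ := Spread_radix (Spread_lt ht hj3 g2) (Spread_lt a2 hf3 g2) hf
      obtain ⟨b3, b4⟩ := Spread_radix ht a2 b1
      subst b2 b3 b4
      refine Or.inr ⟨f2, j3, j4, a1, (Spread_ceil hk).1 (hn3 ▸ hj3), (Spread_ceil hk).1 (hn4 ▸ hj4), ?_⟩
      rw [hi, Lay.idx, h2]; ring
    · left; rw [he]; exact hX.out _ hin
  refine ⟨fun i => ?_, fun i hi => ?_, fun e2 e3 e4 he2 he3 he4 => ?_⟩
  · rcases Spread_cases (n4' := L'.n4) hk g1 g2 X i with h0 | ⟨t, j3, j4, -, -, -, -, he⟩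
    · rw [h0]; exact Nat.zero_le _
    · rw [he]; exact hX.bd _
  · rcases key i with h0 | ⟨f2, f3, f4, a2, a3, a4, hi'⟩
    · exact h0
    · exact absurd ⟨_, _, _, a2, a3, a4, hi'⟩ hi
  · rw [sl, deh_expand _ _ _ _ _ _ _ _ hk]
    by_cases hd : k ∣ e2 ∧ k ∣ e3 ∧ k ∣ e4
    · obtain ⟨⟨f2, rfl⟩, ⟨f3, rfl⟩, ⟨f4, rfl⟩⟩ := hd
      have hk0 : 0 < k := hk
      rw [if_pos ⟨Nat.dvd_mul_right _ _, Nat.dvd_mul_right _ _, Nat.dvd_mul_right _ _,
        Nat.dvd_of_mod_eq_zero hka, Nat.dvd_zero _⟩, Nat.mul_div_cancel_left _ hk0,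
        Nat.mul_div_cancel_left _ hk0, Nat.mul_div_cancel_left _ hk0, Nat.zero_div]
      have a2 : f2 < L'.n2 := Nat.lt_of_mul_lt_mul_left (hn2 ▸ he2 : k * f2 < k * L'.n2)
      have a3 : f3 < L'.n3 := hn3 ▸ (Spread_ceil hk).2 he3
      have a4 : f4 < L'.n4 := hn4 ▸ (Spread_ceil hk).2 he4
      have b1 : k * f2 < L.c3 := by omega
      have b2 : k * f2 < k * L.c3 := lt_of_lt_of_le b1 (Nat.le_mul_of_pos_left _ hk)
      have b3 : k * f2 + k * L.c3 * f3 < k * L.c4 :=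
        Spread_lt b2 a3 (by rw [Nat.mul_assoc]; exact Nat.mul_le_mul_left k g1)
      have e1 : L.idx (k * f2) (k * f3) (k * f4) = k * f2 + k * L.c3 * f3 + k * L.c4 * f4 := by
        rw [Lay.idx, h2]; ring
      rw [e1, Spread_formula hk g1 g2 X _ _ _ b2 b3, if_pos ⟨a4, a3, b1⟩]
      have := hX.val f2 f3 f4 a2 a3 a4
      rw [Lay.idx, h2', h3] at this
      exact this
    · rw [if_neg (fun hh => hd ⟨hh.1, hh.2.1, hh.2.2.1⟩)]
      rcases key (L.idx e2 e3 e4) with h0 | ⟨f2, f3, f4, a2, a3, _, hi'⟩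
      · rw [h0]; rfl
      · obtain ⟨rfl, rfl, rfl⟩ := Spread_idx_inj hL he2 he3 a2 a3 hi'
        exact absurd ⟨Nat.dvd_mul_right _ _, Nat.dvd_mul_right _ _, Nat.dvd_mul_right _ _⟩ hd

end Crest.Agent.R187.Alg
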