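import Crest.Agent.R187.Plain
import Crest.Agent.R187.Spread
import Crest.Agent.R187.Cham
import Crest.Agent.R187.Twist
import Crest.Agent.R187.Final

set_option autoImplicit false
open MvPolynomial

namespace Crest.Agent.R187.Alg
open Crest.Agent.R187

variable {b : ℕ}

namespace PipeAux

theorem layF_ok (b D : ℕ) : (layF b D).Ok := ⟨le_rfl, le_rfl, le_rfl⟩

theorem layC_ok (b k : ℕ) (hk : 1 ≤ k) : (layC b k).Ok :=
  ⟨hk, Nat.mul_div_le 78 k, le_rfl⟩

theorem RepG_cast {L : Lay} {m5 m6 D D' : ℕ} {G : List (List ℕ)} {P P' : MvPolynomial (Fin 6) ℤ}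
    (h : RepG L m5 m6 G D P) (hD : D = D') (hP : P = P') : RepG L m5 m6 G D' P' := by
  subst hD hP; exact h

theorem oneF (b D m5 : ℕ) : RepG (layF b D) m5 0 one2 0 1 :=
  one2_spec (layF_ok b D) (by simp [layF]) (by simp [layF]) (by simp [layF])

theorem oneC (b k m5 : ℕ) (hk : 1 ≤ k) (hk' : k ≤ 78) : RepG (layC b k) m5 0 one2 0 1 := by
  refine one2_spec (layC_ok b k hk) ?_ ?_ ?_
  · exact Nat.div_pos hk' hk
  · exact Nat.div_pos (by omega) hk
  · exact Nat.div_pos (by omega) hk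

theorem delF (b D m5 : ℕ) : RepG (layF b D) m5 0 (delTab (layF b D) m5 0) 15 (Del 6) :=
  delTab_spec (layF_ok b D) (by simp [layF]) (by simp [layF]) (by simp [layF])

/-- `c * h_b(x^i)` -/
theorem cmul {L : Lay} {m5 : ℕ} (hL : L.Ok) (h1 : RepG L m5 0 one2 0 1) (hb : b ≤ 24) (c i : ℕ)
    (hc : c ≤ 200) (hi : 1 ≤ i) :
    RepG L m5 0 (lin (full L) c m5 [] (mulT L (full L) (msk L i) b m5 one2)) (i * b)
      ((c : MvPolynomial (Fin 6) ℤ) * hp 6 b i) :=
  RepG_cast (lin_spec hL nil_spec (mulT_spec hL h1 i b hi (by omega)) c hc) (by ring) (by ring)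

theorem pp_spec {L : Lay} {m5 : ℕ} (hL : L.Ok) (h1 : RepG L m5 0 one2 0 1) (hb : b ≤ 24)
    (c i j : ℕ) (hc : c ≤ 200) (hi : 1 ≤ i) (hj : 1 ≤ j) :
    RepG L m5 0 (pp L (full L) (msk L i) (msk L j) c b m5) ((i + j) * b)
      ((c : MvPolynomial (Fin 6) ℤ) * (hp 6 b i * hp 6 b j)) :=
  RepG_cast (mulT_spec hL (cmul hL h1 hb c j hc hj) i b hi (by omega)) (by ring) (by ring)

theorem wAux_spec {m5 : ℕ} {G2 G3 : List (List ℕ)} {P2 P3 : MvPolynomial (Fin 6) ℤ}
    (h2 : RepG (layC b 2) (m5 / 2) 0 G2 (3 * b) P2) (h3 : RepG (layC b 3) (m5 / 3) 0 G3 (2 * b) P3) :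
    RepG (layF b (15 + 6 * b)) m5 0
      (wAux (layF b (15 + 6 * b)) (full (layF b (15 + 6 * b))) (cst (layF b (15 + 6 * b)))
        (msk (layF b (15 + 6 * b)) 1) b m5 G2 G3) (15 + 6 * b)
      (Del 6 * (expand 2 P2 + expand 3 P3)) := by
  have hL := layF_ok b (15 + 6 * b)
  have g2 := spread_spec (k := 2) (layC_ok b 2 (by norm_num)) hL (by norm_num) rfl rfl rfl rfl rfl rfl h2
  have g3 := spread_spec (k := 3) (layC_ok b 3 (by norm_num)) hL (by norm_num) rfl rfl rfl rfl rfl rfl h3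
  exact RepG_cast (delAll_spec hL (lin_spec hL g2 (RepG_cast g3 (by ring) rfl) 1 (by norm_num)))
    (by ring) (by push_cast; ring)

theorem chm_empty {D m5 : ℕ} (hm : (D - 10) / 5 ≤ m5) (q : ℕ → ℕ → ℕ → ℕ → ℤ) (e2 e3 e4 σ : ℕ)
    (hσ : m5 < σ) : chm D q e2 e3 e4 σ = 0 := by
  rw [chm, if_neg (by omega)]

/-- vanishing of the `y`-tables on five rows -/
theorem chm_y {F : MvPolynomial (Fin 6) ℤ}
    (hF : ∀ l : Fin 6 →₀ ℕ, Antitone l → 0 < l 4 → mult F l = 0) (e2 e3 e4 σ : ℕ) (hσ : 1 < σ) :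
    chm (15 + 4 * b) (qOf (15 + 4 * b) F) e2 e3 e4 σ = 0 := by
  rw [chm]
  split_ifs with hc
  swap
  · rfl
  have hl : Antitone (mk6 (15 + 4 * b - (e2 + e3 + e4 + σ) - 5) (e2 - 4) (e3 - 3) (e4 - 2)
      (σ - 1) 0) := by
    refine Fin.antitone_iff_succ_le.2 fun i => ?_
    fin_cases i
    · change e2 - 4 ≤ 15 + 4 * b - (e2 + e3 + e4 + σ) - 5; omega
    · change e3 - 3 ≤ e2 - 4; omega
    · change e4 - 2 ≤ e3 - 3; omega
    · change σ - 1 ≤ e4 - 2; omega
    · exact Nat.zero_le _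
  have h := hF _ hl (by change 0 < σ - 1; omega)
  rw [mult, PieriDPAux.mk6_add_rho] at h
  rw [qOf, deh, if_pos (by omega), ← h]
  congr 2 <;> omega

theorem mult_natCast_mul {n : ℕ} (c : ℕ) (F : MvPolynomial (Fin n) ℤ) (l : Fin n →₀ ℕ) :
    mult ((c : MvPolynomial (Fin n) ℤ) * F) l = c * mult F l := by
  rw [← nsmul_eq_mul, ← natCast_zsmul, Final_mult_smul]

theorem PYE_eq (b : ℕ) : PYE b = ([1, 1, 1, 1].map (hp 6 b)).prod +
    (40 : ℤ) • ([1, 3].map (hp 6 b)).prod + (45 : ℤ) • ([2, 2].map (hp 6 b)).prod := by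
  simp only [PYE, List.map_cons, List.map_nil, List.prod_cons, List.prod_nil, zsmul_eq_mul]
  push_cast
  ring

theorem PYO_eq (b : ℕ) : PYO b = (15 : ℤ) • ([1, 1, 2].map (hp 6 b)).prod +
    (90 : ℤ) • ([4].map (hp 6 b)).prod := by
  simp only [PYO, List.map_cons, List.map_nil, List.prod_cons, List.prod_nil, zsmul_eq_mul]
  push_cast
  ring

theorem PAE_eq (b : ℕ) : PAE b = ([1, 1, 1, 1, 1, 1].map (hp 6 b)).prod +
    (40 : ℤ) • ([1, 1, 1, 3].map (hp 6 b)).prod + (45 : ℤ) • ([1, 1, 2, 2].map (hp 6 b)).prod +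
    (144 : ℤ) • ([1, 5].map (hp 6 b)).prod + (90 : ℤ) • ([2, 4].map (hp 6 b)).prod +
    (40 : ℤ) • ([3, 3].map (hp 6 b)).prod := by
  simp only [PAE, PXE, PYE, PZE, PWE, List.map_cons, List.map_nil, List.prod_cons, List.prod_nil,
    zsmul_eq_mul]
  push_cast
  ring

theorem PAO_eq (b : ℕ) : PAO b = (15 : ℤ) • ([1, 1, 1, 1, 2].map (hp 6 b)).prod +
    (90 : ℤ) • ([1, 1, 4].map (hp 6 b)).prod + (120 : ℤ) • ([1, 2, 3].map (hp 6 b)).prod +
    (15 : ℤ) • ([2, 2, 2].map (hp 6 b)).prod + (120 : ℤ) • ([6].map (hp 6 b)).prod := by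
  simp only [PAO, PXO, PYO, PZO, PWO, List.map_cons, List.map_nil, List.prod_cons, List.prod_nil,
    zsmul_eq_mul]
  push_cast
  ring

theorem prod_symm (b : ℕ) (ks : List ℕ) : (ks.map (hp 6 b)).prod.IsSymmetric := by
  induction ks with
  | nil => exact IsSymmetric.one
  | cons k ks ih => exact (hp_isSymmetric 6 b k).mul ih

theorem PYE_symm (b : ℕ) : (PYE b).IsSymmetric := by
  rw [PYE_eq]
  exact ((prod_symm b _).add ((prod_symm b _).smul _)).add ((prod_symm b _).smul _)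

theorem PYO_symm (b : ℕ) : (PYO b).IsSymmetric := by
  rw [PYO_eq]
  exact ((prod_symm b _).smul _).add ((prod_symm b _).smul _)

theorem PXE_symm (b : ℕ) : (PXE b).IsSymmetric := by
  refine ((hp_isSymmetric 6 b 1).mul (PYE_symm b)).add ?_
  have := (hp_isSymmetric 6 b 5).smul (144 : ℤ)
  rwa [zsmul_eq_mul] at this

theorem PXO_symm (b : ℕ) : (PXO b).IsSymmetric := by
  refine ((hp_isSymmetric 6 b 1).mul (PYO_symm b)).add ?_
  have := ((hp_isSymmetric 6 b 2).mul (hp_isSymmetric 6 b 3)).smul (120 : ℤ)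
  rwa [zsmul_eq_mul] at this

end PipeAux

open PipeAux

theorem chB_spec (hb : b ≤ 24) (s : ℕ) (hs : s ≤ 15 + 6 * b - 4) :
    IsCh 78 (2 * b + 4) s (nth (chB b) s) :=
  chs_spec 78 (2 * b + 4) (6 * b + 12) s (by omega) (by omega) (by omega)

theorem PipeAux.chT_spec (hb : b ≤ 24) {D m5 : ℕ} (hD : D ≤ 15 + 6 * b) {G : List (List ℕ)}
    {F : MvPolynomial (Fin 6) ℤ} (h : RepG (layF b D) m5 0 G D (Del 6 * F))
    (hz : ∀ e2 e3 e4 σ, m5 < σ → chm D (qOf D F) e2 e3 e4 σ = 0) :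
    RepC 78 (2 * b + 4) D (chT b D m5 G) (qOf D F) :=
  toCh_spec (L := layF b D) rfl rfl rfl rfl rfl (Nat.lt_succ_self _) (by omega) (by omega)
    (fun s hs => chB_spec hb s (by omega)) h hz

theorem yEc_spec (hb : b ≤ 24) : RepC 78 (2 * b + 4) (15 + 4 * b) (yEc b) (qOf (15 + 4 * b) (PYE b)) := by
  have hL := layF_ok b (15 + 4 * b)
  have hd : b ≤ 100 := by omega
  have h0 := delF b (15 + 4 * b) 1
  refine chT_spec hb (by omega) ?_ (chm_y fun l hl h4 => ?_)
  · have h1 := mulT_spec hL (mulT_spec hL (mulT_spec hL h0 1 b le_rfl hd) 1 b le_rfl hd) 1 b le_rfl hd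
    have h3 := mulT_spec hL h0 3 b (by norm_num) hd
    have h4 := mulT_spec hL (lin_spec hL h1 (RepG_cast h3 (by ring) rfl) 40 (by norm_num)) 1 b le_rfl hd
    have h2 := mulT_spec hL (mulT_spec hL h0 2 b (by norm_num) hd) 2 b (by norm_num) hd
    exact RepG_cast (lin_spec hL h4 (RepG_cast h2 (by ring) rfl) 45 (by norm_num)) (by ring)
      (by rw [PYE]; push_cast; ring)
  · rw [PYE_eq]
    simp only [Final_mult_add, Final_mult_smul]
    rw [mult_eq_zero_of_rows 6 b _ (by decide) l hl 4 (by decide) h4,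
      mult_eq_zero_of_rows 6 b _ (by decide) l hl 4 (by decide) h4,
      mult_eq_zero_of_rows 6 b _ (by decide) l hl 4 (by decide) h4]
    norm_num

theorem yOc_spec (hb : b ≤ 24) : RepC 78 (2 * b + 4) (15 + 4 * b) (yOc b) (qOf (15 + 4 * b) (PYO b)) := by
  have hL := layF_ok b (15 + 4 * b)
  have hd : b ≤ 100 := by omega
  have h0 := delF b (15 + 4 * b) 1
  refine chT_spec hb (by omega) ?_ (chm_y fun l hl h4 => ?_)
  · have h1 := mulT_spec hL (mulT_spec hL (mulT_spec hL h0 2 b (by norm_num) hd) 1 b le_rfl hd) 1 b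
      le_rfl hd
    have h4 := mulT_spec hL h0 4 b (by norm_num) hd
    exact RepG_cast (lin_spec hL (lin_spec hL nil_spec h1 15 (by norm_num))
      (RepG_cast h4 (by ring) rfl) 90 (by norm_num)) (by ring) (by rw [PYO]; push_cast; ring)
  · rw [PYO_eq]
    simp only [Final_mult_add, Final_mult_smul]
    rw [mult_eq_zero_of_rows 6 b _ (by decide) l hl 4 (by decide) h4,
      mult_eq_zero_of_rows 6 b _ (by decide) l hl 4 (by decide) h4]
    norm_num

theorem zEc_spec (hb : b ≤ 24) : RepC 78 (2 * b + 4) (15 + 5 * b) (zEc b) (qOf (15 + 5 * b) (PZE b)) := by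
  have hL := layF_ok b (15 + 5 * b)
  refine chT_spec hb (by omega) ?_ (chm_empty le_rfl _)
  exact RepG_cast (delAll_spec hL (cmul hL (oneF _ _ _) hb 144 5 (by norm_num) (by norm_num)))
    (by ring) (by rw [PZE]; push_cast; ring)

theorem zOc_spec (hb : b ≤ 24) : RepC 78 (2 * b + 4) (15 + 5 * b) (zOc b) (qOf (15 + 5 * b) (PZO b)) := by
  have hL := layF_ok b (15 + 5 * b)
  refine chT_spec hb (by omega) ?_ (chm_empty le_rfl _)
  exact RepG_cast (del5_spec hL (mulS_spec hL (del6_spec hL (delIn_spec hL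
    (cmul hL (oneF _ _ _) hb 120 3 (by norm_num) (by norm_num)))) 2 b (by norm_num) (by omega)))
    (by ring) (by rw [PZO, Del_eq_D]; push_cast; ring)

theorem wEc_spec (hb : b ≤ 24) : RepC 78 (2 * b + 4) (15 + 6 * b) (wEc b) (qOf (15 + 6 * b) (PWE b)) := by
  refine chT_spec hb (by omega) ?_ (chm_empty le_rfl _)
  refine RepG_cast (wAux_spec
    (pp_spec (layC_ok b 2 (by norm_num)) (oneC _ _ _ (by norm_num) (by norm_num)) hb 90 1 2
      (by norm_num) le_rfl (by norm_num))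
    (pp_spec (layC_ok b 3 (by norm_num)) (oneC _ _ _ (by norm_num) (by norm_num)) hb 40 1 1
      (by norm_num) le_rfl le_rfl)) rfl ?_
  simp only [map_mul, map_natCast, expand_hp, PWE]
  push_cast
  ring

theorem wOc_spec (hb : b ≤ 24) : RepC 78 (2 * b + 4) (15 + 6 * b) (wOc b) (qOf (15 + 6 * b) (PWO b)) := by
  refine chT_spec hb (by omega) ?_ (chm_empty le_rfl _)
  refine RepG_cast (wAux_spec
    (RepG_cast (mulT_spec (layC_ok b 2 (by norm_num))
      (pp_spec (layC_ok b 2 (by norm_num)) (oneC _ _ _ (by norm_num) (by norm_num)) hb 15 1 1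
        (by norm_num) le_rfl le_rfl) 1 b le_rfl (by omega)) (by ring) rfl)
    (cmul (layC_ok b 3 (by norm_num)) (oneC _ _ _ (by norm_num) (by norm_num)) hb 120 2
      (by norm_num) (by norm_num))) rfl ?_
  simp only [map_mul, map_natCast, expand_hp, PWO]
  push_cast
  ring

theorem PipeAux.RepC_cast {c3 n3 D D' : ℕ} {X : List ℕ} {F : MvPolynomial (Fin 6) ℤ}
    (h : RepC c3 n3 D X (qOf D F)) (hD : D = D') : RepC c3 n3 D' X (qOf D' F) := by
  subst hD; exact h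

theorem PipeAux.RepS_cast {c3 n3 D D' X σ : ℕ} {F : MvPolynomial (Fin 6) ℤ}
    (h : RepS c3 n3 D X σ (qOf D F)) (hD : D = D') : RepS c3 n3 D' X σ (qOf D' F) := by
  subst hD; exact h

theorem x1E_spec (hb : b ≤ 24) {Y Z : List ℕ}
    (hY : RepC 78 (2 * b + 4) (15 + 4 * b) Y (qOf (15 + 4 * b) (PYE b)))
    (hZ : RepC 78 (2 * b + 4) (15 + 5 * b) Z (qOf (15 + 5 * b) (PZE b))) :
    RepC 78 (2 * b + 4) (15 + 5 * b) (x1 b Y Z) (qOf (15 + 5 * b) (PXE b)) :=
  RepC_cast (pieri_spec (PYE_symm b) (by omega) (by omega) (by omega) (by omega) (by omega) (by omega)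
    (fun s hs => chB_spec hb s (by omega)) hY (RepC_cast hZ (by ring))) (by ring)

theorem x1O_spec (hb : b ≤ 24) {Y Z : List ℕ}
    (hY : RepC 78 (2 * b + 4) (15 + 4 * b) Y (qOf (15 + 4 * b) (PYO b)))
    (hZ : RepC 78 (2 * b + 4) (15 + 5 * b) Z (qOf (15 + 5 * b) (PZO b))) :
    RepC 78 (2 * b + 4) (15 + 5 * b) (x1 b Y Z) (qOf (15 + 5 * b) (PXO b)) :=
  RepC_cast (pieri_spec (PYO_symm b) (by omega) (by omega) (by omega) (by omega) (by omega) (by omega)
    (fun s hs => chB_spec hb s (by omega)) hY (RepC_cast hZ (by ring))) (by ring)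

theorem x2E_spec (hb : b ≤ 24) {X W : List ℕ}
    (hX : RepC 78 (2 * b + 4) (15 + 5 * b) X (qOf (15 + 5 * b) (PXE b)))
    (hW : RepC 78 (2 * b + 4) (15 + 6 * b) W (qOf (15 + 6 * b) (PWE b))) (σ : ℕ) :
    RepS 78 (2 * b + 4) (15 + 6 * b) (x2 b (chB b) X W σ) σ (qOf (15 + 6 * b) (PAE b)) :=
  RepS_cast (pieriS_spec (PXE_symm b) (by omega) (by omega) (by omega) (by omega) (by omega)
    (fun s hs => chB_spec hb s (by omega)) hX (RepS_cast (hW σ) (by ring))) (by ring)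

theorem x2O_spec (hb : b ≤ 24) {X W : List ℕ}
    (hX : RepC 78 (2 * b + 4) (15 + 5 * b) X (qOf (15 + 5 * b) (PXO b)))
    (hW : RepC 78 (2 * b + 4) (15 + 6 * b) W (qOf (15 + 6 * b) (PWO b))) (σ : ℕ) :
    RepS 78 (2 * b + 4) (15 + 6 * b) (x2 b (chB b) X W σ) σ (qOf (15 + 6 * b) (PAO b)) :=
  RepS_cast (pieriS_spec (PXO_symm b) (by omega) (by omega) (by omega) (by omega) (by omega)
    (fun s hs => chB_spec hb s (by omega)) hX (RepS_cast (hW σ) (by ring))) (by ring)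

/-- cycle index and twisting by the determinant -/
theorem mult_twist_pow (b s : ℕ) (l : Fin 6 →₀ ℕ) :
    720 * mult (HH 6 6 (b + s)) (l + s • ones 6) = mult (PAE b) l + (-1) ^ s * mult (PAO b) l := by
  rw [Final_cyc, PAE_eq, PAO_eq]
  simp only [Final_mult_add, Final_mult_smul]
  rw [Final_twist b s _ (by decide) rfl, Final_twist b s _ (by decide) rfl,
    Final_twist b s _ (by decide) rfl, Final_twist b s _ (by decide) rfl,
    Final_twist b s _ (by decide) rfl, Final_twist b s _ (by decide) rfl,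
    Final_twist b s _ (by decide) rfl, Final_twist b s _ (by decide) rfl,
    Final_twist b s _ (by decide) rfl, Final_twist b s _ (by decide) rfl,
    Final_twist b s _ (by decide) rfl]
  norm_num
  ring

end Crest.Agent.R187.Alg
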