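import Crest.Agent.R187.Cmp1
import Crest.Agent.R187.Pipe

set_option autoImplicit false
open MvPolynomial

namespace Crest.Agent.R187.Alg
open Crest.Agent.R187 PieriDPAux


attribute [local irreducible] fld rep

theorem Cmp2_one (n i : ℕ) : fld (rep (rep 1 1 78) 78 n) i = if i < 78 * n then 1 else 0 := by
  have h0 : ∀ i, fld 1 i = if i = 0 then 1 else 0 := fld_small (by norm_num)
  have h1 : ∀ j, fld (rep 1 1 78) j = if j < 78 then 1 else 0 := fun j => by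
    simpa [h0] using fld_rep (x := 1) (s := 1) (fun i hi => by rw [h0, if_neg (by omega)]) 78 j 0
      one_pos
  have h2 := fld_rep (x := rep 1 1 78) (s := 78) (fun i hi => by rw [h1, if_neg (by omega)]) n
    (i / 78) (i % 78) (by omega)
  rw [Nat.mod_add_div, h1, if_pos (show i % 78 < 78 by omega)] at h2
  rw [h2]
  exact if_congr (by omega) rfl rfl

theorem Cmp2_mul {c : ℕ} (hc : c < 2 ^ 57) (n i : ℕ) :
    fld (rep (rep 1 1 78) 78 n * c) i = if i < 78 * n then c else 0 := by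
  rw [mul_comm, fld_mul fun i => by rw [Cmp2_one]; split_ifs <;> omega, Cmp2_one]
  split_ifs <;> simp

theorem Cmp2_shl {k : ℕ} (hk : k < 57) (n i : ℕ) :
    fld (rep (rep 1 1 78) 78 n <<< k) i = if i < 78 * n then 2 ^ k else 0 := by
  rw [Nat.shiftLeft_eq, Cmp2_mul (Nat.pow_lt_pow_right one_lt_two hk)]

theorem Cmp2_bit {G A nr i : ℕ} (hG : ∀ i, fld G i < 2 ^ 56) (hA : ∀ i, fld A i ≤ 2 ^ 49 - 1)
    (hA' : ∀ i, 78 * nr ≤ i → fld A i = 0) {H : ℕ} (hH : ∀ i, fld H i = if i < 78 * nr then 2 ^ 56 else 0)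
    (h : (fld ((G + H - A) &&& H) i).testBit 56 = true) : fld A i ≤ fld G i := by
  have h1 := fld_add (X := G) (Y := H) fun i => by
    have := hG i
    rw [hH]
    split_ifs <;> omega
  have h2 := fld_sub (X := G + H) (Y := A) (fun i => by
    have := hA i
    have := hA' i
    rw [h1, hH]
    split_ifs <;> omega) i
  rw [fld_and, Nat.testBit_and, Bool.and_eq_true, h2, h1, hH] at h
  have := Nat.ge_two_pow_of_testBit h.1
  split_ifs at this <;> omega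

theorem Cmp2_anti {l : Fin 6 →₀ ℕ} : Antitone l ↔
    l 1 ≤ l 0 ∧ l 2 ≤ l 1 ∧ l 3 ≤ l 2 ∧ l 4 ≤ l 3 ∧ l 5 ≤ l 4 := by
  rw [Fin.antitone_iff_succ_le]
  simp only [Fin.forall_fin_succ, IsEmpty.forall_iff, and_true]
  rfl

/-- a checked plane: every field of `A` under the mask is at most `720 f(l)` -/
theorem chkPlane_spec {T : Tr} {N : Nu} (hT : TrOk T) (hN : NuOk N) {nr A B : ℕ} {cs : List ℕ}
    {l : Fin 6 →₀ ℕ} (hA : ∀ i, fld A i ≤ 2 ^ 49 - 1) (hA' : ∀ i, 78 * nr ≤ i → fld A i = 0)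
    (hl : Antitone l) (hs : ∑ i, l i = 6 * B) (h2 : l 1 - l 3 + 2 < 78) (h3 : l 2 - l 3 + 1 < nr)
    (h : chkPlane T N (rep (rep 1 1 78) 78 nr <<< 56) A B (l 3) (l 4) (l 5) cs = true) :
    (fld A ((l 1 - l 3 + 2) + 78 * (l 2 - l 3 + 1)) : ℤ) ≤ 720 * mult (HH 6 B 6) l := by
  have hH := Cmp2_shl (k := 56) (by norm_num) nr
  generalize rep (rep 1 1 78) 78 nr <<< 56 = H at h hH
  set i := (l 1 - l 3 + 2) + 78 * (l 2 - l 3 + 1) with hi
  have h0 : (0 : ℤ) ≤ 720 * mult (HH 6 B 6) l := mul_nonneg (by norm_num) (mult_HH_nonneg _ _ _ _ hl)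
  have step : ∀ (f : Leaf) (ν : NLeaf) (acc : ℕ), LeafOk f → NLeafOk ν →
      ((fld acc i).testBit 56 = true → (fld A i : ℤ) ≤ 720 * mult (HH 6 B 6) l) →
      (fld (cert1 f ν H A B (l 3) (l 4) (l 5) acc) i).testBit 56 = true →
        (fld A i : ℤ) ≤ 720 * mult (HH 6 B 6) l := by
    rintro f ν acc hf ⟨m, hm, hms, hm0, e1, e2, e3, e4, e5⟩ ih h
    rw [cert1, Bool.cond_eq_ite] at h
    split_ifs at h with hc
    swap
    · exact ih h
    rw [fld_or, Nat.testBit_or, Bool.or_eq_true] at h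
    refine h.elim ih fun h => ?_
    have h4 := Cmp2_bit (fun i => by
      rw [fld_shl]
      split_ifs
      exacts [hf.bd _, by norm_num]) hA hA' hH h
    rw [fld_shl] at h4
    refine (Nat.cast_le.2 h4).trans ?_
    split_ifs with hk
    swap
    · exact h0
    refine (Nat.eq_zero_or_pos (fld f.g (i - (ν.d2 + 78 * ν.d3)))).elim
      (fun e => by rw [e]; exact h0) fun hp => ?_
    rw [← Nat.mod_add_div (i - (ν.d2 + 78 * ν.d3)) 78] at hp ⊢
    obtain ⟨v1, v2, v3, v4, v5, v6⟩ := hf.val _ _ (Nat.mod_lt _ (by norm_num)) hp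
    simp only [Bool.and_eq_true, Nat.beq_eq, Nat.blt_eq] at hc
    obtain ⟨⟨⟨⟨c1, c2⟩, c3⟩, c4⟩, c5⟩ := hc
    obtain ⟨l1, l2, l3, l4, l5⟩ := Cmp2_anti.1 hl
    rw [Fin.sum_univ_six] at hs hms
    refine v6.trans (mul_le_mul_of_nonneg_left ((mult_semigroup 6 6 _ _ _ m (Cmp2_anti.2 ?_) hm
      hm0).trans_eq ?_) (by norm_num))
    · simp only [muOf, mk6_0, mk6_1, mk6_2, mk6_3, mk6_4, mk6_5]
      omega
    · rw [c1]
      congr 1
      apply ext6 <;>
        simp only [Finsupp.add_apply, muOf, mk6_0, mk6_1, mk6_2, mk6_3, mk6_4, mk6_5] <;> omega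
  have key : ∀ (cs : List ℕ) (acc : ℕ),
      ((fld acc i).testBit 56 = true → (fld A i : ℤ) ≤ 720 * mult (HH 6 B 6) l) →
      (fld (certs T N H A B (l 3) (l 4) (l 5) cs acc) i).testBit 56 = true →
        (fld A i : ℤ) ≤ 720 * mult (HH 6 B 6) l := fun cs => by
    induction cs with
    | nil => exact fun acc h => h
    | cons x xs ih => exact fun acc h => ih _ (step _ _ acc (hT _) (hN _) h)
  refine key cs ((H - A) &&& H) (fun h => ?_) ?_
  · have := Cmp2_bit (G := 0) (fun i => by rw [fld_zero]; norm_num) hA hA' hH (by rwa [zero_add])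
    rw [fld_zero, Nat.le_zero] at this
    rwa [this]
  · rw [Nat.eq_of_beq_eq_true h, hH, if_pos (by omega), Nat.testBit_two_pow_self]

theorem Cmp2_Ss {T : Tr} {N : Nu} {H Ap Am b σ r s : ℕ} {ss : List ℕ} (hs : s ∈ ss)
    {css : List (List ℕ)} (h : chkSs T N H Ap Am b σ r ss css = true) :
    ∃ cs, chkPlane T N H (bif Nat.beq (s % 2) 0 then Ap else Am) (b + s) (σ - 1 + s + r)
      (σ - 1 + s) s cs = true := by
  induction ss generalizing css with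
  | nil => cases hs
  | cons x xs ih =>
    rw [chkSs, Bool.and_eq_true] at h
    exact (List.mem_cons.1 hs).elim (fun e => e ▸ ⟨_, h.1⟩) fun hs => ih hs h.2

theorem Cmp2_Rs {T : Tr} {N : Nu} {Hs : List ℕ} {XE XO b σ r : ℕ} {ss rs : List ℕ} (hr : r ∈ rs)
    {d : List (List (List ℕ))} (h : chkRs T N Hs XE XO b σ ss rs d = true) :
    ∃ css, chkR T N Hs XE XO b σ r ((15 + 6 * b - (5 * σ + 4) - 4 * r) / 3) ss css = true := by
  induction rs generalizing d with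
  | nil => cases hr
  | cons x xs ih =>
    rw [chkRs, Bool.and_eq_true] at h
    exact (List.mem_cons.1 hr).elim (fun e => e ▸ ⟨_, h.1⟩) fun hs => ih hs h.2

theorem Cmp2_Sig {T : Tr} {N : Nu} {Hs ch X1E X1O WE WO : List ℕ} {b σ : ℕ} {ss σs : List ℕ}
    (hσ : σ ∈ σs) {d : List (List (List (List ℕ)))}
    (h : chkSig T N Hs ch X1E X1O WE WO b ss σs d = true) :
    ∃ d', chkRs T N Hs (x2 b ch X1E WE σ) (x2 b ch X1O WO σ) b σ ss
      (List.range ((15 + 6 * b - (5 * σ + 4)) / 4)) d' = true := by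
  induction σs generalizing d with
  | nil => cases hσ
  | cons x xs ih =>
    rw [chkSig, Bool.and_eq_true] at h
    exact (List.mem_cons.1 hσ).elim (fun e => e ▸ ⟨_, h.1⟩) fun hs => ih hs h.2

theorem Cmp2_cut {b X nr : ℕ} {F : MvPolynomial (Fin 6) ℤ} {l : Fin 6 →₀ ℕ} (hb : b ≤ 24)
    (hl : Antitone l) (hs : ∑ i, l i = 6 * b) (h5 : l 5 = 0) (hn : l 2 - l 3 + 1 < nr)
    (hX : RepS 78 (2 * b + 4) (15 + 6 * b) X (l 4 + 1) (qOf (15 + 6 * b) F)) {A : ℕ}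
    (hA : A = (X >>> (57 * ((l 3 - l 4) * (1 + 78 + 78 * (2 * b + 4))))) % 2 ^ (57 * (78 * nr))) :
    (∀ i, fld A i ≤ if i < 78 * nr then 2 ^ 49 - 1 else 0) ∧
      (fld A ((l 1 - l 3 + 2) + 78 * (l 2 - l 3 + 1)) : ℤ) ≡ mult F l [ZMOD 2 ^ 49] := by
  obtain ⟨l1, l2, l3, l4, l5⟩ := Cmp2_anti.1 hl
  have hm := mult_eq_deh _ F l hs
  rw [Fin.sum_univ_six] at hs
  simp only [hA, fld_mod, fld_shr]
  refine ⟨fun i => by split_ifs; exacts [hX.bd _, le_rfl], ?_⟩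
  have h := hX.val (l 1 - l 3 + 2 + (l 3 - l 4)) (l 2 - l 3 + 1 + (l 3 - l 4)) (l 3 - l 4)
    (by omega) (by omega)
  rw [chm, if_pos (by omega), qOf] at h
  rw [if_pos (by omega), hm, h5, add_comm (6 * b)]
  convert h using 2
  · congr 1
    ring
  all_goals omega

theorem chkA_spec {T : Tr} {N : Nu} (hT : TrOk T) (hN : NuOk N) {b σ0 n : ℕ} (hb : b ≤ 24)
    {X1E X1O WE WO : List ℕ} {d : List (List (List (List ℕ)))}
    (h1 : RepC 78 (2 * b + 4) (15 + 5 * b) X1E (qOf (15 + 5 * b) (PXE b)))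
    (h2 : RepC 78 (2 * b + 4) (15 + 5 * b) X1O (qOf (15 + 5 * b) (PXO b)))
    (h3 : RepC 78 (2 * b + 4) (15 + 6 * b) WE (qOf (15 + 6 * b) (PWE b)))
    (h4 : RepC 78 (2 * b + 4) (15 + 6 * b) WO (qOf (15 + 6 * b) (PWO b)))
    (h : chkA T N X1E X1O WE WO b σ0 n d = true) : Done b σ0 n := by
  intro B l hB7 hB hl hs h12 hBb hσ0 hσ1
  obtain ⟨l1, l2, l3, l4, l5⟩ := Cmp2_anti.1 hl
  have hs' := hs
  rw [Fin.sum_univ_six] at hs'
  obtain ⟨d1, h⟩ := Cmp2_Sig (σ := l 4 - l 5 + 1) (List.mem_range'_1.2 ⟨hσ0, hσ1⟩) h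
  obtain ⟨d2, h⟩ := Cmp2_Rs (r := l 3 - l 4) (List.mem_range.2 (by omega)) h
  obtain ⟨d3, h⟩ := Cmp2_Ss (s := l 5) (by simp [ssOf]; omega) h
  generalize hnr : (15 + 6 * b - (5 * (l 4 - l 5 + 1) + 4) - 4 * (l 3 - l 4)) / 3 = nr at h
  rw [onesP, nth_tab, if_pos (by omega), ← hBb, show l 4 - l 5 + 1 - 1 + l 5 = l 4 by omega,
    show l 4 + (l 3 - l 4) = l 3 by omega] at h
  have hn : l 2 - l 3 + 1 < nr := by omega
  have h78 : l 1 - l 3 + 2 < 78 := by omega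
  have hi : (l 1 - l 3 + 2) + 78 * (l 2 - l 3 + 1) < 78 * nr := by omega
  set m := mk6 (l 0 - l 5) (l 1 - l 5) (l 2 - l 5) (l 3 - l 5) (l 4 - l 5) 0 with hm
  have hma : Antitone m := Cmp2_anti.2 (by
    simp only [hm, mk6_0, mk6_1, mk6_2, mk6_3, mk6_4, mk6_5]; omega)
  have hms : ∑ i, m i = 6 * b := by
    simp only [Fin.sum_univ_six, hm, mk6_0, mk6_1, mk6_2, mk6_3, mk6_4, mk6_5]; omega
  have e1 : m 1 - m 3 = l 1 - l 3 := by simp only [hm, mk6_1, mk6_3]; omega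
  have e2 : m 2 - m 3 = l 2 - l 3 := by simp only [hm, mk6_2, mk6_3]; omega
  have e3 : m 3 - m 4 = l 3 - l 4 := by simp only [hm, mk6_3, mk6_4]; omega
  obtain ⟨a1, a2⟩ := Cmp2_cut (nr := nr) hb hma hms rfl (e2 ▸ hn) (x2E_spec hb h1 h3 (l 4 - l 5 + 1)) rfl
  obtain ⟨b1, b2⟩ := Cmp2_cut (nr := nr) hb hma hms rfl (e2 ▸ hn) (x2O_spec hb h2 h4 (l 4 - l 5 + 1)) rfl
  have ht := mult_twist_pow b (l 5) m
  rw [← hBb, show m + l 5 • ones 6 = l by
    apply ext6 <;> simp only [Finsupp.add_apply, Finsupp.smul_apply, hm, mk6_0, mk6_1, mk6_2, mk6_3,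
      mk6_4, mk6_5, ones, Finsupp.equivFunOnFinite_symm_apply_apply, smul_eq_mul] <;> omega] at ht
  rw [e1, e2, e3] at a2 b2
  rw [e3] at a1 b1
  generalize (x2 b (chB b) X1E WE (l 4 - l 5 + 1) >>> _) % _ = AE at h a1 a2
  generalize (x2 b (chB b) X1O WO (l 4 - l 5 + 1) >>> _) % _ = AO at h b1 b2
  clear_value m
  clear e1 e2 e3 hnr hs' hσ0 hσ1 h12 l1 l2 l3 l4 l5 hBb
  have hM := Cmp2_mul (c := 2 ^ 49 - 1) (by norm_num) nr
  have hC := Cmp2_shl (k := 49) (by norm_num) nr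
  have fin : ∀ Y, chkPlane T N (rep (rep 1 1 78) 78 nr <<< 56)
      (Y &&& (rep (rep 1 1 78) 78 nr * (2 ^ 49 - 1))) B (l 3) (l 4) (l 5) d3 = true →
      (fld Y ((l 1 - l 3 + 2) + 78 * (l 2 - l 3 + 1)) : ℤ) ≡ 720 * mult (HH 6 6 B) l [ZMOD 2 ^ 49] →
      mult (HH 6 6 B) l ≤ mult (HH 6 B 6) l := fun Y h hY => by
    have h5 := chkPlane_spec hT hN (fun i => by
      rw [fld_and, hM]
      exact Nat.and_le_right.trans (by split_ifs <;> omega))
      (fun i hi => by rw [fld_and, hM, if_neg (by omega), Nat.and_zero]) hl hs h78 hn h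
    have h6 := mult_HH_nonneg 6 6 B l hl
    have h7 := (mult_HH_le B l hl).trans (Nat.cast_le.2 (show _ ≤ (24 + 4).choose 4 *
      (24 + 3).choose 3 * (24 + 2).choose 2 * (24 + 1) by gcongr))
    rw [fld_and, hM, if_pos hi, Nat.and_two_pow_sub_one_eq_mod] at h5
    norm_num [Nat.choose] at h7
    unfold Int.ModEq at hY
    omega
  rcases Nat.even_or_odd (l 5) with he | he
  · rw [Nat.even_iff.1 he] at h
    refine fin _ h ?_
    rw [fld_add fun i => by have := a1 i; have := b1 i; split_ifs at * <;> omega, ht, he.neg_one_pow,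
      one_mul, Nat.cast_add]
    exact a2.add b2
  · rw [Nat.odd_iff.1 he] at h
    refine fin _ h ?_
    have h5 := fld_sub (X := rep (rep 1 1 78) 78 nr <<< 49) (Y := AO) fun i => by
      have := b1 i
      rw [hC]
      split_ifs at * <;> omega
    have h6 := b1 ((l 1 - l 3 + 2) + 78 * (l 2 - l 3 + 1))
    rw [if_pos hi] at h6
    rw [fld_add fun i => by have := a1 i; rw [h5, hC]; split_ifs at * <;> omega, ht, he.neg_one_pow,
      h5, hC, if_pos hi, Nat.cast_add, Nat.cast_sub (by omega)]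
    unfold Int.ModEq at a2 b2 ⊢
    omega

theorem Done.append {b σ0 n n' : ℕ} (h : Done b σ0 n) (h' : Done b (σ0 + n) n') : Done b σ0 (n + n') := fun B l h1 h2 h3 h4 h5 h6 h7 h8 =>
  (lt_or_ge _ (σ0 + n)).elim (h B l h1 h2 h3 h4 h5 h6 h7) fun h9 =>
    h' B l h1 h2 h3 h4 h5 h6 h9 (by omega)

theorem numeric_of_done (h : ∀ b, b ≤ 24 → ∃ n, (15 + 6 * b - 10) / 5 ≤ n ∧ Done b 1 n) : Numeric := by
  intro B l h1 h2 h3 h4 h5
  obtain ⟨n, hn, h⟩ := h (B - l 5) (by omega)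
  obtain ⟨l1, l2, l3, l4, l5⟩ := Cmp2_anti.1 h3
  have hs := h4
  rw [Fin.sum_univ_six] at hs
  exact h B l h1 h2 h3 h4 h5 (by omega) (by omega) (by omega)

end Crest.Agent.R187.Alg
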