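import Crest.Agent.R187.Abs2

set_option autoImplicit false
open MvPolynomial Crest.AlgebraR.FoulkesHowe Module

namespace Crest.Agent.R187

variable {n a a' D D' : ℕ}

namespace ConcAux

section fischer
variable {σ : Type} [Fintype σ]

/-- the Fischer inner product -/
noncomputable def fi (f g : MvPolynomial σ ℂ) : ℂ :=
  ∑' m : σ →₀ ℕ, ((∏ v, (m v).factorial : ℕ) : ℂ) * (star (coeff m f) * coeff m g)

theorem fi_def (f g : MvPolynomial σ ℂ) : fi f g =
    ∑' m : σ →₀ ℕ, ((∏ v, (m v).factorial : ℕ) : ℂ) * (star (coeff m f) * coeff m g) := rfl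

theorem fi_summable (f g : MvPolynomial σ ℂ) : Summable fun m : σ →₀ ℕ =>
    ((∏ v, (m v).factorial : ℕ) : ℂ) * (star (coeff m f) * coeff m g) :=
  summable_of_ne_finset_zero (s := g.support) fun m hm => by
    rw [notMem_support_iff.1 hm, mul_zero, mul_zero]

theorem fi_symm (f g : MvPolynomial σ ℂ) : star (fi g f) = fi f g := by
  rw [fi_def, fi_def, tsum_star]
  refine tsum_congr fun m => ?_
  rw [star_mul', star_natCast, star_mul', star_star, mul_comm (coeff m g)]

theorem fi_add (f f' g : MvPolynomial σ ℂ) : fi (f + f') g = fi f g + fi f' g := by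
  rw [fi_def, fi_def, fi_def, ← (fi_summable f g).tsum_add (fi_summable f' g)]
  refine tsum_congr fun m => ?_
  rw [coeff_add, star_add]
  ring

theorem fi_smul (c : ℂ) (f g : MvPolynomial σ ℂ) : fi (c • f) g = star c * fi f g := by
  rw [fi_def, fi_def, ← tsum_mul_left]
  refine tsum_congr fun m => ?_
  rw [coeff_smul, smul_eq_mul, star_mul']
  ring

theorem fi_sum {ι : Type} (s : Finset ι) (f : ι → MvPolynomial σ ℂ) (g : MvPolynomial σ ℂ) :
    fi (∑ i ∈ s, f i) g = ∑ i ∈ s, fi (f i) g :=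
  map_sum (AddMonoidHom.mk' (fun f => fi f g) fun f f' => fi_add f f' g) f s

theorem fi_self (f : MvPolynomial σ ℂ) : (fi f f).re =
    ∑ m ∈ f.support, ((∏ v, (m v).factorial : ℕ) : ℝ) * Complex.normSq (coeff m f) := by
  rw [fi_def, tsum_eq_sum (s := f.support) fun m hm => by
    rw [notMem_support_iff.1 hm, mul_zero, mul_zero], Complex.re_sum]
  refine Finset.sum_congr rfl fun m _ => ?_
  rw [Complex.star_def, ← Complex.normSq_eq_conj_mul_self, ← Complex.ofReal_natCast,
    ← Complex.ofReal_mul, Complex.ofReal_re]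

theorem fi_nonneg (f : MvPolynomial σ ℂ) : 0 ≤ (fi f f).re := by
  rw [fi_self]
  exact Finset.sum_nonneg fun m _ => mul_nonneg (Nat.cast_nonneg _) (Complex.normSq_nonneg _)

theorem fi_definite {f : MvPolynomial σ ℂ} (h : fi f f = 0) : f = 0 := by
  have h1 := fi_self f
  rw [h, Complex.zero_re, eq_comm, Finset.sum_eq_zero_iff_of_nonneg fun m _ =>
    mul_nonneg (Nat.cast_nonneg _) (Complex.normSq_nonneg _)] at h1
  refine support_eq_empty.1 (Finset.eq_empty_of_forall_notMem fun m hm => ?_)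
  refine mem_support_iff.1 hm (Complex.normSq_eq_zero.1 ((mul_eq_zero.1 (h1 m hm)).resolve_left ?_))
  exact Nat.cast_ne_zero.2 (Finset.prod_ne_zero_iff.2 fun v _ => Nat.factorial_ne_zero _)

theorem fi_X_mul (v : σ) (f g : MvPolynomial σ ℂ) : fi (X v * f) g = fi f (pderiv v g) := by
  classical
  rw [fi_def, fi_def, ← (add_left_injective (Finsupp.single v 1)).tsum_eq]
  · refine tsum_congr fun m => ?_
    have h1 : ∏ u, ((m + Finsupp.single v 1 : σ →₀ ℕ) u).factorial =
        (m v + 1) * ∏ u, (m u).factorial := by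
      rw [← Finset.mul_prod_erase _ _ (Finset.mem_univ v),
        ← Finset.mul_prod_erase _ (fun u => (m u).factorial) (Finset.mem_univ v), ← mul_assoc,
        ← Nat.factorial_succ]
      congr 1
      · simp
      · refine Finset.prod_congr rfl fun u hu => ?_
        rw [Finsupp.add_apply, Finsupp.single_eq_of_ne (Finset.ne_of_mem_erase hu), add_zero]
    rw [h1, coeff_pderiv, add_comm m, coeff_X_mul]
    push_cast
    ring
  · intro m hm
    by_cases h : v ∈ m.support
    · exact ⟨m - Finsupp.single v 1, Finsupp.sub_add_single_one_cancel (Finsupp.mem_support_iff.1 h)⟩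
    · rw [Function.mem_support, coeff_X_mul', if_neg h, star_zero, zero_mul, mul_zero] at hm
      exact absurd rfl hm

omit [Fintype σ] in
theorem coeff_X_mul_pderiv (v : σ) (f : MvPolynomial σ ℂ) (m : σ →₀ ℕ) :
    coeff m (X v * pderiv v f) = m v * coeff m f := by
  classical
  induction f using MvPolynomial.induction_on' with
  | monomial u c =>
    rw [X_mul_pderiv_monomial, coeff_smul, coeff_monomial]
    split_ifs with h
    · rw [h, nsmul_eq_mul]
    · simp
  | add p q hp hq => rw [map_add, mul_add, coeff_add, hp, hq, coeff_add, mul_add]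

/-- a subspace with the Fischer inner product -/
def FV (V : Submodule ℂ (MvPolynomial σ ℂ)) : Type := V

noncomputable instance (V : Submodule ℂ (MvPolynomial σ ℂ)) : AddCommGroup (FV V) :=
  inferInstanceAs (AddCommGroup V)

noncomputable instance (V : Submodule ℂ (MvPolynomial σ ℂ)) : Module ℂ (FV V) :=
  inferInstanceAs (Module ℂ V)

/-- the core of the inner product -/
@[reducible] noncomputable def core (V : Submodule ℂ (MvPolynomial σ ℂ)) :
    InnerProductSpace.Core ℂ (FV V) where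
  inner x y := fi (Subtype.val x) (Subtype.val y)
  conj_inner_symm _ _ := fi_symm _ _
  re_inner_nonneg _ := fi_nonneg _
  add_left _ _ _ := fi_add _ _ _
  smul_left _ _ _ := fi_smul _ _ _
  definite _ h := Subtype.ext (fi_definite h)

theorem exists_space (V : Submodule ℂ (MvPolynomial σ ℂ)) :
    ∃ (W : Type) (_ : NormedAddCommGroup W) (_ : InnerProductSpace ℂ W) (e : W ≃ₗ[ℂ] V),
      ∀ x y, inner ℂ x y = fi (e x).1 (e y).1 :=
  ⟨FV V, @InnerProductSpace.Core.toNormedAddCommGroup ℂ (FV V) _ _ _ (core V),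
    InnerProductSpace.ofCore (core V).toCore, LinearEquiv.refl ℂ V, fun _ _ => rfl⟩

end fischer

theorem EE_apply (i j : Fin n) (f : MvPolynomial (Var a n) ℂ) :
    EE a i j f = ∑ l : Fin a, X (l, i) * pderiv (l, j) f := by
  simp [EE, LinearMap.sum_apply]

theorem EE_adj (i j : Fin n) (f g : MvPolynomial (Var a n) ℂ) :
    fi (EE a i j f) g = fi f (EE a j i g) := by
  rw [← fi_symm f, EE_apply, EE_apply, fi_sum, fi_sum, star_sum]
  refine Finset.sum_congr rfl fun l _ => ?_
  rw [fi_X_mul, fi_X_mul, fi_symm]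

theorem exists_der (a : ℕ) (i j : Fin n) :
    ∃ d : Derivation ℂ (MvPolynomial (Var a n) ℂ) (MvPolynomial (Var a n) ℂ),
      (∀ f, d f = EE a i j f) ∧ ∀ p q, d (X (p, q)) = if q = j then X (p, i) else 0 := by
  have h : ∀ f, (∑ l : Fin a, (X (l, i) : MvPolynomial (Var a n) ℂ) • pderiv (l, j) :
      Derivation ℂ (MvPolynomial (Var a n) ℂ) (MvPolynomial (Var a n) ℂ)) f = EE a i j f := by
    intro f
    have h1 := map_sum (Derivation.coeFnAddMonoidHom (R := ℂ) (A := MvPolynomial (Var a n) ℂ)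
      (M := MvPolynomial (Var a n) ℂ))
      (fun l : Fin a => (X (l, i) : MvPolynomial (Var a n) ℂ) • pderiv (l, j)) Finset.univ
    have h2 := congrFun h1 f
    rw [Finset.sum_apply] at h2
    rw [EE_apply]
    exact h2
  refine ⟨_, h, fun p q => ?_⟩
  rw [h, EE_apply, Finset.sum_eq_single p]
  · split_ifs with h1
    · rw [h1, pderiv_X_self, mul_one]
    · rw [pderiv_X_of_ne (by simpa using h1), mul_zero]
  · intro l _ hl
    rw [pderiv_X_of_ne fun h1 => hl (congrArg Prod.fst h1).symm, mul_zero]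
  · simp

theorem EE_comm (i j k l : Fin n) (f : MvPolynomial (Var a n) ℂ) :
    EE a i j (EE a k l f) - EE a k l (EE a i j f) =
      (if j = k then EE a i l f else 0) - (if l = i then EE a k j f else 0) := by
  choose d hd hX using exists_der (n := n) a
  have h : ⁅d i j, d k l⁆ = (if j = k then d i l else 0) - (if l = i then d k j else 0) := by
    refine derivation_ext fun v => ?_
    obtain ⟨p, q⟩ := v
    rw [Derivation.commutator_apply, Derivation.sub_apply, hX, hX, apply_ite (d i j),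
      apply_ite (d k l), hX, hX, map_zero, map_zero]
    congr 1
    · by_cases h1 : j = k
      · rw [if_pos h1, if_pos h1.symm, hX]
      · rw [if_neg h1, if_neg (Ne.symm h1), ite_self, Derivation.zero_apply]
    · by_cases h1 : l = i
      · rw [if_pos h1, if_pos h1.symm, hX]
      · rw [if_neg h1, if_neg (Ne.symm h1), ite_self, Derivation.zero_apply]
  have h1 := DFunLike.congr_fun h f
  rw [Derivation.commutator_apply, Derivation.sub_apply, hd, hd, hd, hd] at h1
  rw [h1]
  congr 1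
  · split_ifs
    exacts [hd _ _ _, rfl]
  · split_ifs
    exacts [hd _ _ _, rfl]

theorem EE_eigen (i : Fin n) (c : ℂ) (f : MvPolynomial (Var a n) ℂ) :
    EE a i i f = c • f ↔ ∀ m, coeff m f ≠ 0 → c = (∑ l, m (l, i) : ℕ) := by
  have h : ∀ m, coeff m (EE a i i f) = (∑ l, m (l, i) : ℕ) * coeff m f := fun m => by
    rw [EE_apply, coeff_sum, Nat.cast_sum, Finset.sum_mul]
    exact Finset.sum_congr rfl fun l _ => coeff_X_mul_pderiv _ _ _
  rw [MvPolynomial.ext_iff]
  refine forall_congr' fun m => ?_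
  rw [h, coeff_smul, smul_eq_mul, mul_eq_mul_right_iff, or_comm, or_iff_not_imp_left,
    eq_comm (a := c)]

theorem mem_wsp {V : Submodule ℂ (MvPolynomial (Var a n) ℂ)} {μ : Fin n →₀ ℕ}
    {f : MvPolynomial (Var a n) ℂ} :
    f ∈ wsp V μ ↔ f ∈ V ∧ ∀ i, EE a i i f = (μ i : ℂ) • f := by
  refine and_congr_right fun _ => ?_
  have h : ∀ (m : Var a n →₀ ℕ) (i : Fin n), Finsupp.weight
      (fun v : Var a n => (Finsupp.single v.2 1 : Fin n →₀ ℕ)) m i = ∑ l, m (l, i) := by
    intro m i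
    rw [Finsupp.weight_apply, Finsupp.sum_fintype _ _ (by simp),
      Finsupp.finsetSum_apply, Fintype.sum_prod_type]
    refine Finset.sum_congr rfl fun l _ => ?_
    rw [Finset.sum_eq_single i]
    · simp
    · intro j _ hj
      simp [Finsupp.single_eq_of_ne hj.symm]
    · simp
  simp only [EE_eigen, Nat.cast_inj]
  constructor
  · intro h1 i m hm
    rw [← h, h1 hm]
  · intro h1 m hm
    exact Finsupp.ext fun i => by rw [h, h1 i m hm]

theorem finiteDimensional {V : Submodule ℂ (MvPolynomial (Var a n) ℂ)} (hV : Good V D) :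
    FiniteDimensional ℂ V := by
  have : FiniteDimensional ℂ (homogeneousSubmodule (Var a n) ℂ D) :=
    Module.Finite.iff_fg.2 (homogeneousSubmodule_fg _ _ D)
  exact Submodule.finiteDimensional_of_le (S₂ := homogeneousSubmodule (Var a n) ℂ D) hV.homog

theorem exists_rep {V : Submodule ℂ (MvPolynomial (Var a n) ℂ)} (hV : Good V D) :
    ∃ (W : Type) (_ : NormedAddCommGroup W) (_ : InnerProductSpace ℂ W) (_ : FiniteDimensional ℂ W)
      (R : GRep n W) (e : W ≃ₗ[ℂ] V), (∀ i j x, (e (R.E i j x)).1 = EE a i j (e x).1) ∧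
      (∀ μ, finrank ℂ (R.wsp μ) = finrank ℂ (wsp V μ)) ∧
      ∀ μ, finrank ℂ (R.hwv μ) = finrank ℂ (hwv V μ) := by
  obtain ⟨W, _, _, e, he⟩ := exists_space V
  have := finiteDimensional hV
  obtain ⟨E, hE⟩ : ∃ E : Fin n → Fin n → Module.End ℂ W,
      ∀ i j x, (e (E i j x)).1 = EE a i j (e x).1 :=
    ⟨fun i j => e.symm.toLinearMap ∘ₗ (EE a i j).restrict (hV.stab i j) ∘ₗ e.toLinearMap,
      fun i j x => by simp⟩
  have hinj : Function.Injective (V.subtype ∘ₗ e.toLinearMap) := V.injective_subtype.comp e.injective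
  have hext : ∀ x y : W, x = y ↔ (e x).1 = (e y).1 := fun x y => hinj.eq_iff.symm
  let R : GRep n W :=
    { E := E
      comm := fun i j k l => LinearMap.ext fun x => by
        rw [hext, LinearMap.sub_apply, LinearMap.sub_apply, map_sub, map_sub, Submodule.coe_sub,
          Submodule.coe_sub, Module.End.mul_apply, Module.End.mul_apply, hE, hE, hE, hE, EE_comm]
        congr 1
        · split_ifs
          · rw [hE]
          · simp
        · split_ifs
          · rw [hE]
          · simp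
      adj := fun i j x y => by rw [he, he, hE, hE, EE_adj]
      nat := fun i c x hx h => by
        rw [hext, hE, map_smul, Submodule.coe_smul, EE_eigen] at h
        obtain ⟨m, hm⟩ := exists_coeff_ne_zero (p := (e x).1) fun h0 =>
          hx ((hext x 0).2 (by simpa using h0))
        exact ⟨_, h m hm⟩
      D := D
      deg := fun x => by
        rw [hext, map_sum, map_smul, Submodule.coe_smul, Submodule.coe_sum, Nat.cast_smul_eq_nsmul,
          ← (hV.homog _ (e x).2).sum_X_mul_pderiv, Fintype.sum_prod_type_right]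
        exact Finset.sum_congr rfl fun i _ => by rw [hE, EE_apply] }
  have hw : ∀ μ x, x ∈ R.wsp μ ↔ (e x).1 ∈ wsp V μ := fun μ x => by
    rw [mem_wsp, GRep.wsp, Submodule.mem_iInf, and_iff_right (e x).2]
    refine forall_congr' fun i => ?_
    rw [Module.End.mem_eigenspace_iff, hext, map_smul, Submodule.coe_smul, ← hE]
  have hh : ∀ μ x, x ∈ R.hwv μ ↔ (e x).1 ∈ hwv V μ := fun μ x => by
    rw [GRep.hwv, hwv, Submodule.mem_inf, Submodule.mem_inf, hw]
    refine and_congr_right fun _ => ?_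
    simp only [Submodule.mem_iInf, LinearMap.mem_ker]
    refine forall₃_congr fun i j _ => ?_
    rw [hext, map_zero, Submodule.coe_zero, ← hE]
  have key : ∀ (P : Submodule ℂ W) (Q : Submodule ℂ (MvPolynomial (Var a n) ℂ)), Q ≤ V →
      (∀ x, x ∈ P ↔ (e x).1 ∈ Q) → finrank ℂ P = finrank ℂ Q := fun P Q hQ h => by
    have h1 : P.map (V.subtype ∘ₗ e.toLinearMap) = Q := by
      refine le_antisymm ?_ fun f hf => ⟨e.symm ⟨f, hQ hf⟩, (h _).2 (by simpa using hf), by simp⟩
      rintro _ ⟨x, hx, rfl⟩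
      exact (h x).1 hx
    rw [← h1]
    exact (Submodule.equivMapOfInjective _ hinj P).finrank_eq
  exact ⟨W, inferInstance, inferInstance, e.symm.finiteDimensional, R, e, hE,
    fun μ => key _ _ inf_le_left (hw μ), fun μ => key _ _ (inf_le_left.trans inf_le_left) (hh μ)⟩

end ConcAux

open ConcAux

theorem Good.finiteDimensional {V : Submodule ℂ (MvPolynomial (Var a n) ℂ)} (hV : Good V D) :
    FiniteDimensional ℂ V := by
  exact ConcAux.finiteDimensional hV

theorem Good.wcf {V : Submodule ℂ (MvPolynomial (Var a n) ℂ)} (hV : Good V D)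
    (F : MvPolynomial (Fin n) ℤ) (hF : ∀ μ, coeff μ F = (finrank ℂ (wsp V μ) : ℤ))
    (l : Fin n →₀ ℕ) (hl : Antitone l) : mult F l = (finrank ℂ (hwv V l) : ℤ) := by
  obtain ⟨W, _, _, _, R, e, -, h1, h2⟩ := exists_rep hV
  rw [← h2]
  exact R.wcf F (fun μ => by rw [hF, h1]) l hl

theorem Good.hwv_antitone {V : Submodule ℂ (MvPolynomial (Var a n) ℂ)} (hV : Good V D)
    (μ : Fin n →₀ ℕ) (h : hwv V μ ≠ ⊥) : Antitone μ := by
  obtain ⟨W, _, _, _, R, e, -, -, h2⟩ := exists_rep hV
  have := hV.finiteDimensional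
  have : FiniteDimensional ℂ (hwv V μ) :=
    Submodule.finiteDimensional_of_le (S₂ := V) (inf_le_left.trans inf_le_left)
  refine R.hwv_antitone μ fun h0 => h ?_
  rw [← Submodule.finrank_eq_zero, ← h2, h0, finrank_bot]

theorem Good.exists_inj {V : Submodule ℂ (MvPolynomial (Var a n) ℂ)}
    {V' : Submodule ℂ (MvPolynomial (Var a' n) ℂ)} (hV : Good V D) (hV' : Good V' D')
    (h : ∀ μ, finrank ℂ (hwv V μ) ≤ finrank ℂ (hwv V' μ)) :
    ∃ φ : MvPolynomial (Var a n) ℂ →ₗ[ℂ] MvPolynomial (Var a' n) ℂ,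
      (∀ f ∈ V, φ f ∈ V') ∧ Set.InjOn φ V ∧ ∀ i j, ∀ f ∈ V, φ (EE a i j f) = EE a' i j (φ f) := by
  obtain ⟨W, _, _, _, R, e, hE, -, h2⟩ := exists_rep hV
  obtain ⟨W', _, _, _, R', e', hE', -, h2'⟩ := exists_rep hV'
  obtain ⟨φ, hφ, hc⟩ := R.exists_inj R' fun μ => by rw [h2, h2']; exact h μ
  obtain ⟨Φ, hΦ⟩ := (V'.subtype ∘ₗ e'.toLinearMap ∘ₗ φ ∘ₗ e.symm.toLinearMap).exists_extend
  have h3 : ∀ x, Φ (e x).1 = (e' (φ x)).1 := fun x => by
    simpa using LinearMap.congr_fun hΦ (e x)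
  have h4 : ∀ f ∈ V, ∃ x, (e x).1 = f := fun f hf => ⟨e.symm ⟨f, hf⟩, by simp⟩
  refine ⟨Φ, fun f hf => ?_, fun f hf g hg hfg => ?_, fun i j f hf => ?_⟩
  · obtain ⟨x, rfl⟩ := h4 f hf
    rw [h3]
    exact (e' (φ x)).2
  · obtain ⟨x, rfl⟩ := h4 f hf
    obtain ⟨y, rfl⟩ := h4 g hg
    rw [h3, h3] at hfg
    rw [hφ (e'.injective (Subtype.ext hfg))]
  · obtain ⟨x, rfl⟩ := h4 f hf
    rw [← hE, h3, h3, hc, hE']

theorem Good.hwv_le_of_surj {V : Submodule ℂ (MvPolynomial (Var a n) ℂ)}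
    {V' : Submodule ℂ (MvPolynomial (Var a' n) ℂ)} (hV : Good V D) (hV' : Good V' D')
    (ψ : MvPolynomial (Var a' n) ℂ →ₗ[ℂ] MvPolynomial (Var a n) ℂ) (hs : V'.map ψ = V)
    (hc : ∀ i j, ∀ f ∈ V', ψ (EE a' i j f) = EE a i j (ψ f)) (μ : Fin n →₀ ℕ) :
    finrank ℂ (hwv V μ) ≤ finrank ℂ (hwv V' μ) := by
  obtain ⟨W, _, _, _, R, e, hE, -, h2⟩ := exists_rep hV
  obtain ⟨W', _, _, _, R', e', hE', -, h2'⟩ := exists_rep hV'
  have h0 : ∀ f ∈ V', ψ f ∈ V := fun f hf => hs ▸ Submodule.mem_map_of_mem hf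
  obtain ⟨Ψ, hΨ⟩ : ∃ Ψ : W' →ₗ[ℂ] W, ∀ x, (e (Ψ x)).1 = ψ (e' x).1 :=
    ⟨e.symm.toLinearMap ∘ₗ ψ.restrict h0 ∘ₗ e'.toLinearMap, fun x => by simp⟩
  rw [← h2, ← h2']
  refine R.hwv_le_of_surj R' Ψ (fun y => ?_) (fun i j x => ?_) μ
  · obtain ⟨f, hf, hfy⟩ : (e y).1 ∈ V'.map ψ := hs.symm ▸ (e y).2
    refine ⟨e'.symm ⟨f, hf⟩, e.injective (Subtype.ext ?_)⟩
    rw [hΨ, ← hfy, LinearEquiv.apply_symm_apply]
  · refine e.injective (Subtype.ext ?_)
    rw [hΨ, hE', hc i j _ (e' x).2, hE, hΨ]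

end Crest.Agent.R187
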