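import Mathlib
import Crest.Prelude.Def_FoulkesHowe

/-! Row 187 (Foulkes' conjecture for the sixth symmetric power): shared definitions. -/

set_option autoImplicit false
open MvPolynomial Crest.AlgebraR.FoulkesHowe

namespace Crest.Agent.R187

/-! ### Formal side: characters as integer polynomials in `n` variables -/

/-- exponent vectors of the monomials of degree `d` in `n` variables -/
noncomputable def mons (n d : ℕ) : Finset (Fin n →₀ ℕ) := Finset.finsuppAntidiag Finset.univ d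

/-- `h_d(x_1^k, …, x_n^k)`, i.e. the plethysm `p_k[h_d]` -/
noncomputable def hp (n d k : ℕ) : MvPolynomial (Fin n) ℤ := ∑ α ∈ mons n d, monomial (k • α) 1

/-- total weight of a multiset of exponent vectors -/
noncomputable def wt {n : ℕ} (M : (Fin n →₀ ℕ) →₀ ℕ) : Fin n →₀ ℕ := M.sum fun α m => m • α

/-- the plethysm `h_a[h_d]`: one monomial for each multiset of `a` monomials of degree `d` -/
noncomputable def HH (n a d : ℕ) : MvPolynomial (Fin n) ℤ :=
  ∑ M ∈ (mons n d).finsuppAntidiag a, monomial (wt M) 1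

/-- `ρ = (n-1, …, 1, 0)` -/
noncomputable def rho (n : ℕ) : Fin n →₀ ℕ := Finsupp.equivFunOnFinite.symm fun i => n - 1 - (i : ℕ)

/-- the Vandermonde product `∏_{i<j} (x_i - x_j)` -/
noncomputable def Del (n : ℕ) : MvPolynomial (Fin n) ℤ := ∏ i : Fin n, ∏ j ∈ Finset.Ioi i, (X i - X j)

/-- coefficient of the Schur function `s_l` in a symmetric polynomial `F` -/
noncomputable def mult {n : ℕ} (F : MvPolynomial (Fin n) ℤ) (l : Fin n →₀ ℕ) : ℤ :=
  coeff (l + rho n) (Del n * F)

/-- the all-ones vector -/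
noncomputable def ones (n : ℕ) : Fin n →₀ ℕ := Finsupp.equivFunOnFinite.symm fun _ => 1

/-- append a zero -/
noncomputable def pad {n : ℕ} (l : Fin n →₀ ℕ) : Fin (n + 1) →₀ ℕ :=
  Finsupp.equivFunOnFinite.symm (Fin.snoc (α := fun _ => ℕ) l 0)

/-- set the last variable to zero -/
noncomputable def kill (n : ℕ) : MvPolynomial (Fin (n + 1)) ℤ →ₐ[ℤ] MvPolynomial (Fin n) ℤ :=
  aeval (Fin.snoc (α := fun _ => MvPolynomial (Fin n) ℤ) X 0)

/-- the partitions `m` such that `l / m` is a horizontal strip of size `b` -/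
noncomputable def interl {n : ℕ} (l : Fin n →₀ ℕ) (b : ℕ) : Finset (Fin n →₀ ℕ) :=
  (Finset.Iic l).filter fun m =>
    (∀ i j : Fin n, (j : ℕ) = i + 1 → l j ≤ m i) ∧ ∑ i, m i + b = ∑ i, l i

/-- an exponent vector in six variables -/
noncomputable def mk6 (e1 e2 e3 e4 e5 e6 : ℕ) : Fin 6 →₀ ℕ :=
  Finsupp.equivFunOnFinite.symm ![e1, e2, e3, e4, e5, e6]

/-- dehomogenised coefficient function of a polynomial of degree `D` in six variables -/
noncomputable def deh (D : ℕ) (P : MvPolynomial (Fin 6) ℤ) (e2 e3 e4 e5 e6 : ℕ) : ℤ :=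
  if e2 + e3 + e4 + e5 + e6 ≤ D then coeff (mk6 (D - (e2 + e3 + e4 + e5 + e6)) e2 e3 e4 e5 e6) P else 0

/-- complete homogeneous polynomials in the `k`-th powers of a list of variables -/
noncomputable def hpart (k : ℕ) : List (Fin 6) → ℕ → MvPolynomial (Fin 6) ℤ
  | [], 0 => 1
  | [], _ + 1 => 0
  | _ :: S, 0 => hpart k S 0
  | v :: S, d + 1 => hpart k S (d + 1) + X v ^ k * hpart k (v :: S) d

/-- the finite check: Foulkes' inequality for `7 ≤ b ≤ 24` in six variables -/
def Numeric : Prop :=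
  ∀ (b : ℕ) (l : Fin 6 →₀ ℕ), 7 ≤ b → b ≤ 24 → Antitone l → ∑ i, l i = 6 * b →
    (12 ≤ b → l 5 ≤ 5) → mult (HH 6 6 b) l ≤ mult (HH 6 b 6) l

/-! ### Abstract unitary polynomial representations of `gl_n` -/

/-- A finite-dimensional unitary representation of `gl_n(ℂ)` with weights in `ℕ^n`, homogeneous. -/
structure GRep (n : ℕ) (V : Type) [NormedAddCommGroup V] [InnerProductSpace ℂ V] where
  E : Fin n → Fin n → Module.End ℂ V
  comm : ∀ i j k l, E i j * E k l - E k l * E i j =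
    (if j = k then E i l else 0) - (if l = i then E k j else 0)
  adj : ∀ i j x y, inner ℂ (E i j x) y = inner ℂ x (E j i y)
  nat : ∀ (i : Fin n) (c : ℂ) (x : V), x ≠ 0 → E i i x = c • x → ∃ m : ℕ, c = m
  D : ℕ
  deg : ∀ x, ∑ i, E i i x = (D : ℂ) • x

namespace GRep
variable {n : ℕ} {V : Type} [NormedAddCommGroup V] [InnerProductSpace ℂ V] (R : GRep n V)

/-- weight space -/
def wsp (μ : Fin n →₀ ℕ) : Submodule ℂ V := ⨅ i, Module.End.eigenspace (R.E i i) (μ i : ℂ)

/-- highest weight vectors -/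
def hwv (μ : Fin n →₀ ℕ) : Submodule ℂ V :=
  R.wsp μ ⊓ ⨅ (i : Fin n) (j : Fin n) (_ : i < j), LinearMap.ker (R.E i j)

end GRep

/-! ### Concrete side: polynomials in blocks of variables -/

/-- the polarisation operator `∑_l x_{l,i} ∂/∂x_{l,j}` -/
noncomputable def EE (a : ℕ) {n : ℕ} (i j : Fin n) : Module.End ℂ (MvPolynomial (Var a n) ℂ) :=
  ∑ l : Fin a, (LinearMap.mulLeft ℂ (X (l, i) : MvPolynomial (Var a n) ℂ)) ∘ₗ
    (pderiv (l, j) : Derivation ℂ (MvPolynomial (Var a n) ℂ) _).toLinearMap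

/-- weight vectors of weight `μ` in `V` -/
noncomputable def wsp {a n : ℕ} (V : Submodule ℂ (MvPolynomial (Var a n) ℂ)) (μ : Fin n →₀ ℕ) :
    Submodule ℂ (MvPolynomial (Var a n) ℂ) :=
  V ⊓ weightedHomogeneousSubmodule ℂ (fun v : Var a n => (Finsupp.single v.2 1 : Fin n →₀ ℕ)) μ

/-- highest weight vectors of weight `μ` in `V` -/
noncomputable def hwv {a n : ℕ} (V : Submodule ℂ (MvPolynomial (Var a n) ℂ)) (μ : Fin n →₀ ℕ) :
    Submodule ℂ (MvPolynomial (Var a n) ℂ) :=
  wsp V μ ⊓ ⨅ (i : Fin n) (j : Fin n) (_ : i < j), LinearMap.ker (EE a i j)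

/-- a homogeneous subspace stable under all polarisation operators -/
structure Good {a n : ℕ} (V : Submodule ℂ (MvPolynomial (Var a n) ℂ)) (D : ℕ) : Prop where
  homog : ∀ f ∈ V, f.IsHomogeneous D
  stab : ∀ i j, ∀ f ∈ V, EE a i j f ∈ V

/-- all polynomials homogeneous of degree `d` in each block -/
noncomputable def multiHom (a n d : ℕ) : Submodule ℂ (MvPolynomial (Var a n) ℂ) :=
  ⨅ i : Fin a, weightedHomogeneousSubmodule ℂ (blockWeight i) d

/-- `∏_l y(v_l)`, the product of a linear form over all blocks -/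
noncomputable def NN (a : ℕ) {n : ℕ} (y : Fin n → ℂ) : MvPolynomial (Var a n) ℂ :=
  ∏ l : Fin a, ∑ k : Fin n, y k • X (l, k)

/-- the span of the `b`-fold products of the `NN a y` -/
noncomputable def RR (a n b : ℕ) : Submodule ℂ (MvPolynomial (Var a n) ℂ) :=
  Submodule.span ℂ (Set.range fun y : Fin b → Fin n → ℂ => ∏ j, NN a (y j))

end Crest.Agent.R187
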