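import Crest.Agent.R187.Sym1
import Crest.Agent.R187.Sym2

set_option autoImplicit false
set_option linter.unnecessarySeqFocus false
open MvPolynomial Crest.AlgebraR.FoulkesHowe Module

namespace Crest.Agent.R187

variable (D k : ℕ) (P Q : MvPolynomial (Fin 6) ℤ) (e2 e3 e4 e5 e6 : ℕ)

theorem Deh_coeff (i : Fin 6) (m : Fin 6 →₀ ℕ) : coeff m (X i ^ k * P) =
    if k ≤ m i then coeff (m - Finsupp.single i k) P else 0 := by
  rw [X_pow_eq_monomial, coeff_monomial_mul', one_mul]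
  simp only [Finsupp.single_le_iff]

theorem Deh_apply (a b c d e f : ℕ) (i : Fin 6) : mk6 a b c d e f i = ![a, b, c, d, e, f] i := rfl

theorem Deh_antidiag {ι M : Type} [DecidableEq ι] [AddCommMonoid M] {v : ι} {s : Finset ι}
    (hv : v ∉ s) (d : ℕ) (f : (ι →₀ ℕ) → M) :
    ∑ α ∈ (insert v s).finsuppAntidiag (d + 1), f α = ∑ α ∈ s.finsuppAntidiag (d + 1), f α +
      ∑ α ∈ (insert v s).finsuppAntidiag d, f (α + Finsupp.single v 1) := by
  rw [← Finset.sum_filter_add_sum_filter_not _ (fun α => α v = 0)]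
  congr 1
  · refine Finset.sum_congr ?_ fun _ _ => rfl
    ext α
    simp only [Finset.mem_filter, Finset.mem_finsuppAntidiag, Finset.sum_insert hv]
    constructor
    · rintro ⟨⟨h1, h2⟩, h3⟩
      refine ⟨by rw [← h1, h3, zero_add], fun i hi => ?_⟩
      rcases Finset.mem_insert.1 (h2 hi) with rfl | h
      · exact absurd h3 (Finsupp.mem_support_iff.1 hi)
      · exact h
    · rintro ⟨h1, h2⟩
      have h3 : α v = 0 := Finsupp.notMem_support_iff.1 fun h => hv (h2 h)
      exact ⟨⟨by rw [← h1, h3, zero_add], h2.trans (Finset.subset_insert _ _)⟩, h3⟩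
  · have hs : ∀ α : ι →₀ ℕ, ∑ i ∈ s, (α + Finsupp.single v 1 : ι →₀ ℕ) i = ∑ i ∈ s, α i :=
      fun α => Finset.sum_congr rfl fun i hi => by
        have : i ≠ v := fun h => hv (h ▸ hi)
        simp [this]
    symm
    refine Finset.sum_bij (fun α _ => α + Finsupp.single v 1) ?_ ?_ ?_ fun _ _ => rfl
    · intro α hα
      simp only [Finset.mem_filter, Finset.mem_finsuppAntidiag, Finset.sum_insert hv, hs] at hα ⊢
      refine ⟨⟨by simp; omega, Finsupp.support_add.trans (Finset.union_subset hα.2 ?_)⟩, by simp⟩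
      exact Finsupp.support_single_subset.trans (by simp)
    · intro α _ β _ h; exact add_right_cancel h
    · intro β hβ
      simp only [Finset.mem_filter, Finset.mem_finsuppAntidiag, Finset.sum_insert hv] at hβ
      have e : β - Finsupp.single v 1 + Finsupp.single v 1 = β :=
        tsub_add_cancel_of_le (Finsupp.single_le_iff.2 (Nat.one_le_iff_ne_zero.2 hβ.2))
      refine ⟨β - Finsupp.single v 1, ?_, e⟩
      simp only [Finset.mem_finsuppAntidiag, Finset.sum_insert hv]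
      refine ⟨?_, Finsupp.support_tsub.trans hβ.1.2⟩
      have h1 := hs (β - Finsupp.single v 1)
      rw [e] at h1
      have h2 := hβ.1.1
      have h3 := hβ.2
      rw [← h1]; simp; omega

theorem Deh_hpart_zero (S : List (Fin 6)) : hpart k S 0 = 1 := by
  induction S with
  | nil => rw [hpart]
  | cons v S ih => rw [hpart, ih]

theorem Deh_hpart (S : List (Fin 6)) (hS : S.Nodup) (d : ℕ) :
    hpart k S d = ∑ α ∈ S.toFinset.finsuppAntidiag d, monomial (k • α) 1 := by
  induction S generalizing d with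
  | nil => cases d <;> simp [hpart]
  | cons v S ih =>
    rw [List.nodup_cons] at hS
    induction d with
    | zero => simp [Deh_hpart_zero]
    | succ d ihd =>
      rw [hpart, ih hS.2, ihd, List.toFinset_cons,
        Deh_antidiag (by simpa using hS.1), Finset.mul_sum]
      congr 1
      refine Finset.sum_congr rfl fun α _ => ?_
      rw [X_pow_eq_monomial, monomial_mul, smul_add, Finsupp.smul_single, add_comm]
      simp

theorem deh_add : deh D (P + Q) e2 e3 e4 e5 e6 = deh D P e2 e3 e4 e5 e6 + deh D Q e2 e3 e4 e5 e6 := by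
  unfold deh; split_ifs <;> simp

theorem deh_sub : deh D (P - Q) e2 e3 e4 e5 e6 = deh D P e2 e3 e4 e5 e6 - deh D Q e2 e3 e4 e5 e6 := by
  unfold deh; split_ifs <;> simp

theorem deh_zero : deh D 0 e2 e3 e4 e5 e6 = 0 := by
  unfold deh; split_ifs <;> simp

theorem deh_smul (c : ℤ) : deh D (c • P) e2 e3 e4 e5 e6 = c * deh D P e2 e3 e4 e5 e6 := by
  unfold deh; split_ifs
  · rw [coeff_smul, smul_eq_mul]
  · simp

theorem deh_natCast_mul (c : ℕ) :
    deh D ((c : MvPolynomial (Fin 6) ℤ) * P) e2 e3 e4 e5 e6 = c * deh D P e2 e3 e4 e5 e6 := by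
  rw [← nsmul_eq_mul, ← natCast_zsmul, deh_smul]

theorem deh_sum {ι : Type} (s : Finset ι) (f : ι → MvPolynomial (Fin 6) ℤ) :
    deh D (∑ i ∈ s, f i) e2 e3 e4 e5 e6 = ∑ i ∈ s, deh D (f i) e2 e3 e4 e5 e6 := by
  unfold deh; split_ifs <;> simp [coeff_sum]

theorem deh_one : deh 0 1 e2 e3 e4 e5 e6 =
    if e2 = 0 ∧ e3 = 0 ∧ e4 = 0 ∧ e5 = 0 ∧ e6 = 0 then 1 else 0 := by
  unfold deh
  by_cases h : e2 = 0 ∧ e3 = 0 ∧ e4 = 0 ∧ e5 = 0 ∧ e6 = 0
  · obtain ⟨rfl, rfl, rfl, rfl, rfl⟩ := h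
    have : mk6 0 0 0 0 0 0 = 0 := by ext i; fin_cases i <;> rfl
    simp [this]
  · rw [if_neg h, if_neg (by omega)]

theorem deh_X0 : deh (D + k) (X 0 ^ k * P) e2 e3 e4 e5 e6 = deh D P e2 e3 e4 e5 e6 := by
  unfold deh
  rw [Deh_coeff]
  simp only [Deh_apply, Matrix.cons_val]
  split_ifs <;> first
    | rfl
    | (exfalso; omega)
    | (congr 1; ext i; fin_cases i <;> simp [Deh_apply] <;> omega)

theorem deh_X1 : deh (D + k) (X 1 ^ k * P) e2 e3 e4 e5 e6 =
    if k ≤ e2 then deh D P (e2 - k) e3 e4 e5 e6 else 0 := by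
  unfold deh
  rw [Deh_coeff]
  simp only [Deh_apply, Matrix.cons_val]
  split_ifs <;> first
    | rfl
    | (exfalso; omega)
    | (congr 1; ext i; fin_cases i <;> simp [Deh_apply] <;> omega)

theorem deh_X2 : deh (D + k) (X 2 ^ k * P) e2 e3 e4 e5 e6 =
    if k ≤ e3 then deh D P e2 (e3 - k) e4 e5 e6 else 0 := by
  unfold deh
  rw [Deh_coeff]
  simp only [Deh_apply, Matrix.cons_val]
  split_ifs <;> first
    | rfl
    | (exfalso; omega)
    | (congr 1; ext i; fin_cases i <;> simp [Deh_apply] <;> omega)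

theorem deh_X3 : deh (D + k) (X 3 ^ k * P) e2 e3 e4 e5 e6 =
    if k ≤ e4 then deh D P e2 e3 (e4 - k) e5 e6 else 0 := by
  unfold deh
  rw [Deh_coeff]
  simp only [Deh_apply, Matrix.cons_val]
  split_ifs <;> first
    | rfl
    | (exfalso; omega)
    | (congr 1; ext i; fin_cases i <;> simp [Deh_apply] <;> omega)

theorem deh_X4 : deh (D + k) (X 4 ^ k * P) e2 e3 e4 e5 e6 =
    if k ≤ e5 then deh D P e2 e3 e4 (e5 - k) e6 else 0 := by
  unfold deh
  rw [Deh_coeff]
  simp only [Deh_apply, Matrix.cons_val]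
  split_ifs <;> first
    | rfl
    | (exfalso; omega)
    | (congr 1; ext i; fin_cases i <;> simp [Deh_apply] <;> omega)

theorem deh_X5 : deh (D + k) (X 5 ^ k * P) e2 e3 e4 e5 e6 =
    if k ≤ e6 then deh D P e2 e3 e4 e5 (e6 - k) else 0 := by
  unfold deh
  rw [Deh_coeff]
  simp only [Deh_apply, Matrix.cons_val]
  split_ifs <;> first
    | rfl
    | (exfalso; omega)
    | (congr 1; ext i; fin_cases i <;> simp [Deh_apply] <;> omega)

theorem deh_swap (F : MvPolynomial (Fin 6) ℤ) (hF : F.IsSymmetric) :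
    deh D (Del 6 * F) e2 e3 e4 e5 e6 = - deh D (Del 6 * F) e2 e3 e4 e6 e5 := by
  unfold deh
  rw [show e2 + e3 + e4 + e6 + e5 = e2 + e3 + e4 + e5 + e6 by ring]
  split_ifs
  · have := coeff_Del_mul_perm F hF (Equiv.swap 4 5)
      (mk6 (D - (e2 + e3 + e4 + e5 + e6)) e2 e3 e4 e6 e5)
    rw [Equiv.Perm.sign_swap (by decide)] at this
    simp only [Units.val_neg, Units.val_one, neg_mul, one_mul] at this
    rw [← this]
    congr 1
    ext i; fin_cases i <;> rfl
  · simp

theorem deh_expand (hk : 1 ≤ k) : deh (k * D) (expand k P) e2 e3 e4 e5 e6 =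
    if k ∣ e2 ∧ k ∣ e3 ∧ k ∣ e4 ∧ k ∣ e5 ∧ k ∣ e6
    then deh D P (e2 / k) (e3 / k) (e4 / k) (e5 / k) (e6 / k) else 0 := by
  unfold deh
  by_cases h : k ∣ e2 ∧ k ∣ e3 ∧ k ∣ e4 ∧ k ∣ e5 ∧ k ∣ e6
  · obtain ⟨⟨a2, rfl⟩, ⟨a3, rfl⟩, ⟨a4, rfl⟩, ⟨a5, rfl⟩, ⟨a6, rfl⟩⟩ := h
    have hk' : 0 < k := hk
    simp only [Nat.mul_div_cancel_left _ hk', dvd_mul_right, and_self, if_true, ← mul_add,
      Nat.mul_le_mul_left_iff hk', ← Nat.mul_sub]
    split_ifs
    · rw [← coeff_expand_smul k hk'.ne' P]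
      congr 1
      ext i; fin_cases i <;> rfl
    · rfl
  · rw [if_neg h]
    split_ifs
    · simp only [not_and_or] at h
      rcases h with h | h | h | h | h
      · exact coeff_expand_of_not_dvd _ (i := 1) h
      · exact coeff_expand_of_not_dvd _ (i := 2) h
      · exact coeff_expand_of_not_dvd _ (i := 3) h
      · exact coeff_expand_of_not_dvd _ (i := 4) h
      · exact coeff_expand_of_not_dvd _ (i := 5) h
    · rfl

theorem mult_eq_deh (F : MvPolynomial (Fin 6) ℤ) (l : Fin 6 →₀ ℕ) (h : ∑ i, l i = D) :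
    mult F l = deh (D + 15) (Del 6 * F) (l 1 + 4) (l 2 + 3) (l 3 + 2) (l 4 + 1) (l 5) := by
  rw [Fin.sum_univ_six] at h
  unfold deh mult
  rw [if_pos (by omega)]
  congr 1
  ext i; fin_cases i <;> simp [Deh_apply, rho]
  omega

theorem Del_six : Del 6 =
    (X 0 - X 1) * ((X 0 - X 2) * ((X 0 - X 3) * ((X 1 - X 2) * ((X 1 - X 3) * ((X 2 - X 3) *
    ((X 0 - X 4) * ((X 1 - X 4) * ((X 2 - X 4) * ((X 3 - X 4) *
    ((X 0 - X 5) * ((X 1 - X 5) * ((X 2 - X 5) * ((X 3 - X 5) * (X 4 - X 5)))))))))))))) := by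
  have h : ∀ (i : Fin 6) (f : Fin 6 → MvPolynomial (Fin 6) ℤ),
      ∏ j ∈ Finset.Ioi i, f j = ∏ j, if i < j then f j else 1 := fun i f => by
    rw [← Finset.prod_filter]; congr 1; ext j; simp
  simp only [Del, h, Fin.prod_univ_six]
  simp only [Fin.isValue, Fin.reduceLT, lt_self_iff_false, if_true, if_false]
  ring

theorem hpart_eq_hp (d : ℕ) : hpart k [3, 2, 1, 0, 4, 5] d = hp 6 d k := by
  rw [Deh_hpart k _ (by decide), hp, mons]
  congr 2
  decide

theorem hpart_two (m : ℕ) :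
    hpart k [4, 5] m = ∑ β ∈ Finset.range (m + 1), X 4 ^ (k * β) * X 5 ^ (k * (m - β)) := by
  have h5 : ∀ m, hpart k [5] m = X 5 ^ (k * m) := fun m => by
    induction m with
    | zero => simp [Deh_hpart_zero]
    | succ m ih => rw [hpart, hpart, ih]; ring
  induction m with
  | zero => simp [Deh_hpart_zero]
  | succ m ih =>
    rw [hpart, h5, ih, Finset.sum_range_succ' _ (m + 1), Finset.mul_sum, add_comm]
    congr 1
    · refine Finset.sum_congr rfl fun β _ => ?_
      rw [Nat.add_sub_add_right]; ring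
    · simp

end Crest.Agent.R187
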