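import Mathlib
import Crest.Agent.R187.Alg2

set_option autoImplicit false

namespace Crest.Agent.R187.Alg

theorem fld_lt (X i : ℕ) : fld X i < 2 ^ 57 :=
  Nat.mod_lt _ (Nat.two_pow_pos 57)

theorem fld_testBit (X i j : ℕ) :
    (fld X i).testBit j = (decide (j < 57) && X.testBit (57 * i + j)) := by
  unfold fld
  rw [Nat.testBit_mod_two_pow, Nat.testBit_shiftRight]

theorem fld_at_zero (X : ℕ) : fld X 0 = X % 2 ^ 57 := by
  unfold fld
  rw [Nat.mul_zero, Nat.shiftRight_zero]

theorem fld_succ (X i : ℕ) : fld X (i + 1) = fld (X / 2 ^ 57) i := by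
  unfold fld
  rw [← Nat.shiftRight_eq_div_pow, ← Nat.shiftRight_add, Nat.mul_succ, Nat.add_comm 57]

theorem fld_zero (i : ℕ) : fld 0 i = 0 := by
  unfold fld
  rw [Nat.zero_shiftRight, Nat.zero_mod]

theorem fld_small {x : ℕ} (hx : x < 2 ^ 57) (i : ℕ) : fld x i = if i = 0 then x else 0 := by
  cases i with
  | zero => rw [fld_at_zero, Nat.mod_eq_of_lt hx, if_pos rfl]
  | succ i => rw [fld_succ, Nat.div_eq_of_lt hx, fld_zero, if_neg (Nat.succ_ne_zero i)]

theorem fld_add {X Y : ℕ} (h : ∀ i, fld X i + fld Y i < 2 ^ 57) (i : ℕ) :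
    fld (X + Y) i = fld X i + fld Y i := by
  induction i generalizing X Y with
  | zero =>
    have h0 := h 0
    rw [fld_at_zero, fld_at_zero] at h0
    rw [fld_at_zero, fld_at_zero, fld_at_zero, Nat.add_mod, Nat.mod_eq_of_lt h0]
  | succ i ih =>
    have h0 := h 0
    rw [fld_at_zero, fld_at_zero] at h0
    rw [fld_succ, fld_succ, fld_succ, Nat.add_div_eq_of_add_mod_lt h0]
    exact ih fun j => by rw [← fld_succ, ← fld_succ]; exact h (j + 1)

theorem fld_le_of_forall {X Y : ℕ} (h : ∀ i, fld Y i ≤ fld X i) : Y ≤ X := by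
  induction Y using Nat.strong_induction_on generalizing X with
  | _ Y ih =>
    rcases Nat.eq_zero_or_pos Y with rfl | hY
    · exact Nat.zero_le _
    have h0 := h 0
    rw [fld_at_zero, fld_at_zero] at h0
    have h1 : Y / 2 ^ 57 ≤ X / 2 ^ 57 :=
      ih _ (Nat.div_lt_self hY (Nat.one_lt_two_pow (by decide)))
        fun j => by rw [← fld_succ, ← fld_succ]; exact h (j + 1)
    rw [← Nat.div_add_mod Y (2 ^ 57), ← Nat.div_add_mod X (2 ^ 57)]
    exact Nat.add_le_add (Nat.mul_le_mul_left _ h1) h0

theorem fld_ext {X Y : ℕ} (h : ∀ i, fld X i = fld Y i) : X = Y :=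
  Nat.le_antisymm (fld_le_of_forall fun i => (h i).le) (fld_le_of_forall fun i => (h i).ge)

theorem fld_sub_aux {B X Y : ℕ} (hB : 0 < B) (h0 : Y % B ≤ X % B) (h1 : Y / B ≤ X / B) :
    (X - Y) % B = X % B - Y % B ∧ (X - Y) / B = X / B - Y / B := by
  have e : X - Y = (X % B - Y % B) + B * (X / B - Y / B) := by
    have hx := Nat.div_add_mod X B
    have hy := Nat.div_add_mod Y B
    have := Nat.mul_le_mul_left B h1
    rw [Nat.mul_sub]
    omega
  have hl : X % B - Y % B < B := lt_of_le_of_lt (Nat.sub_le _ _) (Nat.mod_lt _ hB)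
  constructor
  · rw [e, Nat.add_mul_mod_self_left, Nat.mod_eq_of_lt hl]
  · rw [e, Nat.add_mul_div_left _ _ hB, Nat.div_eq_of_lt hl, Nat.zero_add]

theorem fld_sub {X Y : ℕ} (h : ∀ i, fld Y i ≤ fld X i) (i : ℕ) :
    fld (X - Y) i = fld X i - fld Y i := by
  induction i generalizing X Y with
  | zero =>
    have h0 := h 0
    rw [fld_at_zero, fld_at_zero] at h0
    have h1 : Y / 2 ^ 57 ≤ X / 2 ^ 57 :=
      fld_le_of_forall fun j => by rw [← fld_succ, ← fld_succ]; exact h (j + 1)
    rw [fld_at_zero, fld_at_zero, fld_at_zero, (fld_sub_aux (Nat.two_pow_pos 57) h0 h1).1]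
  | succ i ih =>
    have h0 := h 0
    rw [fld_at_zero, fld_at_zero] at h0
    have h2 : ∀ j, fld (Y / 2 ^ 57) j ≤ fld (X / 2 ^ 57) j :=
      fun j => by rw [← fld_succ, ← fld_succ]; exact h (j + 1)
    rw [fld_succ, fld_succ, fld_succ,
      (fld_sub_aux (Nat.two_pow_pos 57) h0 (fld_le_of_forall h2)).2]
    exact ih h2

theorem fld_mul {c X : ℕ} (h : ∀ i, c * fld X i < 2 ^ 57) (i : ℕ) : fld (c * X) i = c * fld X i := by
  induction c generalizing i with
  | zero => rw [Nat.zero_mul, Nat.zero_mul, fld_zero]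
  | succ c ih =>
    have h1 : ∀ j, c * fld X j < 2 ^ 57 := fun j =>
      lt_of_le_of_lt (Nat.mul_le_mul_right _ (Nat.le_succ c)) (h j)
    rw [Nat.succ_mul, Nat.succ_mul, fld_add, ih h1]
    intro j
    rw [ih h1, ← Nat.succ_mul]
    exact h j

theorem fld_shl (X k i : ℕ) : fld (X <<< (57 * k)) i = if k ≤ i then fld X (i - k) else 0 := by
  apply Nat.eq_of_testBit_eq
  intro j
  rw [fld_testBit, Nat.testBit_shiftLeft]
  split_ifs with hk
  · rw [fld_testBit, decide_eq_true (show 57 * i + j ≥ 57 * k by omega), Bool.true_and,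
      show 57 * i + j - 57 * k = 57 * (i - k) + j by omega]
  · rw [Nat.zero_testBit]
    by_cases hj : j < 57
    · rw [decide_eq_false (show ¬ (57 * i + j ≥ 57 * k) by omega), Bool.false_and, Bool.and_false]
    · rw [decide_eq_false hj, Bool.false_and]

theorem fld_shr (X k i : ℕ) : fld (X >>> (57 * k)) i = fld X (i + k) := by
  unfold fld
  rw [← Nat.shiftRight_add, Nat.mul_add, Nat.add_comm]

theorem fld_mod (X k i : ℕ) : fld (X % 2 ^ (57 * k)) i = if i < k then fld X i else 0 := by
  apply Nat.eq_of_testBit_eq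
  intro j
  rw [fld_testBit, Nat.testBit_mod_two_pow]
  by_cases hj : j < 57
  · split_ifs with hk
    · rw [fld_testBit, decide_eq_true (show 57 * i + j < 57 * k by omega), Bool.true_and]
    · rw [Nat.zero_testBit, decide_eq_false (show ¬ (57 * i + j < 57 * k) by omega),
        Bool.false_and, Bool.and_false]
  · split_ifs with hk
    · rw [fld_testBit, decide_eq_false hj, Bool.false_and, Bool.false_and]
    · rw [Nat.zero_testBit, decide_eq_false hj, Bool.false_and]

theorem fld_and (X Y i : ℕ) : fld (X &&& Y) i = fld X i &&& fld Y i := by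
  apply Nat.eq_of_testBit_eq
  intro j
  rw [Nat.testBit_and, fld_testBit, fld_testBit, fld_testBit, Nat.testBit_and]
  cases decide (j < 57) <;> simp

theorem fld_or (X Y i : ℕ) : fld (X ||| Y) i = fld X i ||| fld Y i := by
  apply Nat.eq_of_testBit_eq
  intro j
  rw [Nat.testBit_or, fld_testBit, fld_testBit, fld_testBit, Nat.testBit_or]
  cases decide (j < 57) <;> simp

/-- adding a number occupying the first `s` fields and a number shifted by `s` fields -/
theorem fld_add_shl {x s : ℕ} (hx : ∀ i, s ≤ i → fld x i = 0) (Y i : ℕ) :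
    fld (x + (Y <<< (57 * s))) i = if s ≤ i then fld Y (i - s) else fld x i := by
  rw [fld_add, fld_shl]
  · split_ifs with h
    · rw [hx i h, Nat.zero_add]
    · rw [Nat.add_zero]
  · intro j
    rw [fld_shl]
    split_ifs with h
    · rw [hx j h, Nat.zero_add]; exact fld_lt _ _
    · rw [Nat.add_zero]; exact fld_lt _ _

/-- `rep x s n` when `x` occupies only the first `s` fields -/
theorem fld_rep {x s : ℕ} (hx : ∀ i, s ≤ i → fld x i = 0) (n j t : ℕ) (ht : t < s) :
    fld (rep x s n) (t + s * j) = if j < n then fld x t else 0 := by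
  induction n generalizing j with
  | zero => rw [rep, fld_zero, if_neg (Nat.not_lt_zero j)]
  | succ n ih =>
    rw [rep, fld_add_shl hx]
    cases j with
    | zero =>
      rw [Nat.mul_zero, Nat.add_zero, if_neg (Nat.not_le.mpr ht), if_pos (Nat.succ_pos n)]
    | succ j =>
      rw [Nat.mul_succ, if_pos (by omega), show t + (s * j + s) - s = t + s * j by omega, ih]
      simp only [Nat.add_lt_add_iff_right]

theorem nth_eq_getD (l : List ℕ) (j : ℕ) : nth l j = l.getD j 0 := by
  induction l generalizing j with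
  | nil => simp [nth]
  | cons x xs ih =>
    cases j with
    | zero => simp [nth]
    | succ j => rw [nth, ih]; simp

theorem nthL_eq_getD (l : List (List ℕ)) (j : ℕ) : nthL l j = l.getD j [] := by
  induction l generalizing j with
  | nil => simp [nthL]
  | cons x xs ih =>
    cases j with
    | zero => simp [nthL]
    | succ j => rw [nthL, ih]; simp

theorem nth_tab (n : ℕ) (f : ℕ → ℕ) (j : ℕ) : nth (tab n f) j = if j < n then f j else 0 := by
  rw [nth_eq_getD, tab]
  split_ifs with h
  · simp [List.getD_eq_getElem?_getD, List.getElem?_range h]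
  · rw [List.getD_eq_default]
    simpa using h

theorem length_tab (n : ℕ) (f : ℕ → ℕ) : (tab n f).length = n := by
  simp [tab]

theorem get_tab2 (m5 m6 : ℕ) (f : ℕ → ℕ → ℕ) (a b : ℕ) (ha : a ≤ m5) (hb : b ≤ m6) :
    get (tab2 m5 m6 f) a b = f a b := by
  have h : nthL (tab2 m5 m6 f) b = tab (m5 + 1) fun a => f a b := by
    rw [nthL_eq_getD, tab2, tab]
    simp [List.getD_eq_getElem?_getD, List.getElem?_range (Nat.lt_succ_of_le hb)]
  rw [get, h, nth_tab, if_pos (Nat.lt_succ_of_le ha)]

theorem get_single_tab (m5 : ℕ) (f : ℕ → ℕ) (a : ℕ) (ha : a ≤ m5) :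
    get [tab (m5 + 1) f] a 0 = f a := by
  rw [get, nthL, nth_tab, if_pos (Nat.lt_succ_of_le ha)]

theorem lastD_eq_nth (l : List ℕ) (n : ℕ) (h : l.length = n + 1) (d : ℕ) : lastD l d = nth l n := by
  induction l generalizing n d with
  | nil => simp at h
  | cons x xs ih =>
    cases n with
    | zero =>
      have : xs = [] := List.length_eq_zero_iff.mp (by simpa using h)
      subst this
      rfl
    | succ n =>
      rw [lastD, nth]
      exact ih n (by simpa using h) x

theorem eqL_eq {l l' : List ℕ} (h : eqL l l' = true) : l = l' := by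
  induction l generalizing l' with
  | nil =>
    cases l' with
    | nil => rfl
    | cons y ys => simp [eqL] at h
  | cons x xs ih =>
    cases l' with
    | nil => simp [eqL] at h
    | cons y ys =>
      rw [eqL, Bool.and_eq_true] at h
      rw [Nat.eq_of_beq_eq_true h.1, ih h.2]

theorem allFrom_iff (f : ℕ → Bool) (lo n : ℕ) :
    allFrom f lo n = true ↔ ∀ j, lo ≤ j → j < lo + n → f j = true := by
  simp [allFrom, List.mem_range'_1]

end Crest.Agent.R187.Alg
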