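import Crest.Agent.R187.RepB

set_option autoImplicit false
open MvPolynomial

namespace Crest.Agent.R187.Alg
open Crest.Agent.R187

variable {L : Lay} {p M5 M6 : ℕ}

namespace MulAAux

theorem cP_zero (Q : List (List ℕ)) (i a b m acc : ℕ) : cP Q i a b m 0 acc = acc := rfl

theorem cP_succ (Q : List (List ℕ)) (i a b m β acc : ℕ) : cP Q i a b m (β + 1) acc =
    cP Q i a b m β
      (bif (Nat.ble (i * β) a && Nat.ble (i * (m - β)) b && Nat.blt (b - i * (m - β)) (a - i * β))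
        then acc + get Q (a - i * β) (b - i * (m - β)) else acc) := rfl

theorem cN_zero (Q : List (List ℕ)) (i a b m acc : ℕ) : cN Q i a b m 0 acc = acc := rfl

theorem cN_succ (Q : List (List ℕ)) (i a b m β acc : ℕ) : cN Q i a b m (β + 1) acc =
    cN Q i a b m β
      (bif (Nat.ble (i * β) a && Nat.ble (i * (m - β)) b && Nat.blt (a - i * β) (b - i * (m - β)))
        then acc + get Q (b - i * (m - β)) (a - i * β) else acc) := rfl

theorem usA_cons (Q : List (List ℕ)) (C i a b m : ℕ) (ms : List ℕ) (P N : ℕ) :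
    usA Q C i a b (m :: ms) P N = cmb C (cP Q i a b m (m + 1) P) (cN Q i a b m (m + 1) N) ::
      usA Q C i a b ms (cP Q i a b m (m + 1) P) (cN Q i a b m (m + 1) N) := rfl

theorem length_usA (Q : List (List ℕ)) (C i a b : ℕ) (ms : List ℕ) :
    ∀ P N, (usA Q C i a b ms P N).length = ms.length := by
  induction ms with
  | nil => intro _ _; rfl
  | cons m ms ih => intro P N; rw [usA_cons, List.length_cons, ih, List.length_cons]

theorem nth_zero (x : ℕ) (xs : List ℕ) : nth (x :: xs) 0 = x := rfl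

theorem nth_succ (x : ℕ) (xs : List ℕ) (n : ℕ) : nth (x :: xs) (n + 1) = nth xs n := rfl

theorem bif3 {α : Type} (x y z w u v : ℕ) (s t : α) :
    (bif (Nat.ble x y && Nat.ble z w && Nat.blt u v) then s else t) =
      if x ≤ y ∧ z ≤ w ∧ u < v then s else t := by
  split_ifs with h
  · rw [Nat.ble_eq_true_of_le h.1, Nat.ble_eq_true_of_le h.2.1, Nat.blt_eq.mpr h.2.2]
    rfl
  · have : (Nat.ble x y && Nat.ble z w && Nat.blt u v) = false := by
      rw [Bool.eq_false_iff]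
      intro h'
      rw [Bool.and_eq_true, Bool.and_eq_true, Nat.ble_eq, Nat.ble_eq, Nat.blt_eq] at h'
      exact h ⟨h'.1.1, h'.1.2, h'.2⟩
    rw [this]
    rfl

/-- positive terms -/
noncomputable def posT (D : ℕ) (P : MvPolynomial (Fin 6) ℤ) (i a b m β e2 e3 e4 : ℕ) : ℤ :=
  if i * β ≤ a ∧ i * (m - β) ≤ b ∧ b - i * (m - β) < a - i * β then
    deh D P e2 e3 e4 (a - i * β) (b - i * (m - β)) else 0

/-- negative terms -/
noncomputable def negT (D : ℕ) (P : MvPolynomial (Fin 6) ℤ) (i a b m β e2 e3 e4 : ℕ) : ℤ :=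
  if i * β ≤ a ∧ i * (m - β) ≤ b ∧ a - i * β < b - i * (m - β) then
    deh D P e2 e3 e4 (b - i * (m - β)) (a - i * β) else 0

theorem cP_spec {Q : List (List ℕ)} {D : ℕ} {P : MvPolynomial (Fin 6) ℤ}
    (h : RepQ L p M5 M6 Q D P) (i m : ℕ) {a b : ℕ} (ha : a ≤ M5) (hb : b ≤ M6) (β : ℕ) :
    ∀ (c acc : ℕ) (ψ : ℕ → ℕ → ℕ → ℤ), Rep L p (c * (2 ^ 49 - 1)) acc ψ → c + β ≤ 28 →
      Rep L p ((c + β) * (2 ^ 49 - 1)) (cP Q i a b m β acc)
        (fun e2 e3 e4 => ψ e2 e3 e4 + ∑ j ∈ Finset.range β, posT D P i a b m j e2 e3 e4) := by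
  induction β with
  | zero => intro c acc ψ h0 _; exact h0.congr fun _ _ _ _ _ _ => by simp
  | succ β ih =>
    intro c acc ψ h0 hc
    rw [cP_succ, bif3]
    have h1 : Rep L p ((c + 1) * (2 ^ 49 - 1))
        (if i * β ≤ a ∧ i * (m - β) ≤ b ∧ b - i * (m - β) < a - i * β then
          acc + get Q (a - i * β) (b - i * (m - β)) else acc)
        (fun e2 e3 e4 => ψ e2 e3 e4 + posT D P i a b m β e2 e3 e4) := by
      split_ifs with hc'
      · rw [add_mul, one_mul]
        refine (h0.add (h _ _ hc'.2.2 (by omega) (by omega)) (by omega)).congr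
          fun _ _ _ _ _ _ => ?_
        rw [posT, if_pos hc']
        rfl
      · refine (h0.mono (Nat.mul_le_mul_right _ (Nat.le_succ c))).congr fun _ _ _ _ _ _ => ?_
        rw [posT, if_neg hc', add_zero]
    have h2 := ih (c + 1) _ _ h1 (by omega)
    rw [add_assoc, add_comm 1 β] at h2
    exact h2.congr fun _ _ _ _ _ _ => by rw [Finset.sum_range_succ]; ring

theorem cN_spec {Q : List (List ℕ)} {D : ℕ} {P : MvPolynomial (Fin 6) ℤ}
    (h : RepQ L p M5 M6 Q D P) (i m : ℕ) {a b : ℕ} (hab : b < a) (ha : a ≤ M5) (hb : b ≤ M6)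
    (β : ℕ) :
    ∀ (c acc : ℕ) (ψ : ℕ → ℕ → ℕ → ℤ), Rep L p (c * (2 ^ 49 - 1)) acc ψ → c + β ≤ 28 →
      Rep L p ((c + β) * (2 ^ 49 - 1)) (cN Q i a b m β acc)
        (fun e2 e3 e4 => ψ e2 e3 e4 + ∑ j ∈ Finset.range β, negT D P i a b m j e2 e3 e4) := by
  induction β with
  | zero => intro c acc ψ h0 _; exact h0.congr fun _ _ _ _ _ _ => by simp
  | succ β ih =>
    intro c acc ψ h0 hc
    rw [cN_succ, bif3]
    have h1 : Rep L p ((c + 1) * (2 ^ 49 - 1))
        (if i * β ≤ a ∧ i * (m - β) ≤ b ∧ a - i * β < b - i * (m - β) then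
          acc + get Q (b - i * (m - β)) (a - i * β) else acc)
        (fun e2 e3 e4 => ψ e2 e3 e4 + negT D P i a b m β e2 e3 e4) := by
      split_ifs with hc'
      · rw [add_mul, one_mul]
        refine (h0.add (h _ _ hc'.2.2 (by omega) (by omega)) (by omega)).congr
          fun _ _ _ _ _ _ => ?_
        rw [negT, if_pos hc']
        rfl
      · refine (h0.mono (Nat.mul_le_mul_right _ (Nat.le_succ c))).congr fun _ _ _ _ _ _ => ?_
        rw [negT, if_neg hc', add_zero]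
    have h2 := ih (c + 1) _ _ h1 (by omega)
    rw [add_assoc, add_comm 1 β] at h2
    exact h2.congr fun _ _ _ _ _ _ => by rw [Finset.sum_range_succ]; ring

theorem deh_two {F : MvPolynomial (Fin 6) ℤ} (hF : F.IsSymmetric) (D i a b m e2 e3 e4 : ℕ) :
    deh (D + i * m) (hpart i [4, 5] m * (Del 6 * F)) e2 e3 e4 a b =
      ∑ j ∈ Finset.range (m + 1), posT D (Del 6 * F) i a b m j e2 e3 e4 -
        ∑ j ∈ Finset.range (m + 1), negT D (Del 6 * F) i a b m j e2 e3 e4 := by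
  rw [hpart_two, Finset.sum_mul, deh_sum, ← Finset.sum_sub_distrib]
  refine Finset.sum_congr rfl fun j hj => ?_
  have hj' : j ≤ m := Nat.lt_succ_iff.1 (Finset.mem_range.1 hj)
  have e : D + i * m = D + i * (m - j) + i * j := by
    rw [add_assoc, ← mul_add, Nat.sub_add_cancel hj']
  rw [e, mul_assoc, deh_X4, deh_X5, posT, negT]
  have hs := deh_swap D e2 e3 e4 (a - i * j) (b - i * (m - j)) F hF
  by_cases h1 : i * j ≤ a
  · by_cases h2 : i * (m - j) ≤ b
    · rw [if_pos h1, if_pos h2]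
      rcases lt_trichotomy (a - i * j) (b - i * (m - j)) with h3 | h3 | h3
      · rw [if_neg (by omega), if_pos ⟨h1, h2, h3⟩, hs, zero_sub]
      · rw [if_neg (by omega), if_neg (by omega)]
        rw [h3] at hs ⊢
        omega
      · rw [if_pos ⟨h1, h2, h3⟩, if_neg (by omega), sub_zero]
    · rw [if_pos h1, if_neg h2, if_neg (by omega), if_neg (by omega), sub_zero]
  · rw [if_neg h1, if_neg (by omega), if_neg (by omega), sub_zero]

theorem hpart_succ (k : ℕ) (v : Fin 6) (S : List (Fin 6)) (d : ℕ) :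
    hpart k (v :: S) (d + 1) = hpart k S (d + 1) + X v ^ k * hpart k (v :: S) d := by
  rw [hpart]

theorem deh_three (P : MvPolynomial (Fin 6) ℤ) (D i a b e2 e3 e4 m : ℕ) :
    deh (D + i * m) (hpart i [0, 4, 5] m * P) e2 e3 e4 a b =
      ∑ j ∈ Finset.range (m + 1), deh (D + i * j) (hpart i [4, 5] j * P) e2 e3 e4 a b := by
  induction m with
  | zero => rw [Finset.sum_range_one, Deh_hpart_zero, Deh_hpart_zero]
  | succ m ih =>
    rw [Finset.sum_range_succ, ← ih, hpart_succ, add_mul, deh_add, add_comm, mul_assoc, mul_add,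
      mul_one, ← add_assoc, deh_X0]

theorem usA_spec (hL : L.Ok) (hp49 : p ≤ 49) {Q : List (List ℕ)} {D : ℕ}
    {F : MvPolynomial (Fin 6) ℤ} (hF : F.IsSymmetric) (h : RepQ L p M5 M6 Q D (Del 6 * F))
    (i : ℕ) {a b : ℕ} (hab : b < a) (ha : a ≤ M5) (hb : b ≤ M6) (n : ℕ) :
    ∀ (m c P N : ℕ) (ψ χ : ℕ → ℕ → ℕ → ℤ), m + n ≤ 7 → 2 * c ≤ m * (m + 1) →
      Rep L p (c * (2 ^ 49 - 1)) P ψ → Rep L p (c * (2 ^ 49 - 1)) N χ →
      (∀ e2 e3 e4, ψ e2 e3 e4 - χ e2 e3 e4 = ∑ j ∈ Finset.range m,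
        deh (D + i * j) (hpart i [4, 5] j * (Del 6 * F)) e2 e3 e4 a b) →
      ∀ j < n, Rep L p (2 ^ 55) (nth (usA Q (cst L) i a b (List.range' m n) P N) j)
        (sl (D + i * (m + j)) (hpart i [0, 4, 5] (m + j) * (Del 6 * F)) a b) := by
  induction n with
  | zero => intro _ _ _ _ _ _ _ _ _ _ _ j hj; omega
  | succ n ih =>
    intro m c P N ψ χ hm hc hP hN hψ j hj
    have hc' : c + (m + 1) ≤ 28 := by
      have : m ≤ 6 := by omega
      interval_cases m <;> omega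
    have h1 := cP_spec h i m ha hb (m + 1) c P ψ hP hc'
    have h2 := cN_spec h i m hab ha hb (m + 1) c N χ hN hc'
    have h3 : ∀ e2 e3 e4, (ψ e2 e3 e4 +
        ∑ j ∈ Finset.range (m + 1), posT D (Del 6 * F) i a b m j e2 e3 e4) - (χ e2 e3 e4 +
        ∑ j ∈ Finset.range (m + 1), negT D (Del 6 * F) i a b m j e2 e3 e4) =
        ∑ j ∈ Finset.range (m + 1),
          deh (D + i * j) (hpart i [4, 5] j * (Del 6 * F)) e2 e3 e4 a b := by
      intro e2 e3 e4
      rw [Finset.sum_range_succ (fun j => deh (D + i * j) _ _ _ _ _ _), ← hψ, deh_two hF]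
      ring
    rw [List.range'_succ, usA_cons]
    cases j with
    | zero =>
      rw [nth_zero]
      refine ((h1.cmb hL hp49 h2 (by omega) (by omega)).mono (by omega)).congr
        fun e2 e3 e4 _ _ _ => ?_
      rw [h3]
      exact (deh_three _ D i a b e2 e3 e4 m).symm
    | succ j =>
      rw [nth_succ]
      have := ih (m + 1) (c + (m + 1)) _ _ _ _ (by omega) (by nlinarith) h1 h2 h3 j (by omega)
      rwa [add_assoc m, add_comm 1 j] at this

end MulAAux

open MulAAux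

theorem mulA_spec (hL : L.Ok) (hp49 : p ≤ 49) {Q : List (List ℕ)} {D : ℕ} {F : MvPolynomial (Fin 6) ℤ}
    (hF : F.IsSymmetric) (h : RepQ L p M5 M6 Q D (Del 6 * F)) (i a b : ℕ) (hab : b < a)
    (ha : a ≤ M5) (hb : b ≤ M6) :
    Rep L p (2 ^ 49 - 1) (mulA L (full L) (cst L) (msk L i) Q a b)
      (sl (D + i * 6) (Del 6 * (hp 6 6 i * F)) a b) := by
  have hlen : (usA Q (cst L) i a b (List.range' 0 7) 0 0).length = 7 := by
    rw [length_usA, List.length_range']
  have h1 : RepL L p (2 ^ 55) (usA Q (cst L) i a b (List.range' 0 7) 0 0) D i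
      (fun j => hpart i [0, 4, 5] j * (Del 6 * F)) a b := by
    intro j hj
    rw [hlen] at hj
    have := usA_spec hL hp49 hF h i hab ha hb 7 0 0 0 0 _ _ le_rfl le_rfl Rep.zero Rep.zero
      (fun _ _ _ => by simp) j hj
    rwa [zero_add] at this
  have h2 := dp_spec hL hp49 (by norm_num) h1 6 (by rw [length_dp, hlen]; norm_num)
  have e : mulA L (full L) (cst L) (msk L i) Q a b =
      lastD (dp L (msk L i) (usA Q (cst L) i a b (List.range' 0 7) 0 0)) 0 &&& full L := rfl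
  rw [e, lastD_eq_nth _ 6 (by rw [length_dp, hlen])]
  have h3 := h2.and_full hL hp49
  simp only [hpart_eq_hp] at h3
  rwa [mul_left_comm] at h3

namespace MulAAux

theorem newtonSum_cons (L : Lay) (F C a b : ℕ) (M : Msk) (Ms : List Msk) (Q : List (List ℕ))
    (Qs : List (List (List ℕ))) : newtonSum L F C a b (M :: Ms) (Q :: Qs) =
      mulA L F C M Q a b + newtonSum L F C a b Ms Qs := rfl

theorem repQs_nil (k : ℕ) : RepQs L p M5 M6 [] k ↔ k = 0 := Iff.rfl

theorem repQs_cons (Q : List (List ℕ)) (Qs : List (List (List ℕ))) (k : ℕ) :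
    RepQs L p M5 M6 (Q :: Qs) k ↔ ∃ j, k = j + 1 ∧
      RepQ L p M5 M6 Q (15 + 6 * j) (Del 6 * HH 6 j 6) ∧ RepQs L p M5 M6 Qs j := Iff.rfl

theorem newtonSum_spec (hL : L.Ok) (hp49 : p ≤ 49) {k : ℕ} (hk : k ≤ 64) {a b : ℕ} (hab : b < a)
    (ha : a ≤ M5) (hb : b ≤ M6) (Qs : List (List (List ℕ))) :
    ∀ j s, s + j = k → RepQs L p M5 M6 Qs j →
      Rep L p (j * (2 ^ 49 - 1)) (newtonSum L (full L) (cst L) a b
        ((List.range' s j).map fun t => msk L (t + 1)) Qs)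
        (fun e2 e3 e4 => ∑ t ∈ Finset.range j, deh (15 + 6 * k)
          (Del 6 * (hp 6 6 (s + t + 1) * HH 6 (k - 1 - (s + t)) 6)) e2 e3 e4 a b) := by
  induction Qs with
  | nil =>
    intro j s _ hj
    obtain rfl := (repQs_nil j).1 hj
    exact Rep.zero.congr fun _ _ _ _ _ _ => by simp
  | cons Q Qs ih =>
    intro j s hs hj
    obtain ⟨j, rfl, hQ, hQs⟩ := (repQs_cons Q Qs j).1 hj
    rw [List.range'_succ, List.map_cons, newtonSum_cons]
    have h1 := mulA_spec hL hp49 (HH_isSymmetric 6 j 6) hQ (s + 1) a b hab ha hb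
    have h2 := ih j (s + 1) (by omega) hQs
    refine ((h1.add h2 (by omega)).mono (by omega)).congr fun e2 e3 e4 _ _ _ => ?_
    rw [Finset.sum_range_succ']
    have e1 : 15 + 6 * j + (s + 1) * 6 = 15 + 6 * k := by omega
    have e2' : k - 1 - (s + 0) = j := by omega
    rw [e1, e2', add_comm]
    refine congrArg₂ (· + ·) (Finset.sum_congr rfl fun t _ => ?_) rfl
    rw [add_assoc s 1 t, add_comm 1 t]

end MulAAux

theorem chkNewton_spec (hL : L.Ok) (hp49 : p ≤ 49) {k v : ℕ} (hk : k ≤ 64) (hv : k % 2 ^ v = 0)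
    (hodd : k / 2 ^ v % 2 = 1) {Qs : List (List (List ℕ))} (hQ : RepQs L p M5 M6 Qs k)
    {Z : List (List ℕ)} {b0 nb : ℕ} (h : chkNewton L p k Qs Z M5 b0 nb = true)
    (a b : ℕ) (hab : b < a) (ha : a ≤ M5) (hb : b ≤ M6) (h0 : b0 ≤ b) (h1 : b < b0 + nb) :
    Rep L (p - v) (2 ^ 49 - 1) (get Z a b) (sl (15 + 6 * k) (Del 6 * HH 6 k 6) a b) := by
  have h2 : allFrom (fun b => allFrom (fun a => chkSlice L (full L) (cst L)
      (boxC L (2 ^ p - 1) L.n2 L.n3 L.n4) k (msks L k) Qs Z a b) (b + 1) (M5 - b)) b0 nb = true := h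
  have h3 := (allFrom_iff _ _ _).1 ((allFrom_iff _ _ _).1 h2 b h0 h1) a hab (by omega)
  have h4 : (Nat.beq ((k * get Z a b) &&& boxC L (2 ^ p - 1) L.n2 L.n3 L.n4)
      (newtonSum L (full L) (cst L) a b (msks L k) Qs &&& boxC L (2 ^ p - 1) L.n2 L.n3 L.n4) &&
      Nat.beq (get Z a b &&& full L) (get Z a b)) = true := h3
  rw [Bool.and_eq_true] at h4
  have e : msks L k = (List.range' 0 k).map fun t => msk L (t + 1) := by
    rw [← List.range_eq_range']
    rfl
  have h5 := newtonSum_spec hL hp49 hk hab ha hb Qs k 0 (zero_add k) hQ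
  rw [← e] at h5
  refine Rep.of_chk hL hp49 hk hv hodd (h5.congr fun e2 e3 e4 _ _ _ => ?_)
    (Nat.eq_of_beq_eq_true h4.1) (Nat.eq_of_beq_eq_true h4.2)
  simp only [zero_add]
  rw [← deh_sum, ← Finset.mul_sum, ← newton, mul_smul_comm, deh_smul]
  rfl

theorem RepQ.weaken {Q : List (List ℕ)} {D : ℕ} {P : MvPolynomial (Fin 6) ℤ}
    (h : RepQ L p M5 M6 Q D P) {p' M6' : ℕ} (hp : p' ≤ p) (h6 : M6' ≤ M6) : RepQ L p' M5 M6' Q D P :=
  fun a b hab ha hb => (h a b hab ha (hb.trans h6)).prec hp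

theorem RepQs.weaken {Qs : List (List (List ℕ))} {k : ℕ}
    (h : RepQs L p M5 M6 Qs k) {p' M6' : ℕ} (hp : p' ≤ p) (h6 : M6' ≤ M6) : RepQs L p' M5 M6' Qs k := by
  induction Qs generalizing k with
  | nil => exact h
  | cons Q Qs ih =>
    obtain ⟨j, hj, hQ, hQs⟩ := (repQs_cons Q Qs k).1 h
    exact (repQs_cons Q Qs k).2 ⟨j, hj, hQ.weaken hp h6, ih hQs⟩

end Crest.Agent.R187.Alg
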