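import Crest.Agent.R187.Tac
import Crest.Agent.R187.MulA
import Crest.Agent.R187.Cmp2

/-! Row 187: lemmas that assemble the kernel computations. -/

set_option autoImplicit false
open MvPolynomial

namespace Crest.Agent.R187.Alg
open Crest.Agent.R187

theorem lay_ok (n2 n3 n4 : ℕ) : (lay n2 n3 n4).Ok :=
  ⟨le_rfl, by simp [lay], le_rfl⟩

theorem eqLL_eq : ∀ {l l' : List (List ℕ)}, eqLL l l' = true → l = l'
  | [], [], _ => rfl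
  | [], _ :: _, h => by simp [eqLL] at h
  | _ :: _, [], h => by simp [eqLL] at h
  | x :: xs, y :: ys, h => by
    simp only [eqLL, Bool.and_eq_true] at h
    rw [eqL_eq h.1, eqLL_eq h.2]

theorem RepQs.base {n2 n3 n4 M5 M6 : ℕ} {Z : List (List ℕ)}
    (h : eqLL Z (delTab (lay n2 n3 n4) M5 M6) = true) (h2 : 0 < n2) (h3 : 0 < n3) (h4 : 0 < n4) :
    RepQs (lay n2 n3 n4) 49 M5 M6 [Z] 1 := by
  rw [eqLL_eq h]
  exact delTab_specQ (lay_ok _ _ _) h2 h3 h4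

theorem RepQs.head {L : Lay} {p M5 M6 k : ℕ} {Z : List (List ℕ)} {Qs : List (List (List ℕ))}
    (h : RepQs L p M5 M6 (Z :: Qs) (k + 1)) : RepQ L p M5 M6 Z (15 + 6 * k) (Del 6 * HH 6 k 6) := by
  obtain ⟨j, hj, h1, -⟩ := h
  obtain rfl : k = j := by omega
  exact h1

def NOk (L : Lay) (p M5 M6 k : ℕ) (Z : List (List ℕ)) (lo hi : ℕ) : Prop :=
  ∀ a b, b < a → a ≤ M5 → b ≤ M6 → lo ≤ b → b < hi →
    Rep L p (2 ^ 49 - 1) (get Z a b) (sl (15 + 6 * k) (Del 6 * HH 6 k 6) a b)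

theorem NOk.of {n2 n3 n4 p M5 M6 k b0 nb : ℕ} {Qs : List (List (List ℕ))} {Z : List (List ℕ)}
    (hQ : RepQs (lay n2 n3 n4) p M5 M6 Qs k) (h : chkNewton (lay n2 n3 n4) p k Qs Z M5 b0 nb = true)
    (v p' hi : ℕ)
    (hc : p ≤ 49 ∧ k ≤ 64 ∧ k % 2 ^ v = 0 ∧ k / 2 ^ v % 2 = 1 ∧ p - v = p' ∧ b0 + nb = hi) :
    NOk (lay n2 n3 n4) p' M5 M6 k Z b0 hi := by
  obtain ⟨h1, h2, h3, h4, rfl, rfl⟩ := hc
  exact fun a b hab ha hb h0 h1' => chkNewton_spec (lay_ok _ _ _) h1 h2 h3 h4 hQ h a b hab ha hb h0 h1'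

theorem NOk.app {L : Lay} {p M5 M6 k lo mid hi : ℕ} {Z : List (List ℕ)}
    (h : NOk L p M5 M6 k Z lo mid) (h' : NOk L p M5 M6 k Z mid hi) : NOk L p M5 M6 k Z lo hi :=
  fun a b hab ha hb h0 h1 =>
    if hm : b < mid then h a b hab ha hb h0 hm else h' a b hab ha hb (not_lt.1 hm) h1

theorem NOk.repQ {L : Lay} {p M5 M6 k hi : ℕ} {Z : List (List ℕ)}
    (h : NOk L p M5 M6 k Z 0 hi) (hh : M6 < hi) : RepQ L p M5 M6 Z (15 + 6 * k) (Del 6 * HH 6 k 6) :=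
  fun a b hab ha hb => h a b hab ha hb (Nat.zero_le _) (lt_of_le_of_lt hb hh)

theorem RepQs.cons {L : Lay} {p p' M5 M6 k : ℕ} {Z : List (List ℕ)} {Qs : List (List (List ℕ))}
    (hZ : RepQ L p' M5 M6 Z (15 + 6 * k) (Del 6 * HH 6 k 6)) (hQ : RepQs L p M5 M6 Qs k) (hp : p' ≤ p) :
    RepQs L p' M5 M6 (Z :: Qs) (k + 1) :=
  ⟨k, rfl, hZ, hQ.weaken hp le_rfl⟩

theorem TrOk.of {n2 n3 n4 p p' k M5 M6 : ℕ} {Q : List (List ℕ)} {T : Tr}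
    (hQ : RepQ (lay n2 n3 n4) p M5 M6 Q (15 + 6 * k) (Del 6 * HH 6 k 6))
    (h : chkTr (lay n2 n3 n4) (onesL p') Q k M5 M6 T = true) (hc : n2 ≤ 78 ∧ p' ≤ p ∧ p' ≤ 46) : TrOk T :=
  chkTr_spec (lay_ok _ _ _) rfl hc.1 hc.2.1 hc.2.2 hQ h

def EqOn' (X Y : List ℕ) (lo hi : ℕ) : Prop := ∀ σ, lo ≤ σ → σ < hi → nth X σ = nth Y σ

theorem EqOn'.of {X Y : List ℕ} {lo n : ℕ} (h : eqR X Y lo n = true) (hi : ℕ) (e : lo + n = hi) :
    EqOn' X Y lo hi := by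
  subst e
  intro σ h0 h1
  exact Nat.eq_of_beq_eq_true ((allFrom_iff _ _ _).1 h σ h0 h1)

theorem EqOn'.app {X Y : List ℕ} {lo mid hi : ℕ} (h : EqOn' X Y lo mid) (h' : EqOn' X Y mid hi) :
    EqOn' X Y lo hi :=
  fun σ h0 h1 => if hm : σ < mid then h σ h0 hm else h' σ (not_lt.1 hm) h1

theorem RepC.of_eq {c3 n3 D m : ℕ} {X Y : List ℕ} {q : ℕ → ℕ → ℕ → ℕ → ℤ} (hY : RepC c3 n3 D Y q)
    (h : EqOn' X Y 0 m) (hX : Nat.beq X.length m = true) (hY' : Y.length = m) : RepC c3 n3 D X q := by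
  intro σ
  have : nth X σ = nth Y σ := by
    by_cases hm : σ < m
    · exact h σ (Nat.zero_le _) hm
    · have := Nat.eq_of_beq_eq_true hX
      rw [nth_eq_getD, nth_eq_getD, List.getD_eq_default _ _ (by omega),
        List.getD_eq_default _ _ (by omega)]
  rw [this]
  exact hY σ

variable {b m : ℕ} {X Y : List ℕ}

theorem yE_ok (h : EqOn' Y (yEc b) 0 2) (hY : Nat.beq Y.length 2 = true) (hb : b ≤ 24) :
    RepC 78 (2 * b + 4) (15 + 4 * b) Y (qOf (15 + 4 * b) (PYE b)) :=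
  (yEc_spec hb).of_eq h hY (length_tab _ _)

theorem yO_ok (h : EqOn' Y (yOc b) 0 2) (hY : Nat.beq Y.length 2 = true) (hb : b ≤ 24) :
    RepC 78 (2 * b + 4) (15 + 4 * b) Y (qOf (15 + 4 * b) (PYO b)) :=
  (yOc_spec hb).of_eq h hY (length_tab _ _)

theorem xE_ok (hY : RepC 78 (2 * b + 4) (15 + 4 * b) Y (qOf (15 + 4 * b) (PYE b)))
    (h : EqOn' X (x1 b Y (zEc b)) 0 m) (hX : Nat.beq X.length m = true)
    (hb : b ≤ 24 ∧ (15 + 5 * b - 10) / 5 + 1 = m) :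
    RepC 78 (2 * b + 4) (15 + 5 * b) X (qOf (15 + 5 * b) (PXE b)) :=
  (x1E_spec hb.1 hY (zEc_spec hb.1)).of_eq h hX ((length_tab _ _).trans hb.2)

theorem xO_ok (hY : RepC 78 (2 * b + 4) (15 + 4 * b) Y (qOf (15 + 4 * b) (PYO b)))
    (h : EqOn' X (x1 b Y (zOc b)) 0 m) (hX : Nat.beq X.length m = true)
    (hb : b ≤ 24 ∧ (15 + 5 * b - 10) / 5 + 1 = m) :
    RepC 78 (2 * b + 4) (15 + 5 * b) X (qOf (15 + 5 * b) (PXO b)) :=
  (x1O_spec hb.1 hY (zOc_spec hb.1)).of_eq h hX ((length_tab _ _).trans hb.2)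

theorem wE_ok (h : EqOn' X (wEc b) 0 m) (hX : Nat.beq X.length m = true)
    (hb : b ≤ 24 ∧ (15 + 6 * b - 10) / 5 + 1 = m) :
    RepC 78 (2 * b + 4) (15 + 6 * b) X (qOf (15 + 6 * b) (PWE b)) :=
  (wEc_spec hb.1).of_eq h hX ((length_tab _ _).trans hb.2)

theorem wO_ok (h : EqOn' X (wOc b) 0 m) (hX : Nat.beq X.length m = true)
    (hb : b ≤ 24 ∧ (15 + 6 * b - 10) / 5 + 1 = m) :
    RepC 78 (2 * b + 4) (15 + 6 * b) X (qOf (15 + 6 * b) (PWO b)) :=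
  (wOc_spec hb.1).of_eq h hX ((length_tab _ _).trans hb.2)

theorem Done.app {b σ0 σ1 n n' : ℕ} (h : Done b σ0 n) (h' : Done b σ1 n') (m : ℕ)
    (e : σ0 + n = σ1 ∧ n + n' = m) : Done b σ0 m := by
  obtain ⟨rfl, rfl⟩ := e
  exact h.append h'

theorem six_ones : (6 : ℕ) • ones 6 = mk6 6 6 6 6 6 6 := by
  ext i
  fin_cases i <;> rfl

end Crest.Agent.R187.Alg
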