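import Crest.Agent.R187.Glue
import Crest.Agent.R187.C.B24
import Crest.Agent.R187.C.B22
import Crest.Agent.R187.C.B23

/-! Row 187: the finite check, assembled from the kernel computations in `R187/C`. -/

set_option autoImplicit false

namespace Crest.Agent.R187.Num
open Crest.Agent.R187 Crest.Agent.R187.Alg

theorem mS1 : RepQs (lay 32 22 18) 49 12 10 mQ1 1 :=
  RepQs.base mC0 (by decide) (by decide) (by decide)
theorem mR0 : RepQ (lay 32 22 18) 49 12 10 mZ0 (15 + 6 * 0) (Del 6 * HH 6 0 6) :=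
  RepQs.head (Qs := []) mS1
theorem mR1 : RepQ (lay 32 22 18) 49 12 10 mZ1 (15 + 6 * 1) (Del 6 * HH 6 1 6) :=
  NOk.repQ (NOk.of mS1 mC1_0 0 49 11 (by decide)) (by decide)
theorem mS2 : RepQs (lay 32 22 18) 49 12 10 mQ2 2 :=
  RepQs.cons (k := 1) mR1 mS1 (by decide)
theorem mR2 : RepQ (lay 32 22 18) 48 12 10 mZ2 (15 + 6 * 2) (Del 6 * HH 6 2 6) :=
  NOk.repQ (NOk.of mS2 mC2_0 1 48 11 (by decide)) (by decide)
theorem mS3 : RepQs (lay 32 22 18) 48 12 10 mQ3 3 :=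
  RepQs.cons (k := 2) mR2 mS2 (by decide)
theorem mR3 : RepQ (lay 32 22 18) 48 12 10 mZ3 (15 + 6 * 3) (Del 6 * HH 6 3 6) :=
  NOk.repQ (NOk.app (NOk.of mS3 mC3_0 0 48 9 (by decide))
    (NOk.of mS3 mC3_1 0 48 11 (by decide))) (by decide)
theorem mS4 : RepQs (lay 32 22 18) 48 12 10 mQ4 4 :=
  RepQs.cons (k := 3) mR3 mS3 (by decide)
theorem mR4 : RepQ (lay 32 22 18) 46 12 10 mZ4 (15 + 6 * 4) (Del 6 * HH 6 4 6) :=
  NOk.repQ (NOk.app (NOk.of mS4 mC4_0 2 46 5 (by decide))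
    (NOk.of mS4 mC4_1 2 46 11 (by decide))) (by decide)
theorem mS5 : RepQs (lay 32 22 18) 46 12 10 mQ5 5 :=
  RepQs.cons (k := 4) mR4 mS4 (by decide)
theorem mR5 : RepQ (lay 32 22 18) 46 12 10 mZ5 (15 + 6 * 5) (Del 6 * HH 6 5 6) :=
  NOk.repQ (NOk.app (NOk.of mS5 mC5_0 0 46 4 (by decide))
    (NOk.of mS5 mC5_1 0 46 11 (by decide))) (by decide)
theorem mS6 : RepQs (lay 32 22 18) 46 12 10 mQ6 6 :=
  RepQs.cons (k := 5) mR5 mS5 (by decide)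
theorem mR6 : RepQ (lay 32 22 18) 45 12 10 mZ6 (15 + 6 * 6) (Del 6 * HH 6 6 6) :=
  NOk.repQ (NOk.app (NOk.app (NOk.of mS6 mC6_0 1 45 3 (by decide))
    (NOk.of mS6 mC6_1 1 45 8 (by decide)))
    (NOk.of mS6 mC6_2 1 45 11 (by decide))) (by decide)
theorem mS7 : RepQs (lay 32 22 18) 45 12 10 mQ7 7 :=
  RepQs.cons (k := 6) mR6 mS6 (by decide)
theorem mR7 : RepQ (lay 32 22 18) 45 12 10 mZ7 (15 + 6 * 7) (Del 6 * HH 6 7 6) :=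
  NOk.repQ (NOk.app (NOk.app (NOk.of mS7 mC7_0 0 45 2 (by decide))
    (NOk.of mS7 mC7_1 0 45 5 (by decide)))
    (NOk.of mS7 mC7_2 0 45 11 (by decide))) (by decide)
theorem mS8 : RepQs (lay 32 22 18) 45 12 10 mQ8 8 :=
  RepQs.cons (k := 7) mR7 mS7 (by decide)
theorem mR8 : RepQ (lay 32 22 18) 42 12 10 mZ8 (15 + 6 * 8) (Del 6 * HH 6 8 6) :=
  NOk.repQ (NOk.app (NOk.app (NOk.of mS8 mC8_0 3 42 2 (by decide))
    (NOk.of mS8 mC8_1 3 42 5 (by decide)))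
    (NOk.of mS8 mC8_2 3 42 11 (by decide))) (by decide)
theorem mS9 : RepQs (lay 32 22 18) 42 12 10 mQ9 9 :=
  RepQs.cons (k := 8) mR8 mS8 (by decide)
theorem mR9 : RepQ (lay 32 22 18) 42 12 10 mZ9 (15 + 6 * 9) (Del 6 * HH 6 9 6) :=
  NOk.repQ (NOk.app (NOk.app (NOk.app (NOk.of mS9 mC9_0 0 42 2 (by decide))
    (NOk.of mS9 mC9_1 0 42 4 (by decide)))
    (NOk.of mS9 mC9_2 0 42 7 (by decide)))
    (NOk.of mS9 mC9_3 0 42 11 (by decide))) (by decide)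
theorem mS10 : RepQs (lay 32 22 18) 42 12 10 mQ10 10 :=
  RepQs.cons (k := 9) mR9 mS9 (by decide)
theorem mR10 : RepQ (lay 32 22 18) 41 12 10 mZ10 (15 + 6 * 10) (Del 6 * HH 6 10 6) :=
  NOk.repQ (NOk.app (NOk.app (NOk.app (NOk.app (NOk.of mS10 mC10_0 1 41 1 (by decide))
    (NOk.of mS10 mC10_1 1 41 3 (by decide)))
    (NOk.of mS10 mC10_2 1 41 5 (by decide)))
    (NOk.of mS10 mC10_3 1 41 9 (by decide)))
    (NOk.of mS10 mC10_4 1 41 11 (by decide))) (by decide)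
theorem mS11 : RepQs (lay 32 22 18) 41 12 10 mQ11 11 :=
  RepQs.cons (k := 10) mR10 mS10 (by decide)
theorem mR11 : RepQ (lay 32 22 18) 41 12 10 mZ11 (15 + 6 * 11) (Del 6 * HH 6 11 6) :=
  NOk.repQ (NOk.app (NOk.app (NOk.app (NOk.app (NOk.of mS11 mC11_0 0 41 1 (by decide))
    (NOk.of mS11 mC11_1 0 41 2 (by decide)))
    (NOk.of mS11 mC11_2 0 41 4 (by decide)))
    (NOk.of mS11 mC11_3 0 41 6 (by decide)))
    (NOk.of mS11 mC11_4 0 41 11 (by decide))) (by decide)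
theorem mS12 : RepQs (lay 32 22 18) 41 12 10 mQ12 12 :=
  RepQs.cons (k := 11) mR11 mS11 (by decide)
theorem mS12' : RepQs (lay 32 22 18) 41 12 5 mQ12 12 := mS12.weaken le_rfl (by decide)
theorem mR12 : RepQ (lay 32 22 18) 39 12 5 mZ12 (15 + 6 * 12) (Del 6 * HH 6 12 6) :=
  NOk.repQ (NOk.app (NOk.app (NOk.app (NOk.app (NOk.of mS12' mC12_0 2 39 1 (by decide))
    (NOk.of mS12' mC12_1 2 39 2 (by decide)))
    (NOk.of mS12' mC12_2 2 39 3 (by decide)))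
    (NOk.of mS12' mC12_3 2 39 5 (by decide)))
    (NOk.of mS12' mC12_4 2 39 6 (by decide))) (by decide)
theorem mS13 : RepQs (lay 32 22 18) 39 12 5 mQ13 13 :=
  RepQs.cons (k := 12) mR12 mS12' (by decide)
theorem mR13 : RepQ (lay 32 22 18) 39 12 5 mZ13 (15 + 6 * 13) (Del 6 * HH 6 13 6) :=
  NOk.repQ (NOk.app (NOk.app (NOk.app (NOk.app (NOk.of mS13 mC13_0 0 39 1 (by decide))
    (NOk.of mS13 mC13_1 0 39 2 (by decide)))
    (NOk.of mS13 mC13_2 0 39 3 (by decide)))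
    (NOk.of mS13 mC13_3 0 39 5 (by decide)))
    (NOk.of mS13 mC13_4 0 39 6 (by decide))) (by decide)
theorem mU0 : TrOk mT0 := TrOk.of mR0 mD0 (by decide)
theorem mU1 : TrOk mT1 := TrOk.of mR1 mD1 (by decide)
theorem mU2 : TrOk mT2 := TrOk.of mR2 mD2 (by decide)
theorem mU3 : TrOk mT3 := TrOk.of mR3 mD3 (by decide)
theorem mU4 : TrOk mT4 := TrOk.of mR4 mD4 (by decide)
theorem mU5 : TrOk mT5 := TrOk.of mR5 mD5 (by decide)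
theorem mU6 : TrOk mT6 := TrOk.of mR6 mD6 (by decide)
theorem mU7 : TrOk mT7 := TrOk.of mR7 mD7 (by decide)
theorem mU8 : TrOk mT8 := TrOk.of mR8 mD8 (by decide)
theorem mU9 : TrOk mT9 := TrOk.of mR9 mD9 (by decide)
theorem mU10 : TrOk mT10 := TrOk.of mR10 mD10 (by decide)
theorem mU11 : TrOk mT11 := TrOk.of mR11 mD11 (by decide)
theorem mU12 : TrOk mT12 := TrOk.of mR12 mD12 (by decide)
theorem mU13 : TrOk mT13 := TrOk.of mR13 mD13 (by decide)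
theorem dS1 : RepQs (lay 50 34 25) 49 2 0 dQ1 1 :=
  RepQs.base dC0 (by decide) (by decide) (by decide)
theorem dR0 : RepQ (lay 50 34 25) 49 2 0 dZ0 (15 + 6 * 0) (Del 6 * HH 6 0 6) :=
  RepQs.head (Qs := []) dS1
theorem dR1 : RepQ (lay 50 34 25) 49 2 0 dZ1 (15 + 6 * 1) (Del 6 * HH 6 1 6) :=
  NOk.repQ (NOk.of dS1 dC1_0 0 49 1 (by decide)) (by decide)
theorem dS2 : RepQs (lay 50 34 25) 49 2 0 dQ2 2 :=
  RepQs.cons (k := 1) dR1 dS1 (by decide)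
theorem dR2 : RepQ (lay 50 34 25) 48 2 0 dZ2 (15 + 6 * 2) (Del 6 * HH 6 2 6) :=
  NOk.repQ (NOk.of dS2 dC2_0 1 48 1 (by decide)) (by decide)
theorem dS3 : RepQs (lay 50 34 25) 48 2 0 dQ3 3 :=
  RepQs.cons (k := 2) dR2 dS2 (by decide)
theorem dR3 : RepQ (lay 50 34 25) 48 2 0 dZ3 (15 + 6 * 3) (Del 6 * HH 6 3 6) :=
  NOk.repQ (NOk.of dS3 dC3_0 0 48 1 (by decide)) (by decide)
theorem dS4 : RepQs (lay 50 34 25) 48 2 0 dQ4 4 :=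
  RepQs.cons (k := 3) dR3 dS3 (by decide)
theorem dR4 : RepQ (lay 50 34 25) 46 2 0 dZ4 (15 + 6 * 4) (Del 6 * HH 6 4 6) :=
  NOk.repQ (NOk.of dS4 dC4_0 2 46 1 (by decide)) (by decide)
theorem dS5 : RepQs (lay 50 34 25) 46 2 0 dQ5 5 :=
  RepQs.cons (k := 4) dR4 dS4 (by decide)
theorem dR5 : RepQ (lay 50 34 25) 46 2 0 dZ5 (15 + 6 * 5) (Del 6 * HH 6 5 6) :=
  NOk.repQ (NOk.of dS5 dC5_0 0 46 1 (by decide)) (by decide)
theorem dS6 : RepQs (lay 50 34 25) 46 2 0 dQ6 6 :=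
  RepQs.cons (k := 5) dR5 dS5 (by decide)
theorem dR6 : RepQ (lay 50 34 25) 45 2 0 dZ6 (15 + 6 * 6) (Del 6 * HH 6 6 6) :=
  NOk.repQ (NOk.of dS6 dC6_0 1 45 1 (by decide)) (by decide)
theorem dS7 : RepQs (lay 50 34 25) 45 2 0 dQ7 7 :=
  RepQs.cons (k := 6) dR6 dS6 (by decide)
theorem dR7 : RepQ (lay 50 34 25) 45 2 0 dZ7 (15 + 6 * 7) (Del 6 * HH 6 7 6) :=
  NOk.repQ (NOk.of dS7 dC7_0 0 45 1 (by decide)) (by decide)
theorem dS8 : RepQs (lay 50 34 25) 45 2 0 dQ8 8 :=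
  RepQs.cons (k := 7) dR7 dS7 (by decide)
theorem dR8 : RepQ (lay 50 34 25) 42 2 0 dZ8 (15 + 6 * 8) (Del 6 * HH 6 8 6) :=
  NOk.repQ (NOk.of dS8 dC8_0 3 42 1 (by decide)) (by decide)
theorem dS9 : RepQs (lay 50 34 25) 42 2 0 dQ9 9 :=
  RepQs.cons (k := 8) dR8 dS8 (by decide)
theorem dR9 : RepQ (lay 50 34 25) 42 2 0 dZ9 (15 + 6 * 9) (Del 6 * HH 6 9 6) :=
  NOk.repQ (NOk.of dS9 dC9_0 0 42 1 (by decide)) (by decide)
theorem dS10 : RepQs (lay 50 34 25) 42 2 0 dQ10 10 :=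
  RepQs.cons (k := 9) dR9 dS9 (by decide)
theorem dR10 : RepQ (lay 50 34 25) 41 2 0 dZ10 (15 + 6 * 10) (Del 6 * HH 6 10 6) :=
  NOk.repQ (NOk.of dS10 dC10_0 1 41 1 (by decide)) (by decide)
theorem dS11 : RepQs (lay 50 34 25) 41 2 0 dQ11 11 :=
  RepQs.cons (k := 10) dR10 dS10 (by decide)
theorem dR11 : RepQ (lay 50 34 25) 41 2 0 dZ11 (15 + 6 * 11) (Del 6 * HH 6 11 6) :=
  NOk.repQ (NOk.of dS11 dC11_0 0 41 1 (by decide)) (by decide)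
theorem dS12 : RepQs (lay 50 34 25) 41 2 0 dQ12 12 :=
  RepQs.cons (k := 11) dR11 dS11 (by decide)
theorem dR12 : RepQ (lay 50 34 25) 39 2 0 dZ12 (15 + 6 * 12) (Del 6 * HH 6 12 6) :=
  NOk.repQ (NOk.of dS12 dC12_0 2 39 1 (by decide)) (by decide)
theorem dS13 : RepQs (lay 50 34 25) 39 2 0 dQ13 13 :=
  RepQs.cons (k := 12) dR12 dS12 (by decide)
theorem dR13 : RepQ (lay 50 34 25) 39 2 0 dZ13 (15 + 6 * 13) (Del 6 * HH 6 13 6) :=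
  NOk.repQ (NOk.of dS13 dC13_0 0 39 1 (by decide)) (by decide)
theorem dS14 : RepQs (lay 50 34 25) 39 2 0 dQ14 14 :=
  RepQs.cons (k := 13) dR13 dS13 (by decide)
theorem dR14 : RepQ (lay 50 34 25) 38 2 0 dZ14 (15 + 6 * 14) (Del 6 * HH 6 14 6) :=
  NOk.repQ (NOk.of dS14 dC14_0 1 38 1 (by decide)) (by decide)
theorem dS15 : RepQs (lay 50 34 25) 38 2 0 dQ15 15 :=
  RepQs.cons (k := 14) dR14 dS14 (by decide)
theorem dR15 : RepQ (lay 50 34 25) 38 2 0 dZ15 (15 + 6 * 15) (Del 6 * HH 6 15 6) :=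
  NOk.repQ (NOk.of dS15 dC15_0 0 38 1 (by decide)) (by decide)
theorem dU10 : TrOk dT10 := TrOk.of dR10 dD10 (by decide)
theorem dU11 : TrOk dT11 := TrOk.of dR11 dD11 (by decide)
theorem dU12 : TrOk dT12 := TrOk.of dR12 dD12 (by decide)
theorem dU13 : TrOk dT13 := TrOk.of dR13 dD13 (by decide)
theorem dU14 : TrOk dT14 := TrOk.of dR14 dD14 (by decide)
theorem dU15 : TrOk dT15 := TrOk.of dR15 dD15 (by decide)
theorem tS1 : RepQs (lay 77 10 6) 49 3 2 tQ1 1 :=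
  RepQs.base tC0 (by decide) (by decide) (by decide)
theorem tR0 : RepQ (lay 77 10 6) 49 3 2 tZ0 (15 + 6 * 0) (Del 6 * HH 6 0 6) :=
  RepQs.head (Qs := []) tS1
theorem tR1 : RepQ (lay 77 10 6) 49 3 2 tZ1 (15 + 6 * 1) (Del 6 * HH 6 1 6) :=
  NOk.repQ (NOk.of tS1 tC1_0 0 49 3 (by decide)) (by decide)
theorem tS2 : RepQs (lay 77 10 6) 49 3 2 tQ2 2 :=
  RepQs.cons (k := 1) tR1 tS1 (by decide)
theorem tR2 : RepQ (lay 77 10 6) 48 3 2 tZ2 (15 + 6 * 2) (Del 6 * HH 6 2 6) :=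
  NOk.repQ (NOk.of tS2 tC2_0 1 48 3 (by decide)) (by decide)
theorem tS3 : RepQs (lay 77 10 6) 48 3 2 tQ3 3 :=
  RepQs.cons (k := 2) tR2 tS2 (by decide)
theorem tR3 : RepQ (lay 77 10 6) 48 3 2 tZ3 (15 + 6 * 3) (Del 6 * HH 6 3 6) :=
  NOk.repQ (NOk.of tS3 tC3_0 0 48 3 (by decide)) (by decide)
theorem tS4 : RepQs (lay 77 10 6) 48 3 2 tQ4 4 :=
  RepQs.cons (k := 3) tR3 tS3 (by decide)
theorem tR4 : RepQ (lay 77 10 6) 46 3 2 tZ4 (15 + 6 * 4) (Del 6 * HH 6 4 6) :=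
  NOk.repQ (NOk.of tS4 tC4_0 2 46 3 (by decide)) (by decide)
theorem tS5 : RepQs (lay 77 10 6) 46 3 2 tQ5 5 :=
  RepQs.cons (k := 4) tR4 tS4 (by decide)
theorem tR5 : RepQ (lay 77 10 6) 46 3 2 tZ5 (15 + 6 * 5) (Del 6 * HH 6 5 6) :=
  NOk.repQ (NOk.of tS5 tC5_0 0 46 3 (by decide)) (by decide)
theorem tS6 : RepQs (lay 77 10 6) 46 3 2 tQ6 6 :=
  RepQs.cons (k := 5) tR5 tS5 (by decide)
theorem tR6 : RepQ (lay 77 10 6) 45 3 2 tZ6 (15 + 6 * 6) (Del 6 * HH 6 6 6) :=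
  NOk.repQ (NOk.of tS6 tC6_0 1 45 3 (by decide)) (by decide)
theorem tS7 : RepQs (lay 77 10 6) 45 3 2 tQ7 7 :=
  RepQs.cons (k := 6) tR6 tS6 (by decide)
theorem tR7 : RepQ (lay 77 10 6) 45 3 2 tZ7 (15 + 6 * 7) (Del 6 * HH 6 7 6) :=
  NOk.repQ (NOk.of tS7 tC7_0 0 45 3 (by decide)) (by decide)
theorem tS8 : RepQs (lay 77 10 6) 45 3 2 tQ8 8 :=
  RepQs.cons (k := 7) tR7 tS7 (by decide)
theorem tR8 : RepQ (lay 77 10 6) 42 3 2 tZ8 (15 + 6 * 8) (Del 6 * HH 6 8 6) :=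
  NOk.repQ (NOk.of tS8 tC8_0 3 42 3 (by decide)) (by decide)
theorem tS9 : RepQs (lay 77 10 6) 42 3 2 tQ9 9 :=
  RepQs.cons (k := 8) tR8 tS8 (by decide)
theorem tR9 : RepQ (lay 77 10 6) 42 3 2 tZ9 (15 + 6 * 9) (Del 6 * HH 6 9 6) :=
  NOk.repQ (NOk.of tS9 tC9_0 0 42 3 (by decide)) (by decide)
theorem tS10 : RepQs (lay 77 10 6) 42 3 2 tQ10 10 :=
  RepQs.cons (k := 9) tR9 tS9 (by decide)
theorem tR10 : RepQ (lay 77 10 6) 41 3 2 tZ10 (15 + 6 * 10) (Del 6 * HH 6 10 6) :=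
  NOk.repQ (NOk.of tS10 tC10_0 1 41 3 (by decide)) (by decide)
theorem tS11 : RepQs (lay 77 10 6) 41 3 2 tQ11 11 :=
  RepQs.cons (k := 10) tR10 tS10 (by decide)
theorem tR11 : RepQ (lay 77 10 6) 41 3 2 tZ11 (15 + 6 * 11) (Del 6 * HH 6 11 6) :=
  NOk.repQ (NOk.of tS11 tC11_0 0 41 3 (by decide)) (by decide)
theorem tS12 : RepQs (lay 77 10 6) 41 3 2 tQ12 12 :=
  RepQs.cons (k := 11) tR11 tS11 (by decide)
theorem tR12 : RepQ (lay 77 10 6) 39 3 2 tZ12 (15 + 6 * 12) (Del 6 * HH 6 12 6) :=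
  NOk.repQ (NOk.of tS12 tC12_0 2 39 3 (by decide)) (by decide)
theorem tS13 : RepQs (lay 77 10 6) 39 3 2 tQ13 13 :=
  RepQs.cons (k := 12) tR12 tS12 (by decide)
theorem tR13 : RepQ (lay 77 10 6) 39 3 2 tZ13 (15 + 6 * 13) (Del 6 * HH 6 13 6) :=
  NOk.repQ (NOk.of tS13 tC13_0 0 39 3 (by decide)) (by decide)
theorem tS14 : RepQs (lay 77 10 6) 39 3 2 tQ14 14 :=
  RepQs.cons (k := 13) tR13 tS13 (by decide)
theorem tR14 : RepQ (lay 77 10 6) 38 3 2 tZ14 (15 + 6 * 14) (Del 6 * HH 6 14 6) :=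
  NOk.repQ (NOk.of tS14 tC14_0 1 38 3 (by decide)) (by decide)
theorem tS15 : RepQs (lay 77 10 6) 38 3 2 tQ15 15 :=
  RepQs.cons (k := 14) tR14 tS14 (by decide)
theorem tR15 : RepQ (lay 77 10 6) 38 3 2 tZ15 (15 + 6 * 15) (Del 6 * HH 6 15 6) :=
  NOk.repQ (NOk.of tS15 tC15_0 0 38 3 (by decide)) (by decide)
theorem tS16 : RepQs (lay 77 10 6) 38 3 2 tQ16 16 :=
  RepQs.cons (k := 15) tR15 tS15 (by decide)
theorem tR16 : RepQ (lay 77 10 6) 34 3 2 tZ16 (15 + 6 * 16) (Del 6 * HH 6 16 6) :=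
  NOk.repQ (NOk.of tS16 tC16_0 4 34 3 (by decide)) (by decide)
theorem tS17 : RepQs (lay 77 10 6) 34 3 2 tQ17 17 :=
  RepQs.cons (k := 16) tR16 tS16 (by decide)
theorem tR17 : RepQ (lay 77 10 6) 34 3 2 tZ17 (15 + 6 * 17) (Del 6 * HH 6 17 6) :=
  NOk.repQ (NOk.of tS17 tC17_0 0 34 3 (by decide)) (by decide)
theorem tS18 : RepQs (lay 77 10 6) 34 3 2 tQ18 18 :=
  RepQs.cons (k := 17) tR17 tS17 (by decide)
theorem tR18 : RepQ (lay 77 10 6) 33 3 2 tZ18 (15 + 6 * 18) (Del 6 * HH 6 18 6) :=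
  NOk.repQ (NOk.of tS18 tC18_0 1 33 3 (by decide)) (by decide)
theorem tS19 : RepQs (lay 77 10 6) 33 3 2 tQ19 19 :=
  RepQs.cons (k := 18) tR18 tS18 (by decide)
theorem tR19 : RepQ (lay 77 10 6) 33 3 2 tZ19 (15 + 6 * 19) (Del 6 * HH 6 19 6) :=
  NOk.repQ (NOk.of tS19 tC19_0 0 33 3 (by decide)) (by decide)
theorem tS20 : RepQs (lay 77 10 6) 33 3 2 tQ20 20 :=
  RepQs.cons (k := 19) tR19 tS19 (by decide)
theorem tR20 : RepQ (lay 77 10 6) 31 3 2 tZ20 (15 + 6 * 20) (Del 6 * HH 6 20 6) :=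
  NOk.repQ (NOk.of tS20 tC20_0 2 31 3 (by decide)) (by decide)
theorem tS21 : RepQs (lay 77 10 6) 31 3 2 tQ21 21 :=
  RepQs.cons (k := 20) tR20 tS20 (by decide)
theorem tR21 : RepQ (lay 77 10 6) 31 3 2 tZ21 (15 + 6 * 21) (Del 6 * HH 6 21 6) :=
  NOk.repQ (NOk.of tS21 tC21_0 0 31 3 (by decide)) (by decide)
theorem tS22 : RepQs (lay 77 10 6) 31 3 2 tQ22 22 :=
  RepQs.cons (k := 21) tR21 tS21 (by decide)
theorem tR22 : RepQ (lay 77 10 6) 30 3 2 tZ22 (15 + 6 * 22) (Del 6 * HH 6 22 6) :=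
  NOk.repQ (NOk.of tS22 tC22_0 1 30 3 (by decide)) (by decide)
theorem tS23 : RepQs (lay 77 10 6) 30 3 2 tQ23 23 :=
  RepQs.cons (k := 22) tR22 tS22 (by decide)
theorem tR23 : RepQ (lay 77 10 6) 30 3 2 tZ23 (15 + 6 * 23) (Del 6 * HH 6 23 6) :=
  NOk.repQ (NOk.of tS23 tC23_0 0 30 3 (by decide)) (by decide)
theorem tS24 : RepQs (lay 77 10 6) 30 3 2 tQ24 24 :=
  RepQs.cons (k := 23) tR23 tS23 (by decide)
theorem tR24 : RepQ (lay 77 10 6) 27 3 2 tZ24 (15 + 6 * 24) (Del 6 * HH 6 24 6) :=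
  NOk.repQ (NOk.of tS24 tC24_0 3 27 3 (by decide)) (by decide)
theorem tU11 : TrOk tT11 := TrOk.of tR11 tD11 (by decide)
theorem tU12 : TrOk tT12 := TrOk.of tR12 tD12 (by decide)
theorem tU13 : TrOk tT13 := TrOk.of tR13 tD13 (by decide)
theorem tU14 : TrOk tT14 := TrOk.of tR14 tD14 (by decide)
theorem tU15 : TrOk tT15 := TrOk.of tR15 tD15 (by decide)
theorem tU16 : TrOk tT16 := TrOk.of tR16 tD16 (by decide)
theorem tU17 : TrOk tT17 := TrOk.of tR17 tD17 (by decide)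
theorem tU18 : TrOk tT18 := TrOk.of tR18 tD18 (by decide)
theorem tU19 : TrOk tT19 := TrOk.of tR19 tD19 (by decide)
theorem tU20 : TrOk tT20 := TrOk.of tR20 tD20 (by decide)
theorem tU21 : TrOk tT21 := TrOk.of tR21 tD21 (by decide)
theorem tU22 : TrOk tT22 := TrOk.of tR22 tD22 (by decide)
theorem tU23 : TrOk tT23 := TrOk.of tR23 tD23 (by decide)
theorem tU24 : TrOk tT24 := TrOk.of tR24 tD24 (by decide)
theorem TT_ok : TrOk TT :=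
  (TrOk.node (TrOk.node (TrOk.node (TrOk.node (TrOk.node mU0 mU1) (TrOk.node mU2 mU3)) (TrOk.node (TrOk.node mU4 mU5) (TrOk.node mU6 mU7))) (TrOk.node (TrOk.node (TrOk.node mU8 mU9) (TrOk.node mU10 mU11)) (TrOk.node (TrOk.node mU12 mU13) (TrOk.node dU10 (TrOk.node dU11 dU12))))) (TrOk.node (TrOk.node (TrOk.node (TrOk.node dU13 dU14) (TrOk.node dU15 tU11)) (TrOk.node (TrOk.node tU12 tU13) (TrOk.node tU14 tU15))) (TrOk.node (TrOk.node (TrOk.node tU16 tU17) (TrOk.node tU18 tU19)) (TrOk.node (TrOk.node tU20 tU21) (TrOk.node tU22 (TrOk.node tU23 tU24))))))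
theorem rect_ok : RectOk :=
  ⟨TT_ok.pos 16 1 0 0 0 2 1 (by decide) rect1,
   TT_ok.pos 8 2 0 0 0 8 1 (by decide) rect2,
   TT_ok.pos 24 3 0 0 0 8 7 (by decide) rect3,
   TT_ok.pos 228 4 6 0 0 2 1 (by decide) rect4,
   TT_ok.pos 1012 5 6 6 0 2 1 (by decide) rect5,
   TT_ok.pos 1388 6 6 6 6 2 1 (by decide) rect6⟩
theorem NN_ok : NuOk NN := chkNu_spec TT_ok rect_ok NN_chk
theorem xE0_ok : RepC 78 (2 * 0 + 4) (15 + 5 * 0) xE0 (qOf (15 + 5 * 0) (PXE 0)) :=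
  xE_ok (yE_ok (EqOn'.of yE0_0 2 rfl) yE0_len (by decide))
    (EqOn'.of xE0_0 2 rfl) xE0_len (by decide)
theorem wE0_ok : RepC 78 (2 * 0 + 4) (15 + 6 * 0) wE0 (qOf (15 + 6 * 0) (PWE 0)) :=
  wE_ok (EqOn'.of wE0_0 2 rfl) wE0_len (by decide)
theorem xO0_ok : RepC 78 (2 * 0 + 4) (15 + 5 * 0) xO0 (qOf (15 + 5 * 0) (PXO 0)) :=
  xO_ok (yO_ok (EqOn'.of yO0_0 2 rfl) yO0_len (by decide))
    (EqOn'.of xO0_0 2 rfl) xO0_len (by decide)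
theorem wO0_ok : RepC 78 (2 * 0 + 4) (15 + 6 * 0) wO0 (qOf (15 + 6 * 0) (PWO 0)) :=
  wO_ok (EqOn'.of wO0_0 2 rfl) wO0_len (by decide)
theorem done0 : Done 0 1 1 :=
  (chkA_spec TT_ok NN_ok (by decide) xE0_ok xO0_ok wE0_ok wO0_ok fin0_0)
theorem xE1_ok : RepC 78 (2 * 1 + 4) (15 + 5 * 1) xE1 (qOf (15 + 5 * 1) (PXE 1)) :=
  xE_ok (yE_ok (EqOn'.of yE1_0 2 rfl) yE1_len (by decide))
    (EqOn'.of xE1_0 3 rfl) xE1_len (by decide)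
theorem wE1_ok : RepC 78 (2 * 1 + 4) (15 + 6 * 1) wE1 (qOf (15 + 6 * 1) (PWE 1)) :=
  wE_ok (EqOn'.of wE1_0 3 rfl) wE1_len (by decide)
theorem xO1_ok : RepC 78 (2 * 1 + 4) (15 + 5 * 1) xO1 (qOf (15 + 5 * 1) (PXO 1)) :=
  xO_ok (yO_ok (EqOn'.of yO1_0 2 rfl) yO1_len (by decide))
    (EqOn'.of xO1_0 3 rfl) xO1_len (by decide)
theorem wO1_ok : RepC 78 (2 * 1 + 4) (15 + 6 * 1) wO1 (qOf (15 + 6 * 1) (PWO 1)) :=
  wO_ok (EqOn'.of wO1_0 3 rfl) wO1_len (by decide)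
theorem done1 : Done 1 1 2 :=
  (chkA_spec TT_ok NN_ok (by decide) xE1_ok xO1_ok wE1_ok wO1_ok fin1_0)
theorem xE2_ok : RepC 78 (2 * 2 + 4) (15 + 5 * 2) xE2 (qOf (15 + 5 * 2) (PXE 2)) :=
  xE_ok (yE_ok (EqOn'.of yE2_0 2 rfl) yE2_len (by decide))
    (EqOn'.of xE2_0 4 rfl) xE2_len (by decide)
theorem wE2_ok : RepC 78 (2 * 2 + 4) (15 + 6 * 2) wE2 (qOf (15 + 6 * 2) (PWE 2)) :=
  wE_ok (EqOn'.of wE2_0 4 rfl) wE2_len (by decide)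
theorem xO2_ok : RepC 78 (2 * 2 + 4) (15 + 5 * 2) xO2 (qOf (15 + 5 * 2) (PXO 2)) :=
  xO_ok (yO_ok (EqOn'.of yO2_0 2 rfl) yO2_len (by decide))
    (EqOn'.of xO2_0 4 rfl) xO2_len (by decide)
theorem wO2_ok : RepC 78 (2 * 2 + 4) (15 + 6 * 2) wO2 (qOf (15 + 6 * 2) (PWO 2)) :=
  wO_ok (EqOn'.of wO2_0 4 rfl) wO2_len (by decide)
theorem done2 : Done 2 1 3 :=
  (chkA_spec TT_ok NN_ok (by decide) xE2_ok xO2_ok wE2_ok wO2_ok fin2_0)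
theorem xE3_ok : RepC 78 (2 * 3 + 4) (15 + 5 * 3) xE3 (qOf (15 + 5 * 3) (PXE 3)) :=
  xE_ok (yE_ok (EqOn'.of yE3_0 2 rfl) yE3_len (by decide))
    (EqOn'.of xE3_0 5 rfl) xE3_len (by decide)
theorem wE3_ok : RepC 78 (2 * 3 + 4) (15 + 6 * 3) wE3 (qOf (15 + 6 * 3) (PWE 3)) :=
  wE_ok (EqOn'.of wE3_0 5 rfl) wE3_len (by decide)
theorem xO3_ok : RepC 78 (2 * 3 + 4) (15 + 5 * 3) xO3 (qOf (15 + 5 * 3) (PXO 3)) :=
  xO_ok (yO_ok (EqOn'.of yO3_0 2 rfl) yO3_len (by decide))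
    (EqOn'.of xO3_0 5 rfl) xO3_len (by decide)
theorem wO3_ok : RepC 78 (2 * 3 + 4) (15 + 6 * 3) wO3 (qOf (15 + 6 * 3) (PWO 3)) :=
  wO_ok (EqOn'.of wO3_0 5 rfl) wO3_len (by decide)
theorem done3 : Done 3 1 4 :=
  (chkA_spec TT_ok NN_ok (by decide) xE3_ok xO3_ok wE3_ok wO3_ok fin3_0)
theorem xE4_ok : RepC 78 (2 * 4 + 4) (15 + 5 * 4) xE4 (qOf (15 + 5 * 4) (PXE 4)) :=
  xE_ok (yE_ok (EqOn'.of yE4_0 2 rfl) yE4_len (by decide))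
    (EqOn'.of xE4_0 6 rfl) xE4_len (by decide)
theorem wE4_ok : RepC 78 (2 * 4 + 4) (15 + 6 * 4) wE4 (qOf (15 + 6 * 4) (PWE 4)) :=
  wE_ok (EqOn'.of wE4_0 6 rfl) wE4_len (by decide)
theorem xO4_ok : RepC 78 (2 * 4 + 4) (15 + 5 * 4) xO4 (qOf (15 + 5 * 4) (PXO 4)) :=
  xO_ok (yO_ok (EqOn'.of yO4_0 2 rfl) yO4_len (by decide))
    (EqOn'.of xO4_0 6 rfl) xO4_len (by decide)
theorem wO4_ok : RepC 78 (2 * 4 + 4) (15 + 6 * 4) wO4 (qOf (15 + 6 * 4) (PWO 4)) :=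
  wO_ok (EqOn'.of wO4_0 6 rfl) wO4_len (by decide)
theorem done4 : Done 4 1 5 :=
  (chkA_spec TT_ok NN_ok (by decide) xE4_ok xO4_ok wE4_ok wO4_ok fin4_0)
theorem xE5_ok : RepC 78 (2 * 5 + 4) (15 + 5 * 5) xE5 (qOf (15 + 5 * 5) (PXE 5)) :=
  xE_ok (yE_ok (EqOn'.of yE5_0 2 rfl) yE5_len (by decide))
    (EqOn'.of xE5_0 7 rfl) xE5_len (by decide)
theorem wE5_ok : RepC 78 (2 * 5 + 4) (15 + 6 * 5) wE5 (qOf (15 + 6 * 5) (PWE 5)) :=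
  wE_ok (EqOn'.of wE5_0 8 rfl) wE5_len (by decide)
theorem xO5_ok : RepC 78 (2 * 5 + 4) (15 + 5 * 5) xO5 (qOf (15 + 5 * 5) (PXO 5)) :=
  xO_ok (yO_ok (EqOn'.of yO5_0 2 rfl) yO5_len (by decide))
    (EqOn'.of xO5_0 7 rfl) xO5_len (by decide)
theorem wO5_ok : RepC 78 (2 * 5 + 4) (15 + 6 * 5) wO5 (qOf (15 + 6 * 5) (PWO 5)) :=
  wO_ok (EqOn'.of wO5_0 8 rfl) wO5_len (by decide)
theorem done5 : Done 5 1 7 :=
  (chkA_spec TT_ok NN_ok (by decide) xE5_ok xO5_ok wE5_ok wO5_ok fin5_0)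
theorem xE6_ok : RepC 78 (2 * 6 + 4) (15 + 5 * 6) xE6 (qOf (15 + 5 * 6) (PXE 6)) :=
  xE_ok (yE_ok (EqOn'.of yE6_0 2 rfl) yE6_len (by decide))
    (EqOn'.of xE6_0 8 rfl) xE6_len (by decide)
theorem wE6_ok : RepC 78 (2 * 6 + 4) (15 + 6 * 6) wE6 (qOf (15 + 6 * 6) (PWE 6)) :=
  wE_ok (EqOn'.of wE6_0 9 rfl) wE6_len (by decide)
theorem xO6_ok : RepC 78 (2 * 6 + 4) (15 + 5 * 6) xO6 (qOf (15 + 5 * 6) (PXO 6)) :=
  xO_ok (yO_ok (EqOn'.of yO6_0 2 rfl) yO6_len (by decide))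
    (EqOn'.of xO6_0 8 rfl) xO6_len (by decide)
theorem wO6_ok : RepC 78 (2 * 6 + 4) (15 + 6 * 6) wO6 (qOf (15 + 6 * 6) (PWO 6)) :=
  wO_ok (EqOn'.of wO6_0 9 rfl) wO6_len (by decide)
theorem done6 : Done 6 1 8 :=
  (chkA_spec TT_ok NN_ok (by decide) xE6_ok xO6_ok wE6_ok wO6_ok fin6_0)
theorem xE7_ok : RepC 78 (2 * 7 + 4) (15 + 5 * 7) xE7 (qOf (15 + 5 * 7) (PXE 7)) :=
  xE_ok (yE_ok (EqOn'.of yE7_0 2 rfl) yE7_len (by decide))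
    (EqOn'.of xE7_0 9 rfl) xE7_len (by decide)
theorem wE7_ok : RepC 78 (2 * 7 + 4) (15 + 6 * 7) wE7 (qOf (15 + 6 * 7) (PWE 7)) :=
  wE_ok (EqOn'.of wE7_0 10 rfl) wE7_len (by decide)
theorem xO7_ok : RepC 78 (2 * 7 + 4) (15 + 5 * 7) xO7 (qOf (15 + 5 * 7) (PXO 7)) :=
  xO_ok (yO_ok (EqOn'.of yO7_0 2 rfl) yO7_len (by decide))
    (EqOn'.of xO7_0 9 rfl) xO7_len (by decide)
theorem wO7_ok : RepC 78 (2 * 7 + 4) (15 + 6 * 7) wO7 (qOf (15 + 6 * 7) (PWO 7)) :=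
  wO_ok (EqOn'.of wO7_0 10 rfl) wO7_len (by decide)
theorem done7 : Done 7 1 9 :=
  (chkA_spec TT_ok NN_ok (by decide) xE7_ok xO7_ok wE7_ok wO7_ok fin7_0)
theorem xE8_ok : RepC 78 (2 * 8 + 4) (15 + 5 * 8) xE8 (qOf (15 + 5 * 8) (PXE 8)) :=
  xE_ok (yE_ok (EqOn'.of yE8_0 2 rfl) yE8_len (by decide))
    (EqOn'.of xE8_0 10 rfl) xE8_len (by decide)
theorem wE8_ok : RepC 78 (2 * 8 + 4) (15 + 6 * 8) wE8 (qOf (15 + 6 * 8) (PWE 8)) :=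
  wE_ok (EqOn'.of wE8_0 11 rfl) wE8_len (by decide)
theorem xO8_ok : RepC 78 (2 * 8 + 4) (15 + 5 * 8) xO8 (qOf (15 + 5 * 8) (PXO 8)) :=
  xO_ok (yO_ok (EqOn'.of yO8_0 2 rfl) yO8_len (by decide))
    (EqOn'.of xO8_0 10 rfl) xO8_len (by decide)
theorem wO8_ok : RepC 78 (2 * 8 + 4) (15 + 6 * 8) wO8 (qOf (15 + 6 * 8) (PWO 8)) :=
  wO_ok (EqOn'.of wO8_0 11 rfl) wO8_len (by decide)
theorem done8 : Done 8 1 10 :=
  (chkA_spec TT_ok NN_ok (by decide) xE8_ok xO8_ok wE8_ok wO8_ok fin8_0)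
theorem xE9_ok : RepC 78 (2 * 9 + 4) (15 + 5 * 9) xE9 (qOf (15 + 5 * 9) (PXE 9)) :=
  xE_ok (yE_ok (EqOn'.of yE9_0 2 rfl) yE9_len (by decide))
    (EqOn'.of xE9_0 11 rfl) xE9_len (by decide)
theorem wE9_ok : RepC 78 (2 * 9 + 4) (15 + 6 * 9) wE9 (qOf (15 + 6 * 9) (PWE 9)) :=
  wE_ok (EqOn'.of wE9_0 12 rfl) wE9_len (by decide)
theorem xO9_ok : RepC 78 (2 * 9 + 4) (15 + 5 * 9) xO9 (qOf (15 + 5 * 9) (PXO 9)) :=
  xO_ok (yO_ok (EqOn'.of yO9_0 2 rfl) yO9_len (by decide))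
    (EqOn'.of xO9_0 11 rfl) xO9_len (by decide)
theorem wO9_ok : RepC 78 (2 * 9 + 4) (15 + 6 * 9) wO9 (qOf (15 + 6 * 9) (PWO 9)) :=
  wO_ok (EqOn'.of wO9_0 12 rfl) wO9_len (by decide)
theorem done9 : Done 9 1 11 :=
  (chkA_spec TT_ok NN_ok (by decide) xE9_ok xO9_ok wE9_ok wO9_ok fin9_0)
theorem xE10_ok : RepC 78 (2 * 10 + 4) (15 + 5 * 10) xE10 (qOf (15 + 5 * 10) (PXE 10)) :=
  xE_ok (yE_ok (EqOn'.of yE10_0 2 rfl) yE10_len (by decide))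
    (EqOn'.of xE10_0 12 rfl) xE10_len (by decide)
theorem wE10_ok : RepC 78 (2 * 10 + 4) (15 + 6 * 10) wE10 (qOf (15 + 6 * 10) (PWE 10)) :=
  wE_ok (EqOn'.of wE10_0 14 rfl) wE10_len (by decide)
theorem xO10_ok : RepC 78 (2 * 10 + 4) (15 + 5 * 10) xO10 (qOf (15 + 5 * 10) (PXO 10)) :=
  xO_ok (yO_ok (EqOn'.of yO10_0 2 rfl) yO10_len (by decide))
    (EqOn'.of xO10_0 12 rfl) xO10_len (by decide)
theorem wO10_ok : RepC 78 (2 * 10 + 4) (15 + 6 * 10) wO10 (qOf (15 + 6 * 10) (PWO 10)) :=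
  wO_ok (EqOn'.of wO10_0 14 rfl) wO10_len (by decide)
theorem done10 : Done 10 1 13 :=
  (chkA_spec TT_ok NN_ok (by decide) xE10_ok xO10_ok wE10_ok wO10_ok fin10_0)
theorem xE11_ok : RepC 78 (2 * 11 + 4) (15 + 5 * 11) xE11 (qOf (15 + 5 * 11) (PXE 11)) :=
  xE_ok (yE_ok (EqOn'.of yE11_0 2 rfl) yE11_len (by decide))
    (EqOn'.of xE11_0 13 rfl) xE11_len (by decide)
theorem wE11_ok : RepC 78 (2 * 11 + 4) (15 + 6 * 11) wE11 (qOf (15 + 6 * 11) (PWE 11)) :=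
  wE_ok (EqOn'.of wE11_0 15 rfl) wE11_len (by decide)
theorem xO11_ok : RepC 78 (2 * 11 + 4) (15 + 5 * 11) xO11 (qOf (15 + 5 * 11) (PXO 11)) :=
  xO_ok (yO_ok (EqOn'.of yO11_0 2 rfl) yO11_len (by decide))
    (EqOn'.of xO11_0 13 rfl) xO11_len (by decide)
theorem wO11_ok : RepC 78 (2 * 11 + 4) (15 + 6 * 11) wO11 (qOf (15 + 6 * 11) (PWO 11)) :=
  wO_ok (EqOn'.of wO11_0 15 rfl) wO11_len (by decide)
theorem done11 : Done 11 1 14 :=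
  (chkA_spec TT_ok NN_ok (by decide) xE11_ok xO11_ok wE11_ok wO11_ok fin11_0)
theorem xE12_ok : RepC 78 (2 * 12 + 4) (15 + 5 * 12) xE12 (qOf (15 + 5 * 12) (PXE 12)) :=
  xE_ok (yE_ok (EqOn'.of yE12_0 2 rfl) yE12_len (by decide))
    (EqOn'.of xE12_0 14 rfl) xE12_len (by decide)
theorem wE12_ok : RepC 78 (2 * 12 + 4) (15 + 6 * 12) wE12 (qOf (15 + 6 * 12) (PWE 12)) :=
  wE_ok (EqOn'.of wE12_0 16 rfl) wE12_len (by decide)
theorem xO12_ok : RepC 78 (2 * 12 + 4) (15 + 5 * 12) xO12 (qOf (15 + 5 * 12) (PXO 12)) :=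
  xO_ok (yO_ok (EqOn'.of yO12_0 2 rfl) yO12_len (by decide))
    (EqOn'.of xO12_0 14 rfl) xO12_len (by decide)
theorem wO12_ok : RepC 78 (2 * 12 + 4) (15 + 6 * 12) wO12 (qOf (15 + 6 * 12) (PWO 12)) :=
  wO_ok (EqOn'.of wO12_0 16 rfl) wO12_len (by decide)
theorem done12 : Done 12 1 15 :=
  (chkA_spec TT_ok NN_ok (by decide) xE12_ok xO12_ok wE12_ok wO12_ok fin12_0)
theorem xE13_ok : RepC 78 (2 * 13 + 4) (15 + 5 * 13) xE13 (qOf (15 + 5 * 13) (PXE 13)) :=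
  xE_ok (yE_ok (EqOn'.of yE13_0 2 rfl) yE13_len (by decide))
    (EqOn'.of xE13_0 15 rfl) xE13_len (by decide)
theorem wE13_ok : RepC 78 (2 * 13 + 4) (15 + 6 * 13) wE13 (qOf (15 + 6 * 13) (PWE 13)) :=
  wE_ok (EqOn'.of wE13_0 17 rfl) wE13_len (by decide)
theorem xO13_ok : RepC 78 (2 * 13 + 4) (15 + 5 * 13) xO13 (qOf (15 + 5 * 13) (PXO 13)) :=
  xO_ok (yO_ok (EqOn'.of yO13_0 2 rfl) yO13_len (by decide))
    (EqOn'.of xO13_0 15 rfl) xO13_len (by decide)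
theorem wO13_ok : RepC 78 (2 * 13 + 4) (15 + 6 * 13) wO13 (qOf (15 + 6 * 13) (PWO 13)) :=
  wO_ok (EqOn'.of wO13_0 17 rfl) wO13_len (by decide)
theorem done13 : Done 13 1 16 :=
  (chkA_spec TT_ok NN_ok (by decide) xE13_ok xO13_ok wE13_ok wO13_ok fin13_0)
theorem xE14_ok : RepC 78 (2 * 14 + 4) (15 + 5 * 14) xE14 (qOf (15 + 5 * 14) (PXE 14)) :=
  xE_ok (yE_ok (EqOn'.of yE14_0 2 rfl) yE14_len (by decide))
    (EqOn'.of xE14_0 16 rfl) xE14_len (by decide)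
theorem wE14_ok : RepC 78 (2 * 14 + 4) (15 + 6 * 14) wE14 (qOf (15 + 6 * 14) (PWE 14)) :=
  wE_ok (EqOn'.of wE14_0 18 rfl) wE14_len (by decide)
theorem xO14_ok : RepC 78 (2 * 14 + 4) (15 + 5 * 14) xO14 (qOf (15 + 5 * 14) (PXO 14)) :=
  xO_ok (yO_ok (EqOn'.of yO14_0 2 rfl) yO14_len (by decide))
    (EqOn'.of xO14_0 16 rfl) xO14_len (by decide)
theorem wO14_ok : RepC 78 (2 * 14 + 4) (15 + 6 * 14) wO14 (qOf (15 + 6 * 14) (PWO 14)) :=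
  wO_ok (EqOn'.of wO14_0 18 rfl) wO14_len (by decide)
theorem done14 : Done 14 1 17 :=
  (Done.app (chkA_spec TT_ok NN_ok (by decide) xE14_ok xO14_ok wE14_ok wO14_ok fin14_0)
    (chkA_spec TT_ok NN_ok (by decide) xE14_ok xO14_ok wE14_ok wO14_ok fin14_1) 17 (by decide))
theorem xE15_ok : RepC 78 (2 * 15 + 4) (15 + 5 * 15) xE15 (qOf (15 + 5 * 15) (PXE 15)) :=
  xE_ok (yE_ok (EqOn'.of yE15_0 2 rfl) yE15_len (by decide))
    (EqOn'.of xE15_0 17 rfl) xE15_len (by decide)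
theorem wE15_ok : RepC 78 (2 * 15 + 4) (15 + 6 * 15) wE15 (qOf (15 + 6 * 15) (PWE 15)) :=
  wE_ok (EqOn'.of wE15_0 20 rfl) wE15_len (by decide)
theorem xO15_ok : RepC 78 (2 * 15 + 4) (15 + 5 * 15) xO15 (qOf (15 + 5 * 15) (PXO 15)) :=
  xO_ok (yO_ok (EqOn'.of yO15_0 2 rfl) yO15_len (by decide))
    (EqOn'.of xO15_0 17 rfl) xO15_len (by decide)
theorem wO15_ok : RepC 78 (2 * 15 + 4) (15 + 6 * 15) wO15 (qOf (15 + 6 * 15) (PWO 15)) :=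
  wO_ok (EqOn'.of wO15_0 20 rfl) wO15_len (by decide)
theorem done15 : Done 15 1 19 :=
  (Done.app (chkA_spec TT_ok NN_ok (by decide) xE15_ok xO15_ok wE15_ok wO15_ok fin15_0)
    (chkA_spec TT_ok NN_ok (by decide) xE15_ok xO15_ok wE15_ok wO15_ok fin15_1) 19 (by decide))
theorem xE16_ok : RepC 78 (2 * 16 + 4) (15 + 5 * 16) xE16 (qOf (15 + 5 * 16) (PXE 16)) :=
  xE_ok (yE_ok (EqOn'.of yE16_0 2 rfl) yE16_len (by decide))
    (EqOn'.of xE16_0 18 rfl) xE16_len (by decide)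
theorem wE16_ok : RepC 78 (2 * 16 + 4) (15 + 6 * 16) wE16 (qOf (15 + 6 * 16) (PWE 16)) :=
  wE_ok (EqOn'.of wE16_0 21 rfl) wE16_len (by decide)
theorem xO16_ok : RepC 78 (2 * 16 + 4) (15 + 5 * 16) xO16 (qOf (15 + 5 * 16) (PXO 16)) :=
  xO_ok (yO_ok (EqOn'.of yO16_0 2 rfl) yO16_len (by decide))
    (EqOn'.of xO16_0 18 rfl) xO16_len (by decide)
theorem wO16_ok : RepC 78 (2 * 16 + 4) (15 + 6 * 16) wO16 (qOf (15 + 6 * 16) (PWO 16)) :=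
  wO_ok (EqOn'.of wO16_0 21 rfl) wO16_len (by decide)
theorem done16 : Done 16 1 20 :=
  (Done.app (chkA_spec TT_ok NN_ok (by decide) xE16_ok xO16_ok wE16_ok wO16_ok fin16_0)
    (chkA_spec TT_ok NN_ok (by decide) xE16_ok xO16_ok wE16_ok wO16_ok fin16_1) 20 (by decide))
theorem xE17_ok : RepC 78 (2 * 17 + 4) (15 + 5 * 17) xE17 (qOf (15 + 5 * 17) (PXE 17)) :=
  xE_ok (yE_ok (EqOn'.of yE17_0 2 rfl) yE17_len (by decide))
    (EqOn'.of xE17_0 19 rfl) xE17_len (by decide)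
theorem wE17_ok : RepC 78 (2 * 17 + 4) (15 + 6 * 17) wE17 (qOf (15 + 6 * 17) (PWE 17)) :=
  wE_ok (EqOn'.app (EqOn'.of wE17_0 11 rfl) (EqOn'.of wE17_1 22 rfl)) wE17_len (by decide)
theorem xO17_ok : RepC 78 (2 * 17 + 4) (15 + 5 * 17) xO17 (qOf (15 + 5 * 17) (PXO 17)) :=
  xO_ok (yO_ok (EqOn'.of yO17_0 2 rfl) yO17_len (by decide))
    (EqOn'.app (EqOn'.of xO17_0 9 rfl) (EqOn'.of xO17_1 19 rfl)) xO17_len (by decide)
theorem wO17_ok : RepC 78 (2 * 17 + 4) (15 + 6 * 17) wO17 (qOf (15 + 6 * 17) (PWO 17)) :=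
  wO_ok (EqOn'.app (EqOn'.of wO17_0 11 rfl) (EqOn'.of wO17_1 22 rfl)) wO17_len (by decide)
theorem done17 : Done 17 1 21 :=
  (Done.app (Done.app (chkA_spec TT_ok NN_ok (by decide) xE17_ok xO17_ok wE17_ok wO17_ok fin17_0)
    (chkA_spec TT_ok NN_ok (by decide) xE17_ok xO17_ok wE17_ok wO17_ok fin17_1) 14 (by decide))
    (chkA_spec TT_ok NN_ok (by decide) xE17_ok xO17_ok wE17_ok wO17_ok fin17_2) 21 (by decide))
theorem xE18_ok : RepC 78 (2 * 18 + 4) (15 + 5 * 18) xE18 (qOf (15 + 5 * 18) (PXE 18)) :=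
  xE_ok (yE_ok (EqOn'.of yE18_0 2 rfl) yE18_len (by decide))
    (EqOn'.of xE18_0 20 rfl) xE18_len (by decide)
theorem wE18_ok : RepC 78 (2 * 18 + 4) (15 + 6 * 18) wE18 (qOf (15 + 6 * 18) (PWE 18)) :=
  wE_ok (EqOn'.app (EqOn'.of wE18_0 11 rfl) (EqOn'.of wE18_1 23 rfl)) wE18_len (by decide)
theorem xO18_ok : RepC 78 (2 * 18 + 4) (15 + 5 * 18) xO18 (qOf (15 + 5 * 18) (PXO 18)) :=
  xO_ok (yO_ok (EqOn'.of yO18_0 2 rfl) yO18_len (by decide))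
    (EqOn'.app (EqOn'.of xO18_0 10 rfl) (EqOn'.of xO18_1 20 rfl)) xO18_len (by decide)
theorem wO18_ok : RepC 78 (2 * 18 + 4) (15 + 6 * 18) wO18 (qOf (15 + 6 * 18) (PWO 18)) :=
  wO_ok (EqOn'.app (EqOn'.of wO18_0 11 rfl) (EqOn'.of wO18_1 23 rfl)) wO18_len (by decide)
theorem done18 : Done 18 1 22 :=
  (Done.app (Done.app (chkA_spec TT_ok NN_ok (by decide) xE18_ok xO18_ok wE18_ok wO18_ok fin18_0)
    (chkA_spec TT_ok NN_ok (by decide) xE18_ok xO18_ok wE18_ok wO18_ok fin18_1) 10 (by decide))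
    (chkA_spec TT_ok NN_ok (by decide) xE18_ok xO18_ok wE18_ok wO18_ok fin18_2) 22 (by decide))
theorem xE19_ok : RepC 78 (2 * 19 + 4) (15 + 5 * 19) xE19 (qOf (15 + 5 * 19) (PXE 19)) :=
  xE_ok (yE_ok (EqOn'.of yE19_0 2 rfl) yE19_len (by decide))
    (EqOn'.of xE19_0 21 rfl) xE19_len (by decide)
theorem wE19_ok : RepC 78 (2 * 19 + 4) (15 + 6 * 19) wE19 (qOf (15 + 6 * 19) (PWE 19)) :=
  wE_ok (EqOn'.app (EqOn'.of wE19_0 12 rfl) (EqOn'.of wE19_1 24 rfl)) wE19_len (by decide)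
theorem xO19_ok : RepC 78 (2 * 19 + 4) (15 + 5 * 19) xO19 (qOf (15 + 5 * 19) (PXO 19)) :=
  xO_ok (yO_ok (EqOn'.of yO19_0 2 rfl) yO19_len (by decide))
    (EqOn'.app (EqOn'.of xO19_0 10 rfl) (EqOn'.of xO19_1 21 rfl)) xO19_len (by decide)
theorem wO19_ok : RepC 78 (2 * 19 + 4) (15 + 6 * 19) wO19 (qOf (15 + 6 * 19) (PWO 19)) :=
  wO_ok (EqOn'.app (EqOn'.of wO19_0 12 rfl) (EqOn'.of wO19_1 24 rfl)) wO19_len (by decide)
theorem done19 : Done 19 1 23 :=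
  (Done.app (Done.app (Done.app (chkA_spec TT_ok NN_ok (by decide) xE19_ok xO19_ok wE19_ok wO19_ok fin19_0)
    (chkA_spec TT_ok NN_ok (by decide) xE19_ok xO19_ok wE19_ok wO19_ok fin19_1) 7 (by decide))
    (chkA_spec TT_ok NN_ok (by decide) xE19_ok xO19_ok wE19_ok wO19_ok fin19_2) 13 (by decide))
    (chkA_spec TT_ok NN_ok (by decide) xE19_ok xO19_ok wE19_ok wO19_ok fin19_3) 23 (by decide))
theorem xE20_ok : RepC 78 (2 * 20 + 4) (15 + 5 * 20) xE20 (qOf (15 + 5 * 20) (PXE 20)) :=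
  xE_ok (yE_ok (EqOn'.of yE20_0 2 rfl) yE20_len (by decide))
    (EqOn'.app (EqOn'.of xE20_0 11 rfl) (EqOn'.of xE20_1 22 rfl)) xE20_len (by decide)
theorem wE20_ok : RepC 78 (2 * 20 + 4) (15 + 6 * 20) wE20 (qOf (15 + 6 * 20) (PWE 20)) :=
  wE_ok (EqOn'.app (EqOn'.of wE20_0 13 rfl) (EqOn'.of wE20_1 26 rfl)) wE20_len (by decide)
theorem xO20_ok : RepC 78 (2 * 20 + 4) (15 + 5 * 20) xO20 (qOf (15 + 5 * 20) (PXO 20)) :=
  xO_ok (yO_ok (EqOn'.of yO20_0 2 rfl) yO20_len (by decide))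
    (EqOn'.app (EqOn'.of xO20_0 11 rfl) (EqOn'.of xO20_1 22 rfl)) xO20_len (by decide)
theorem wO20_ok : RepC 78 (2 * 20 + 4) (15 + 6 * 20) wO20 (qOf (15 + 6 * 20) (PWO 20)) :=
  wO_ok (EqOn'.app (EqOn'.of wO20_0 13 rfl) (EqOn'.of wO20_1 26 rfl)) wO20_len (by decide)
theorem done20 : Done 20 1 25 :=
  (Done.app (Done.app (Done.app (chkA_spec TT_ok NN_ok (by decide) xE20_ok xO20_ok wE20_ok wO20_ok fin20_0)
    (chkA_spec TT_ok NN_ok (by decide) xE20_ok xO20_ok wE20_ok wO20_ok fin20_1) 7 (by decide))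
    (chkA_spec TT_ok NN_ok (by decide) xE20_ok xO20_ok wE20_ok wO20_ok fin20_2) 12 (by decide))
    (chkA_spec TT_ok NN_ok (by decide) xE20_ok xO20_ok wE20_ok wO20_ok fin20_3) 25 (by decide))
theorem xE21_ok : RepC 78 (2 * 21 + 4) (15 + 5 * 21) xE21 (qOf (15 + 5 * 21) (PXE 21)) :=
  xE_ok (yE_ok (EqOn'.of yE21_0 2 rfl) yE21_len (by decide))
    (EqOn'.app (EqOn'.of xE21_0 11 rfl) (EqOn'.of xE21_1 23 rfl)) xE21_len (by decide)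
theorem wE21_ok : RepC 78 (2 * 21 + 4) (15 + 6 * 21) wE21 (qOf (15 + 6 * 21) (PWE 21)) :=
  wE_ok (EqOn'.app (EqOn'.app (EqOn'.of wE21_0 9 rfl) (EqOn'.of wE21_1 18 rfl)) (EqOn'.of wE21_2 27 rfl)) wE21_len (by decide)
theorem xO21_ok : RepC 78 (2 * 21 + 4) (15 + 5 * 21) xO21 (qOf (15 + 5 * 21) (PXO 21)) :=
  xO_ok (yO_ok (EqOn'.of yO21_0 2 rfl) yO21_len (by decide))
    (EqOn'.app (EqOn'.app (EqOn'.of xO21_0 7 rfl) (EqOn'.of xO21_1 15 rfl)) (EqOn'.of xO21_2 23 rfl)) xO21_len (by decide)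
theorem wO21_ok : RepC 78 (2 * 21 + 4) (15 + 6 * 21) wO21 (qOf (15 + 6 * 21) (PWO 21)) :=
  wO_ok (EqOn'.app (EqOn'.app (EqOn'.of wO21_0 9 rfl) (EqOn'.of wO21_1 18 rfl)) (EqOn'.of wO21_2 27 rfl)) wO21_len (by decide)
theorem done21 : Done 21 1 26 :=
  (Done.app (Done.app (Done.app (Done.app (Done.app (chkA_spec TT_ok NN_ok (by decide) xE21_ok xO21_ok wE21_ok wO21_ok fin21_0)
    (chkA_spec TT_ok NN_ok (by decide) xE21_ok xO21_ok wE21_ok wO21_ok fin21_1) 5 (by decide))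
    (chkA_spec TT_ok NN_ok (by decide) xE21_ok xO21_ok wE21_ok wO21_ok fin21_2) 8 (by decide))
    (chkA_spec TT_ok NN_ok (by decide) xE21_ok xO21_ok wE21_ok wO21_ok fin21_3) 12 (by decide))
    (chkA_spec TT_ok NN_ok (by decide) xE21_ok xO21_ok wE21_ok wO21_ok fin21_4) 19 (by decide))
    (chkA_spec TT_ok NN_ok (by decide) xE21_ok xO21_ok wE21_ok wO21_ok fin21_5) 26 (by decide))
theorem xE22_ok : RepC 78 (2 * 22 + 4) (15 + 5 * 22) xE22 (qOf (15 + 5 * 22) (PXE 22)) :=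
  xE_ok (yE_ok (EqOn'.of yE22_0 2 rfl) yE22_len (by decide))
    (EqOn'.app (EqOn'.of xE22_0 12 rfl) (EqOn'.of xE22_1 24 rfl)) xE22_len (by decide)
theorem wE22_ok : RepC 78 (2 * 22 + 4) (15 + 6 * 22) wE22 (qOf (15 + 6 * 22) (PWE 22)) :=
  wE_ok (EqOn'.app (EqOn'.app (EqOn'.of wE22_0 9 rfl) (EqOn'.of wE22_1 18 rfl)) (EqOn'.of wE22_2 28 rfl)) wE22_len (by decide)
theorem xO22_ok : RepC 78 (2 * 22 + 4) (15 + 5 * 22) xO22 (qOf (15 + 5 * 22) (PXO 22)) :=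
  xO_ok (yO_ok (EqOn'.of yO22_0 2 rfl) yO22_len (by decide))
    (EqOn'.app (EqOn'.app (EqOn'.of xO22_0 8 rfl) (EqOn'.of xO22_1 16 rfl)) (EqOn'.of xO22_2 24 rfl)) xO22_len (by decide)
theorem wO22_ok : RepC 78 (2 * 22 + 4) (15 + 6 * 22) wO22 (qOf (15 + 6 * 22) (PWO 22)) :=
  wO_ok (EqOn'.app (EqOn'.app (EqOn'.of wO22_0 9 rfl) (EqOn'.of wO22_1 18 rfl)) (EqOn'.of wO22_2 28 rfl)) wO22_len (by decide)
theorem done22 : Done 22 1 27 :=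
  (Done.app (Done.app (Done.app (Done.app (Done.app (Done.app (chkA_spec TT_ok NN_ok (by decide) xE22_ok xO22_ok wE22_ok wO22_ok fin22_0)
    (chkA_spec TT_ok NN_ok (by decide) xE22_ok xO22_ok wE22_ok wO22_ok fin22_1) 4 (by decide))
    (chkA_spec TT_ok NN_ok (by decide) xE22_ok xO22_ok wE22_ok wO22_ok fin22_2) 7 (by decide))
    (chkA_spec TT_ok NN_ok (by decide) xE22_ok xO22_ok wE22_ok wO22_ok fin22_3) 10 (by decide))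
    (chkA_spec TT_ok NN_ok (by decide) xE22_ok xO22_ok wE22_ok wO22_ok fin22_4) 14 (by decide))
    (chkA_spec TT_ok NN_ok (by decide) xE22_ok xO22_ok wE22_ok wO22_ok fin22_5) 21 (by decide))
    (chkA_spec TT_ok NN_ok (by decide) xE22_ok xO22_ok wE22_ok wO22_ok fin22_6) 27 (by decide))
theorem xE23_ok : RepC 78 (2 * 23 + 4) (15 + 5 * 23) xE23 (qOf (15 + 5 * 23) (PXE 23)) :=
  xE_ok (yE_ok (EqOn'.of yE23_0 2 rfl) yE23_len (by decide))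
    (EqOn'.app (EqOn'.of xE23_0 12 rfl) (EqOn'.of xE23_1 25 rfl)) xE23_len (by decide)
theorem wE23_ok : RepC 78 (2 * 23 + 4) (15 + 6 * 23) wE23 (qOf (15 + 6 * 23) (PWE 23)) :=
  wE_ok (EqOn'.app (EqOn'.app (EqOn'.app (EqOn'.of wE23_0 7 rfl) (EqOn'.of wE23_1 14 rfl)) (EqOn'.of wE23_2 21 rfl)) (EqOn'.of wE23_3 29 rfl)) wE23_len (by decide)
theorem xO23_ok : RepC 78 (2 * 23 + 4) (15 + 5 * 23) xO23 (qOf (15 + 5 * 23) (PXO 23)) :=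
  xO_ok (yO_ok (EqOn'.of yO23_0 2 rfl) yO23_len (by decide))
    (EqOn'.app (EqOn'.app (EqOn'.app (EqOn'.of xO23_0 6 rfl) (EqOn'.of xO23_1 12 rfl)) (EqOn'.of xO23_2 18 rfl)) (EqOn'.of xO23_3 25 rfl)) xO23_len (by decide)
theorem wO23_ok : RepC 78 (2 * 23 + 4) (15 + 6 * 23) wO23 (qOf (15 + 6 * 23) (PWO 23)) :=
  wO_ok (EqOn'.app (EqOn'.app (EqOn'.app (EqOn'.of wO23_0 7 rfl) (EqOn'.of wO23_1 14 rfl)) (EqOn'.of wO23_2 21 rfl)) (EqOn'.of wO23_3 29 rfl)) wO23_len (by decide)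
theorem done23 : Done 23 1 28 :=
  (Done.app (Done.app (Done.app (Done.app (Done.app (Done.app (Done.app (chkA_spec TT_ok NN_ok (by decide) xE23_ok xO23_ok wE23_ok wO23_ok fin23_0)
    (chkA_spec TT_ok NN_ok (by decide) xE23_ok xO23_ok wE23_ok wO23_ok fin23_1) 4 (by decide))
    (chkA_spec TT_ok NN_ok (by decide) xE23_ok xO23_ok wE23_ok wO23_ok fin23_2) 6 (by decide))
    (chkA_spec TT_ok NN_ok (by decide) xE23_ok xO23_ok wE23_ok wO23_ok fin23_3) 9 (by decide))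
    (chkA_spec TT_ok NN_ok (by decide) xE23_ok xO23_ok wE23_ok wO23_ok fin23_4) 12 (by decide))
    (chkA_spec TT_ok NN_ok (by decide) xE23_ok xO23_ok wE23_ok wO23_ok fin23_5) 16 (by decide))
    (chkA_spec TT_ok NN_ok (by decide) xE23_ok xO23_ok wE23_ok wO23_ok fin23_6) 24 (by decide))
    (chkA_spec TT_ok NN_ok (by decide) xE23_ok xO23_ok wE23_ok wO23_ok fin23_7) 28 (by decide))
theorem xE24_ok : RepC 78 (2 * 24 + 4) (15 + 5 * 24) xE24 (qOf (15 + 5 * 24) (PXE 24)) :=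
  xE_ok (yE_ok (EqOn'.of yE24_0 2 rfl) yE24_len (by decide))
    (EqOn'.app (EqOn'.of xE24_0 13 rfl) (EqOn'.of xE24_1 26 rfl)) xE24_len (by decide)
theorem wE24_ok : RepC 78 (2 * 24 + 4) (15 + 6 * 24) wE24 (qOf (15 + 6 * 24) (PWE 24)) :=
  wE_ok (EqOn'.app (EqOn'.app (EqOn'.app (EqOn'.of wE24_0 7 rfl) (EqOn'.of wE24_1 15 rfl)) (EqOn'.of wE24_2 22 rfl)) (EqOn'.of wE24_3 30 rfl)) wE24_len (by decide)
theorem xO24_ok : RepC 78 (2 * 24 + 4) (15 + 5 * 24) xO24 (qOf (15 + 5 * 24) (PXO 24)) :=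
  xO_ok (yO_ok (EqOn'.of yO24_0 2 rfl) yO24_len (by decide))
    (EqOn'.app (EqOn'.app (EqOn'.app (EqOn'.of xO24_0 6 rfl) (EqOn'.of xO24_1 13 rfl)) (EqOn'.of xO24_2 19 rfl)) (EqOn'.of xO24_3 26 rfl)) xO24_len (by decide)
theorem wO24_ok : RepC 78 (2 * 24 + 4) (15 + 6 * 24) wO24 (qOf (15 + 6 * 24) (PWO 24)) :=
  wO_ok (EqOn'.app (EqOn'.app (EqOn'.app (EqOn'.of wO24_0 7 rfl) (EqOn'.of wO24_1 15 rfl)) (EqOn'.of wO24_2 22 rfl)) (EqOn'.of wO24_3 30 rfl)) wO24_len (by decide)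
theorem done24 : Done 24 1 29 :=
  (Done.app (Done.app (Done.app (Done.app (Done.app (Done.app (Done.app (Done.app (chkA_spec TT_ok NN_ok (by decide) xE24_ok xO24_ok wE24_ok wO24_ok fin24_0)
    (chkA_spec TT_ok NN_ok (by decide) xE24_ok xO24_ok wE24_ok wO24_ok fin24_1) 4 (by decide))
    (chkA_spec TT_ok NN_ok (by decide) xE24_ok xO24_ok wE24_ok wO24_ok fin24_2) 6 (by decide))
    (chkA_spec TT_ok NN_ok (by decide) xE24_ok xO24_ok wE24_ok wO24_ok fin24_3) 8 (by decide))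
    (chkA_spec TT_ok NN_ok (by decide) xE24_ok xO24_ok wE24_ok wO24_ok fin24_4) 11 (by decide))
    (chkA_spec TT_ok NN_ok (by decide) xE24_ok xO24_ok wE24_ok wO24_ok fin24_5) 14 (by decide))
    (chkA_spec TT_ok NN_ok (by decide) xE24_ok xO24_ok wE24_ok wO24_ok fin24_6) 18 (by decide))
    (chkA_spec TT_ok NN_ok (by decide) xE24_ok xO24_ok wE24_ok wO24_ok fin24_7) 26 (by decide))
    (chkA_spec TT_ok NN_ok (by decide) xE24_ok xO24_ok wE24_ok wO24_ok fin24_8) 29 (by decide))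
theorem numeric : Numeric := numeric_of_done fun b hb => by
  interval_cases b
  · exact ⟨_, by decide, done0⟩
  · exact ⟨_, by decide, done1⟩
  · exact ⟨_, by decide, done2⟩
  · exact ⟨_, by decide, done3⟩
  · exact ⟨_, by decide, done4⟩
  · exact ⟨_, by decide, done5⟩
  · exact ⟨_, by decide, done6⟩
  · exact ⟨_, by decide, done7⟩
  · exact ⟨_, by decide, done8⟩
  · exact ⟨_, by decide, done9⟩
  · exact ⟨_, by decide, done10⟩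
  · exact ⟨_, by decide, done11⟩
  · exact ⟨_, by decide, done12⟩
  · exact ⟨_, by decide, done13⟩
  · exact ⟨_, by decide, done14⟩
  · exact ⟨_, by decide, done15⟩
  · exact ⟨_, by decide, done16⟩
  · exact ⟨_, by decide, done17⟩
  · exact ⟨_, by decide, done18⟩
  · exact ⟨_, by decide, done19⟩
  · exact ⟨_, by decide, done20⟩
  · exact ⟨_, by decide, done21⟩
  · exact ⟨_, by decide, done22⟩
  · exact ⟨_, by decide, done23⟩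
  · exact ⟨_, by decide, done24⟩
theorem six_pos : 0 < mult (HH 6 6 6) (6 • ones 6) := by
  rw [six_ones]
  exact rect_ok.r6

end Crest.Agent.R187.Num
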