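import Crest.Agent.R187.Pieri

set_option autoImplicit false
open MvPolynomial Crest.AlgebraR.FoulkesHowe Module

namespace Crest.Agent.R187


/-- restriction to the open Weyl chamber (degree `D`, first exponent implicit, last exponent zero) -/
def chm (D : ℕ) (q : ℕ → ℕ → ℕ → ℕ → ℤ) (e2 e3 e4 e5 : ℕ) : ℤ :=
  if e3 < e2 ∧ e4 < e3 ∧ e5 < e4 ∧ 2 * e2 + e3 + e4 + e5 < D then q e2 e3 e4 e5 else 0

def pA (D : ℕ) (q : ℕ → ℕ → ℕ → ℕ → ℤ) (j e2 e3 e4 e5 : ℕ) : ℤ :=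
  if j < e5 ∧ e5 < e4 then chm D q e2 e3 e4 (e5 - j) else 0

def p4 (D : ℕ) (q : ℕ → ℕ → ℕ → ℕ → ℤ) : ℕ → ℕ → ℕ → ℕ → ℕ → ℤ
  | 0 => pA D q 0
  | j + 1 => fun e2 e3 e4 e5 => pA D q (j + 1) e2 e3 e4 e5 +
      chm (D + (j + 1)) (fun e2 e3 e4 e5 => p4 D q j e2 e3 (e4 - 1) e5) e2 e3 e4 e5

def p3 (D : ℕ) (q : ℕ → ℕ → ℕ → ℕ → ℤ) : ℕ → ℕ → ℕ → ℕ → ℕ → ℤ
  | 0 => p4 D q 0
  | j + 1 => fun e2 e3 e4 e5 => p4 D q (j + 1) e2 e3 e4 e5 +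
      chm (D + (j + 1)) (fun e2 e3 e4 e5 => p3 D q j e2 (e3 - 1) e4 e5) e2 e3 e4 e5

def p2 (D : ℕ) (q : ℕ → ℕ → ℕ → ℕ → ℤ) : ℕ → ℕ → ℕ → ℕ → ℕ → ℤ
  | 0 => p3 D q 0
  | j + 1 => fun e2 e3 e4 e5 => p3 D q (j + 1) e2 e3 e4 e5 +
      chm (D + (j + 1)) (fun e2 e3 e4 e5 => p2 D q j (e2 - 1) e3 e4 e5) e2 e3 e4 e5

namespace PieriDPAux

theorem unroll (A P : ℕ → ℕ → ℤ) (C : ℕ → ℕ → Prop) [∀ j e, Decidable (C j e)]
    (h0 : ∀ e, P 0 e = A 0 e)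
    (hs : ∀ j e, P (j + 1) e = A (j + 1) e + if C (j + 1) e then P j (e - 1) else 0)
    (h1 : ∀ j e, ¬ C j e → A j e = 0)
    (h2 : ∀ j j' e a, C (j + 1) e → C j' (e - 1 - a) → C j (e - 1)) (j e : ℕ) :
    P j e = if C j e then ∑ a ∈ Finset.range (j + 1), A (j - a) (e - a) else 0 := by
  induction j generalizing e with
  | zero =>
    rw [h0]
    split_ifs with h
    · simp
    · exact h1 _ _ h
  | succ j ih =>
    rw [hs]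
    split_ifs with h
    · rw [Finset.sum_range_succ', add_comm, ih]
      congr 1
      have e1 : ∀ a, A (j + 1 - (a + 1)) (e - (a + 1)) = A (j - a) (e - 1 - a) := fun a => by
        rw [Nat.add_sub_add_right, Nat.sub_sub, add_comm 1]
      simp only [e1]
      split_ifs with h'
      · rfl
      · exact (Finset.sum_eq_zero fun a _ => h1 _ _ fun hc => h' (h2 _ _ _ _ h hc)).symm
    · rw [h1 _ _ h, add_zero]

variable (D : ℕ) (q : ℕ → ℕ → ℕ → ℕ → ℤ)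

theorem p4_eq (j e2 e3 e4 e5 : ℕ) : p4 D q j e2 e3 e4 e5 =
    if e3 < e2 ∧ e4 < e3 ∧ e5 < e4 ∧ 2 * e2 + e3 + e4 + e5 < D + j then
      ∑ a ∈ Finset.range (j + 1), pA D q (j - a) e2 e3 (e4 - a) e5 else 0 :=
  unroll (fun j e => pA D q j e2 e3 e e5) (fun j e => p4 D q j e2 e3 e e5)
    (fun j e => e3 < e2 ∧ e < e3 ∧ e5 < e ∧ 2 * e2 + e3 + e + e5 < D + j) (fun _ => rfl)
    (fun _ _ => rfl) (fun j e h => by
      simp only [pA, chm]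
      split_ifs
      · omega
      · rfl
      · rfl) (fun _ _ _ _ _ _ => by omega) j e4

theorem p3_eq (j e2 e3 e4 e5 : ℕ) : p3 D q j e2 e3 e4 e5 =
    if e3 < e2 ∧ e4 < e3 ∧ e5 < e4 ∧ 2 * e2 + e3 + e4 + e5 < D + j then
      ∑ a ∈ Finset.range (j + 1), p4 D q (j - a) e2 (e3 - a) e4 e5 else 0 :=
  unroll (fun j e => p4 D q j e2 e e4 e5) (fun j e => p3 D q j e2 e e4 e5)
    (fun j e => e < e2 ∧ e4 < e ∧ e5 < e4 ∧ 2 * e2 + e + e4 + e5 < D + j) (fun _ => rfl)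
    (fun _ _ => rfl) (fun j e h => by rw [p4_eq, if_neg h]) (fun _ _ _ _ _ _ => by omega) j e3

theorem p2_eq (j e2 e3 e4 e5 : ℕ) : p2 D q j e2 e3 e4 e5 =
    if e3 < e2 ∧ e4 < e3 ∧ e5 < e4 ∧ 2 * e2 + e3 + e4 + e5 < D + j then
      ∑ a ∈ Finset.range (j + 1), p3 D q (j - a) (e2 - a) e3 e4 e5 else 0 :=
  unroll (fun j e => p3 D q j e e3 e4 e5) (fun j e => p2 D q j e e3 e4 e5)
    (fun j e => e3 < e ∧ e4 < e3 ∧ e5 < e4 ∧ 2 * e + e3 + e4 + e5 < D + j) (fun _ => rfl)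
    (fun _ _ => rfl) (fun j e h => by rw [p3_eq, if_neg h]) (fun _ _ _ _ _ _ => by omega) j e2

theorem mk6_0 (a b c d e f : ℕ) : mk6 a b c d e f 0 = a := rfl
theorem mk6_1 (a b c d e f : ℕ) : mk6 a b c d e f 1 = b := rfl
theorem mk6_2 (a b c d e f : ℕ) : mk6 a b c d e f 2 = c := rfl
theorem mk6_3 (a b c d e f : ℕ) : mk6 a b c d e f 3 = d := rfl
theorem mk6_4 (a b c d e f : ℕ) : mk6 a b c d e f 4 = e := rfl
theorem mk6_5 (a b c d e f : ℕ) : mk6 a b c d e f 5 = f := rfl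

theorem ext6 {m m' : Fin 6 →₀ ℕ} (h0 : m 0 = m' 0) (h1 : m 1 = m' 1) (h2 : m 2 = m' 2)
    (h3 : m 3 = m' 3) (h4 : m 4 = m' 4) (h5 : m 5 = m' 5) : m = m' := by
  ext i
  fin_cases i
  exacts [h0, h1, h2, h3, h4, h5]

theorem mk6_add_rho (a b c d e f : ℕ) :
    mk6 a b c d e f + rho 6 = mk6 (a + 5) (b + 4) (c + 3) (d + 2) (e + 1) f :=
  ext6 rfl rfl rfl rfl rfl rfl

theorem mem_interl {l m : Fin 6 →₀ ℕ} {b : ℕ} : m ∈ interl l b ↔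
    (m 0 ≤ l 0 ∧ m 1 ≤ l 1 ∧ m 2 ≤ l 2 ∧ m 3 ≤ l 3 ∧ m 4 ≤ l 4 ∧ m 5 ≤ l 5) ∧
    (l 1 ≤ m 0 ∧ l 2 ≤ m 1 ∧ l 3 ≤ m 2 ∧ l 4 ≤ m 3 ∧ l 5 ≤ m 4) ∧
    m 0 + m 1 + m 2 + m 3 + m 4 + m 5 + b = l 0 + l 1 + l 2 + l 3 + l 4 + l 5 := by
  rw [interl, Finset.mem_filter, Finset.mem_Iic, Fin.sum_univ_six, Fin.sum_univ_six]
  refine and_congr ⟨fun h => ⟨h 0, h 1, h 2, h 3, h 4, h 5⟩, fun h i => ?_⟩ (and_congr_left' ⟨fun h =>
    ⟨h 0 1 rfl, h 1 2 rfl, h 2 3 rfl, h 3 4 rfl, h 4 5 rfl⟩, fun h i j hij => ?_⟩)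
  · fin_cases i
    exacts [h.1, h.2.1, h.2.2.1, h.2.2.2.1, h.2.2.2.2.1, h.2.2.2.2.2]
  · obtain ⟨j, hj⟩ := j
    obtain rfl : j = i + 1 := hij
    fin_cases i
    exacts [h.1, h.2.1, h.2.2.1, h.2.2.2.1, h.2.2.2.2, absurd hj (by decide)]

end PieriDPAux

open PieriDPAux

theorem p4_diag (D : ℕ) (q : ℕ → ℕ → ℕ → ℕ → ℤ) (j e2 e3 e4 e5 : ℕ) (h : e4 ≤ e5) :
    p4 D q j e2 e3 e4 e5 = 0 := by
  rw [p4_eq, if_neg (by omega)]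

/-- Pieri's rule as a dynamic programme inside the Weyl chamber -/
theorem pieri_dp (F : MvPolynomial (Fin 6) ℤ) (hF : F.IsSymmetric) (D b e2 e3 e4 e5 : ℕ) :
    chm (D + b) (fun e2 e3 e4 e5 => ∑ j ∈ Finset.range (b + 1),
        p2 D (fun e2 e3 e4 e5 => deh D (Del 6 * F) e2 e3 e4 e5 0) j e2 e3 e4 e5) e2 e3 e4 e5 =
      chm (D + b) (fun e2 e3 e4 e5 => deh (D + b) (Del 6 * (hp 6 b 1 * F)) e2 e3 e4 e5 0)
        e2 e3 e4 e5 := by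
  simp only [chm]
  split_ifs with hc
  swap
  · rfl
  rw [deh, if_pos (by omega)]
  rcases Nat.eq_zero_or_pos e5 with rfl | h5
  · rw [coeff_Del_mul_eq_zero _ ((hp_isSymmetric 6 b 1).mul hF) _ 4 5 (by decide) rfl]
    simp [p2_eq, p3_eq, p4_eq, pA]
  have e : mk6 (D + b - (e2 + e3 + e4 + e5 + 0)) e2 e3 e4 e5 0 =
      mk6 (D + b - (e2 + e3 + e4 + e5) - 5) (e2 - 4) (e3 - 3) (e4 - 2) (e5 - 1) 0 + rho 6 := by
    rw [mk6_add_rho]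
    congr 1 <;> omega
  have hl : Antitone (mk6 (D + b - (e2 + e3 + e4 + e5) - 5) (e2 - 4) (e3 - 3) (e4 - 2)
      (e5 - 1) 0) := by
    refine Fin.antitone_iff_succ_le.2 fun i => ?_
    fin_cases i
    · change e2 - 4 ≤ D + b - (e2 + e3 + e4 + e5) - 5; omega
    · change e3 - 3 ≤ e2 - 4; omega
    · change e4 - 2 ≤ e3 - 3; omega
    · change e5 - 1 ≤ e4 - 2; omega
    · exact Nat.zero_le _
  rw [e, ← mult, mult_hp_mul F hF b _ hl]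
  simp only [p2_eq, p3_eq, p4_eq, pA, chm, Finset.ite_sum_zero, ← ite_and]
  rw [Finset.sum_sigma', Finset.sum_sigma', Finset.sum_sigma', ← Finset.sum_filter]
  refine Finset.sum_nbij'
    (fun x => mk6 (D + x.1.1.1 - (e2 + e3 + e4 + e5) - 5) (e2 - 4 - x.1.1.2) (e3 - 3 - x.1.2)
      (e4 - 2 - x.2) (e5 - 1 - (x.1.1.1 - x.1.1.2 - x.1.2 - x.2)) 0)
    (fun m => ⟨⟨⟨(e2 - 4 - m 1) + (e3 - 3 - m 2) + (e4 - 2 - m 3) + (e5 - 1 - m 4), e2 - 4 - m 1⟩,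
      e3 - 3 - m 2⟩, e4 - 2 - m 3⟩) ?_ ?_ ?_ ?_ ?_
  · rintro ⟨⟨⟨j, a2⟩, a3⟩, a4⟩ hx
    simp only [Finset.mem_filter, Finset.mem_sigma, Finset.mem_range] at hx
    simp only [mem_interl, mk6_0, mk6_1, mk6_2, mk6_3, mk6_4, mk6_5]
    omega
  · intro m hm
    simp only [mem_interl, mk6_0, mk6_1, mk6_2, mk6_3, mk6_4, mk6_5] at hm
    simp only [Finset.mem_filter, Finset.mem_sigma, Finset.mem_range]
    omega
  · rintro ⟨⟨⟨j, a2⟩, a3⟩, a4⟩ hx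
    simp only [Finset.mem_filter, Finset.mem_sigma, Finset.mem_range] at hx
    simp only [mk6_1, mk6_2, mk6_3, mk6_4, Sigma.mk.injEq, heq_eq_eq]
    omega
  · intro m hm
    simp only [mem_interl, mk6_0, mk6_1, mk6_2, mk6_3, mk6_4, mk6_5] at hm
    refine ext6 ?_ ?_ ?_ ?_ ?_ ?_ <;> simp only [mk6_0, mk6_1, mk6_2, mk6_3, mk6_4, mk6_5] <;> omega
  · rintro ⟨⟨⟨j, a2⟩, a3⟩, a4⟩ hx
    simp only [Finset.mem_filter, Finset.mem_sigma, Finset.mem_range] at hx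
    simp only [mult, mk6_add_rho]
    rw [deh, if_pos (by omega)]
    congr 2 <;> omega

end Crest.Agent.R187
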