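import Crest.Agent.R187.RepB

set_option autoImplicit false
open MvPolynomial

namespace Crest.Agent.R187.Alg
open Crest.Agent.R187

variable {L : Lay} {m5 m6 D : ℕ} {G H : List (List ℕ)} {P Q : MvPolynomial (Fin 6) ℤ}


noncomputable def Din : MvPolynomial (Fin 6) ℤ :=
  (X 0 - X 1) * ((X 0 - X 2) * ((X 0 - X 3) * ((X 1 - X 2) * ((X 1 - X 3) * (X 2 - X 3)))))
noncomputable def D6 : MvPolynomial (Fin 6) ℤ :=
  (X 0 - X 5) * ((X 1 - X 5) * ((X 2 - X 5) * (X 3 - X 5)))
noncomputable def D5 : MvPolynomial (Fin 6) ℤ :=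
  (X 4 - X 5) * ((X 0 - X 4) * ((X 1 - X 4) * ((X 2 - X 4) * (X 3 - X 4))))

namespace PlainAux

theorem mulX_spec (hL : L.Ok) {Z a b : ℕ} (h : Rep L 49 (2 ^ 49 - 1) Z (sl D P a b)) (u : ℕ)
    (w : Fin 6) (hw : (w : ℕ) = u) (hu : u ≤ 3) :
    Rep L 49 (2 ^ 49 - 1) (mulX L (msk L 1) u Z) (sl (D + 1) (X w * P) a b) := by
  rw [← pow_one (X w)]
  interval_cases u
  · obtain rfl : w = 0 := Fin.ext hw
    exact h.congr fun _ _ _ _ _ _ => (deh_X0 ..).symm
  · obtain rfl : w = 1 := Fin.ext hw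
    have := h.sh2 hL le_rfl 1
    rw [one_mul] at this
    exact this.congr fun _ _ _ _ _ _ => (deh_X1 ..).symm
  · obtain rfl : w = 2 := Fin.ext hw
    have := h.sh3 hL le_rfl 1
    rw [one_mul] at this
    exact this.congr fun _ _ _ _ _ _ => (deh_X2 ..).symm
  · obtain rfl : w = 3 := Fin.ext hw
    have := h.sh4 hL le_rfl 1
    rw [one_mul] at this
    exact this.congr fun _ _ _ _ _ _ => (deh_X3 ..).symm

theorem sub_spec (hL : L.Ok) {Z Z' a b : ℕ} {A B : MvPolynomial (Fin 6) ℤ}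
    (h : Rep L 49 (2 ^ 49 - 1) Z (sl D (A * P) a b))
    (h' : Rep L 49 (2 ^ 49 - 1) Z' (sl D (B * P) a b)) :
    Rep L 49 (2 ^ 49 - 1) (sub (full L) (cst L) Z Z') (sl D ((A - B) * P) a b) := by
  rw [sub_mul]
  exact (h.sub hL le_rfl h').congr fun _ _ _ _ _ _ => (deh_sub ..).symm

theorem binIn_spec (hL : L.Ok) {Z a b : ℕ} (u v : ℕ) (w w' : Fin 6) (hw : (w : ℕ) = u)
    (hw' : (w' : ℕ) = v) (hu : u ≤ 3) (hv : v ≤ 3) (h : Rep L 49 (2 ^ 49 - 1) Z (sl D P a b)) :
    Rep L 49 (2 ^ 49 - 1) (binIn L (full L) (cst L) (msk L 1) u v Z)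
      (sl (D + 1) ((X w - X w') * P) a b) :=
  sub_spec hL (mulX_spec hL h u w hw hu) (mulX_spec hL h v w' hw' hv)

theorem get5_spec (h : RepG L m5 m6 G D P) {a b : ℕ} (ha : a ≤ m5) (hb : b ≤ m6) :
    Rep L 49 (2 ^ 49 - 1) (get5 G a b) (sl (D + 1) (X 4 * P) a b) := by
  rw [← pow_one (X 4)]
  cases a with
  | zero => exact Rep.zero.congr fun _ _ _ _ _ _ => ((deh_X4 ..).trans (if_neg (by omega))).symm
  | succ a =>
    exact (h a b (by omega) hb).congr fun _ _ _ _ _ _ =>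
      ((deh_X4 D 1 P _ _ _ (a + 1) b).trans (if_pos (by omega))).symm

theorem get6_spec (h : RepG L m5 m6 G D P) {a b : ℕ} (ha : a ≤ m5) (hb : b ≤ m6) :
    Rep L 49 (2 ^ 49 - 1) (get6 G a b) (sl (D + 1) (X 5 * P) a b) := by
  rw [← pow_one (X 5)]
  cases b with
  | zero => exact Rep.zero.congr fun _ _ _ _ _ _ => ((deh_X5 ..).trans (if_neg (by omega))).symm
  | succ b =>
    exact (h a b ha (by omega)).congr fun _ _ _ _ _ _ =>
      ((deh_X5 D 1 P _ _ _ a (b + 1)).trans (if_pos (by omega))).symm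

theorem bin5_spec (hL : L.Ok) (u : ℕ) (w : Fin 6) (hw : (w : ℕ) = u) (hu : u ≤ 3)
    (h : RepG L m5 m6 G D P) :
    RepG L m5 m6 (bin5 L (full L) (cst L) (msk L 1) m5 m6 u G) (D + 1) ((X w - X 4) * P) := by
  intro a b ha hb
  rw [bin5, get_tab2 _ _ _ _ _ ha hb]
  exact sub_spec hL (mulX_spec hL (h a b ha hb) u w hw hu) (get5_spec h ha hb)

theorem bin6_spec (hL : L.Ok) (u : ℕ) (w : Fin 6) (hw : (w : ℕ) = u) (hu : u ≤ 3)
    (h : RepG L m5 m6 G D P) :
    RepG L m5 m6 (bin6 L (full L) (cst L) (msk L 1) m5 m6 u G) (D + 1) ((X w - X 5) * P) := by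
  intro a b ha hb
  rw [bin6, get_tab2 _ _ _ _ _ ha hb]
  exact sub_spec hL (mulX_spec hL (h a b ha hb) u w hw hu) (get6_spec h ha hb)

theorem bin56_spec (hL : L.Ok) (h : RepG L m5 m6 G D P) :
    RepG L m5 m6 (bin56 (full L) (cst L) m5 m6 G) (D + 1) ((X 4 - X 5) * P) := by
  intro a b ha hb
  rw [bin56, get_tab2 _ _ _ _ _ ha hb]
  exact sub_spec hL (get5_spec h ha hb) (get6_spec h ha hb)

theorem hpart_single (i : ℕ) (v : Fin 6) (m : ℕ) : hpart i [v] m = X v ^ (i * m) := by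
  induction m with
  | zero => simp [Deh_hpart_zero]
  | succ m ih => rw [hpart, hpart, ih, zero_add, ← pow_add, mul_add, mul_one, add_comm]

theorem hpart_cons (i : ℕ) (v : Fin 6) (S : List (Fin 6)) (d : ℕ) :
    hpart i (v :: S) d = ∑ m ∈ Finset.range (d + 1), X v ^ (i * m) * hpart i S (d - m) := by
  induction d with
  | zero => simp [Deh_hpart_zero]
  | succ d ih =>
    rw [hpart, ih, Finset.sum_range_succ' _ (d + 1), Finset.mul_sum, add_comm]
    simp only [mul_zero, pow_zero, one_mul, Nat.sub_zero, Nat.add_sub_add_right, mul_add, mul_one,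
      pow_add, mul_assoc, mul_left_comm]

theorem dvd_hpart {i : ℕ} (hi : 1 ≤ i) (S : List (Fin 6)) (d : ℕ) :
    X 5 ∣ hpart i (S ++ [5]) d - hpart i S d := by
  induction S generalizing d with
  | nil =>
    cases d with
    | zero => simp [Deh_hpart_zero]
    | succ d =>
      rw [List.nil_append, hpart_single, hpart, sub_zero]
      exact dvd_pow_self _ (by positivity)
  | cons v S ih =>
    rw [List.cons_append, hpart_cons, hpart_cons, ← Finset.sum_sub_distrib]
    refine Finset.dvd_sum fun m _ => ?_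
    rw [← mul_sub]
    exact (ih _).mul_left _

theorem deh_hp {i : ℕ} (hi : 1 ≤ i) (d e2 e3 e4 a : ℕ) :
    deh D (hpart i [3, 2, 1, 0, 4] d * P) e2 e3 e4 a 0 = deh D (hp 6 d i * P) e2 e3 e4 a 0 := by
  obtain ⟨R, hR⟩ := dvd_hpart hi [3, 2, 1, 0, 4] d
  have h : deh D (X 5 ^ 1 * (R * P)) e2 e3 e4 a 0 = 0 := by
    unfold deh
    rw [Deh_coeff]
    simp [Deh_apply]
  rw [← hpart_eq_hp, show hpart i [3, 2, 1, 0, 4, 5] d = _ from eq_add_of_sub_eq hR, add_mul,
    deh_add, mul_assoc, ← pow_one (X 5), h, zero_add]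

theorem deh_04 (i a e2 e3 e4 m : ℕ) : deh (D + i * m) (hpart i [0, 4] m * P) e2 e3 e4 a 0 =
    ∑ β ∈ Finset.range (m + 1), if i * β ≤ a then deh D P e2 e3 e4 (a - i * β) 0 else 0 := by
  induction m with
  | zero => simp [Deh_hpart_zero]
  | succ m ih =>
    rw [hpart, add_mul, deh_add, hpart_single, deh_X4, mul_assoc, mul_add i m, mul_one, ← add_assoc,
      deh_X0, ih, Finset.sum_range_succ _ (m + 1), add_comm, mul_add i m, mul_one]

theorem length_usT (i a : ℕ) (ms : List ℕ) (acc : ℕ) : (usT G i a ms acc).length = ms.length := by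
  induction ms generalizing acc with
  | nil => rfl
  | cons m ms ih => rw [usT, List.length_cons, List.length_cons, ih]

theorem step {φ ψ : ℕ → ℕ → ℕ → ℤ} {B B' acc Z k a : ℕ} (h : Rep L 49 B acc φ)
    (h' : k ≤ a → Rep L 49 B' Z ψ) (hB : B + B' < 2 ^ 57) :
    Rep L 49 (B + B') (bif Nat.ble k a then acc + Z else acc)
      fun e2 e3 e4 => φ e2 e3 e4 + if k ≤ a then ψ e2 e3 e4 else 0 := by
  by_cases hk : k ≤ a
  · rw [Nat.ble_eq_true_of_le hk, cond_true]
    simp only [if_pos hk]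
    exact h.add (h' hk) hB
  · rw [Bool.eq_false_iff.2 (mt Nat.le_of_ble_eq_true hk), cond_false]
    simp only [if_neg hk, add_zero]
    exact h.mono (Nat.le_add_right _ _)

theorem usT_spec (h : RepG L m5 0 G D P) (i : ℕ) {a : ℕ} (ha : a ≤ m5) (n : ℕ) :
    ∀ s acc, s + n ≤ 101 → Rep L 49 (s * (2 ^ 49 - 1)) acc (fun e2 e3 e4 => ∑ β ∈ Finset.range s,
      if i * β ≤ a then deh D P e2 e3 e4 (a - i * β) 0 else 0) → ∀ j < n,
      Rep L 49 (101 * (2 ^ 49 - 1)) (nth (usT G i a (List.range' s n) acc) j)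
        fun e2 e3 e4 => ∑ β ∈ Finset.range (s + j + 1),
          if i * β ≤ a then deh D P e2 e3 e4 (a - i * β) 0 else 0 := by
  induction n with
  | zero => exact fun _ _ _ _ j hj => absurd hj (Nat.not_lt_zero j)
  | succ n ih =>
    intro s acc hs hacc j hj
    have h1 := step (k := i * s) (a := a) hacc (fun _ => h (a - i * s) 0 (by omega) le_rfl)
      (by omega)
    rw [← Nat.succ_mul] at h1
    simp only [sl, ← Finset.sum_range_succ] at h1
    rw [List.range'_succ, usT]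
    cases j with
    | zero => exact h1.mono (Nat.mul_le_mul_right _ (by omega))
    | succ j =>
      have h2 := ih (s + 1) _ (by omega) h1 j (by omega)
      rwa [add_assoc s, add_comm 1 j] at h2

theorem crS_spec {T : List (List ℕ)} {i d a B' : ℕ} {ψ : ℕ → ℕ → ℕ → ℕ → ℤ}
    (h : ∀ m ≤ d, i * m ≤ a → Rep L 49 B' (get T (d - m) (a - i * m)) (ψ m)) (n : ℕ) :
    ∀ B acc φ, n ≤ d + 1 → B + n * B' < 2 ^ 57 → Rep L 49 B acc φ →
      Rep L 49 (B + n * B') (crS T i d a n acc) fun e2 e3 e4 =>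
        φ e2 e3 e4 + ∑ m ∈ Finset.range n, if i * m ≤ a then ψ m e2 e3 e4 else 0 := by
  induction n with
  | zero =>
    intro B acc φ _ _ hacc
    simpa [crS] using hacc
  | succ n ih =>
    intro B acc φ hn hB hacc
    rw [Nat.succ_mul] at hB ⊢
    have h1 := ih _ _ _ (by omega) (by omega) (step hacc (h n (by omega)) (by omega))
    rw [crS]
    refine (h1.mono (by omega)).congr fun _ _ _ _ _ _ => ?_
    rw [Finset.sum_range_succ]
    ring

theorem nthL_map (n : ℕ) (f : ℕ → List ℕ) {j : ℕ} (hj : j < n) :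
    nthL ((List.range n).map f) j = f j := by
  have h : ∀ (l : List (List ℕ)) (j : ℕ), nthL l j = l.getD j [] := by
    intro l
    induction l with
    | nil => intro j; rfl
    | cons x l ih =>
      intro j
      cases j with
      | zero => rfl
      | succ j => exact ih j
  simp [h, hj]

end PlainAux

open PlainAux

theorem Del_eq_D : Del 6 = D5 * (D6 * Din) := by
  rw [Del_six, D5, D6, Din]
  ac_rfl

theorem one2_spec (hL : L.Ok) (h2 : 0 < L.n2) (h3 : 0 < L.n3) (h4 : 0 < L.n4) :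
    RepG L m5 m6 one2 0 1 := by
  intro a b _ _
  by_cases h : a = 0 ∧ b = 0
  · obtain ⟨rfl, rfl⟩ := h
    have h1 : ∀ i, fld 1 i = if i = 0 then 1 else 0 := fld_small (by norm_num)
    have c2 := hL.h2
    have c3 : 1 ≤ L.c3 := (Nat.mul_pos c2 h2).trans_le hL.h3
    have c4 : 1 ≤ L.c4 := (Nat.mul_pos c3 h3).trans_le hL.h4
    change Rep L 49 _ 1 _
    refine ⟨fun i => ?_, fun i hi => ?_, fun e2 e3 e4 _ _ _ => ?_⟩
    · rw [h1]
      split_ifs <;> omega
    · rw [h1, if_neg]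
      rintro rfl
      exact hi ⟨0, 0, 0, h2, h3, h4, rfl⟩
    · have h5 : L.idx e2 e3 e4 = 0 ↔ e2 = 0 ∧ e3 = 0 ∧ e4 = 0 ∧ 0 = 0 ∧ 0 = 0 := by
        simp only [Lay.idx, Nat.add_eq_zero_iff, Nat.mul_eq_zero, and_true]
        omega
      rw [h1, sl, deh_one]
      simp only [h5]
      split_ifs <;> rfl
  · have h1 : get one2 a b = 0 := by
      rcases b with _ | b
      · rcases a with _ | a
        · exact absurd ⟨rfl, rfl⟩ h
        · rfl
      · rfl
    rw [h1]
    exact Rep.zero.congr fun _ _ _ _ _ _ => ((deh_one ..).trans (if_neg fun h' => h h'.2.2.2)).symm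

theorem nil_spec : RepG L m5 m6 [] D 0 :=
  fun _ _ _ _ => Rep.zero.congr fun _ _ _ _ _ _ => (deh_zero ..).symm

theorem delIn_spec (hL : L.Ok) (h : RepG L m5 m6 G D P) :
    RepG L m5 m6 (delIn L (full L) (cst L) (msk L 1) m5 m6 G) (D + 6) (Din * P) := by
  intro a b ha hb
  rw [delIn, get_tab2 _ _ _ _ _ ha hb]
  simp only [Din, mul_assoc]
  exact binIn_spec hL 0 1 0 1 rfl rfl (by omega) (by omega) <|
    binIn_spec hL 0 2 0 2 rfl rfl (by omega) (by omega) <|
    binIn_spec hL 0 3 0 3 rfl rfl (by omega) (by omega) <|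
    binIn_spec hL 1 2 1 2 rfl rfl (by omega) (by omega) <|
    binIn_spec hL 1 3 1 3 rfl rfl (by omega) (by omega) <|
    binIn_spec hL 2 3 2 3 rfl rfl (by omega) (by omega) (h a b ha hb)

theorem del6_spec (hL : L.Ok) (h : RepG L m5 m6 G D P) :
    RepG L m5 m6 (del6 L (full L) (cst L) (msk L 1) m5 m6 G) (D + 4) (D6 * P) := by
  simp only [D6, mul_assoc]
  exact bin6_spec hL 0 0 rfl (by omega) <| bin6_spec hL 1 1 rfl (by omega) <|
    bin6_spec hL 2 2 rfl (by omega) <| bin6_spec hL 3 3 rfl (by omega) h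

theorem del5_spec (hL : L.Ok) (h : RepG L m5 m6 G D P) :
    RepG L m5 m6 (del5 L (full L) (cst L) (msk L 1) m5 m6 G) (D + 5) (D5 * P) := by
  simp only [D5, mul_assoc]
  exact bin56_spec hL <| bin5_spec hL 0 0 rfl (by omega) <| bin5_spec hL 1 1 rfl (by omega) <|
    bin5_spec hL 2 2 rfl (by omega) <| bin5_spec hL 3 3 rfl (by omega) h

theorem delTab_spec (hL : L.Ok) (h2 : 0 < L.n2) (h3 : 0 < L.n3) (h4 : 0 < L.n4) :
    RepG L m5 m6 (delTab L m5 m6) 15 (Del 6) := by
  have := del5_spec hL (del6_spec hL (delIn_spec hL (one2_spec (m5 := m5) (m6 := m6) hL h2 h3 h4)))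
  rwa [mul_one, ← Del_eq_D] at this

theorem delTab_specQ (hL : L.Ok) (h2 : 0 < L.n2) (h3 : 0 < L.n3) (h4 : 0 < L.n4) :
    RepQs L 49 m5 m6 [delTab L m5 m6] 1 := by
  refine ⟨0, rfl, fun a b _ ha hb => ?_, rfl⟩
  have h : HH 6 0 6 = 1 := by simp [HH, wt]
  rw [h, mul_one]
  exact delTab_spec hL h2 h3 h4 a b ha hb

theorem delAll_spec (hL : L.Ok) (h : RepG L m5 0 G D P) :
    RepG L m5 0 (delAll L (full L) (cst L) (msk L 1) m5 G) (D + 15) (Del 6 * P) := by
  rw [Del_eq_D, mul_assoc, mul_assoc]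
  exact del5_spec hL (del6_spec hL (delIn_spec hL h))

theorem mulT_spec (hL : L.Ok) (h : RepG L m5 0 G D P) (i d : ℕ) (hi : 1 ≤ i) (hd : d ≤ 100) :
    RepG L m5 0 (mulT L (full L) (msk L i) d m5 G) (D + i * d) (hp 6 d i * P) := by
  intro a b ha hb
  obtain rfl : b = 0 := by omega
  rw [mulT, get_single_tab _ _ _ ha,
    lastD_eq_nth _ d (by rw [length_dp, length_usT, List.length_range])]
  have h1 : RepL L 49 (101 * (2 ^ 49 - 1)) (usT G i a (List.range (d + 1)) 0) D i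
      (fun j => hpart i [0, 4] j * P) a 0 := by
    intro j hj
    rw [length_usT, List.length_range] at hj
    rw [List.range_eq_range']
    refine (usT_spec h i ha (d + 1) 0 0 (by omega) Rep.zero j hj).congr fun _ _ _ _ _ _ => ?_
    rw [sl, deh_04, zero_add]
  refine ((dp_spec hL le_rfl (by norm_num) h1 d ?_).and_full hL le_rfl).congr
    fun _ _ _ _ _ _ => deh_hp hi ..
  rw [length_dp, length_usT, List.length_range]
  omega

theorem mulS_spec (hL : L.Ok) (h : RepG L m5 0 G D P) (i d : ℕ) (hi : 1 ≤ i) (hd : d ≤ 50) :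
    RepG L m5 0 (mulS L (full L) (msk L i) d m5 G) (D + i * d) (hp 6 d i * P) := by
  intro a b ha hb
  obtain rfl : b = 0 := by omega
  rw [mulS, mulSAux, get_single_tab _ _ _ ha]
  refine ((crS_spec (i := i) (B' := 2 ^ 49 - 1 + 3 * 2 ^ 49) (ψ := fun m =>
    sl (D + i * (d - m)) (hpart i [3, 2, 1, 0] (d - m) * P) (a - i * m) 0) (fun m hm _ => ?_)
    (d + 1) 0 0 _ le_rfl (by omega) Rep.zero).and_full hL le_rfl).congr fun e2 e3 e4 _ _ _ => ?_
  · rw [get, nthL_map _ _ (by omega)]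
    refine dp_spec (S := [0]) hL le_rfl (by norm_num) (fun j hj => ?_) _
      (by rw [length_dp, List.length_replicate]; omega)
    rw [List.length_replicate] at hj
    simp only [nth_eq_getD, List.getD_replicate _ hj, hpart_single]
    exact (h _ 0 (by omega) le_rfl).congr fun _ _ _ _ _ _ => (deh_X0 ..).symm
  · have h1 : hpart i [3, 2, 1, 0, 4] d = hpart i [4, 3, 2, 1, 0] d := by
      rw [Deh_hpart i _ (by decide), Deh_hpart i _ (by decide)]
      congr 2
      decide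
    rw [zero_add, sl, ← deh_hp hi, h1, hpart_cons, Finset.sum_mul, deh_sum]
    refine Finset.sum_congr rfl fun m hm => ?_
    rw [Finset.mem_range] at hm
    rw [mul_assoc, show D + i * d = D + i * (d - m) + i * m by
      rw [add_assoc, ← mul_add, Nat.sub_add_cancel (by omega)], deh_X4, sl]

theorem lin_spec (hL : L.Ok) (h : RepG L m5 0 G D P) (h' : RepG L m5 0 H D Q) (c : ℕ) (hc : c ≤ 200) :
    RepG L m5 0 (lin (full L) c m5 G H) D (P + (c : MvPolynomial (Fin 6) ℤ) * Q) := by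
  intro a b ha hb
  obtain rfl : b = 0 := by omega
  rw [lin, get_single_tab _ _ _ ha]
  refine (((h a 0 ha le_rfl).add ((h' a 0 ha le_rfl).smul c (by omega)) (by omega)).and_full
    hL le_rfl).congr fun _ _ _ _ _ _ => ?_
  rw [sl, sl, sl, deh_add, deh_natCast_mul]

end Crest.Agent.R187.Alg
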