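import Crest.Agent.R187.Spec
import Crest.Agent.R187.Fld
import Crest.Agent.R187.Deh

set_option autoImplicit false
open MvPolynomial

namespace Crest.Agent.R187.Alg
open Crest.Agent.R187

variable {L : Lay} {p B B' X Y : ℕ} {φ ψ : ℕ → ℕ → ℕ → ℤ}

namespace RepB

theorem rep_zero (s n : ℕ) : rep 0 s n = 0 := by
  induction n with
  | zero => rfl
  | succ n ih => rw [rep, ih, Nat.zero_shiftLeft]

theorem fld_rep' {x s : ℕ} (hx : ∀ i, s ≤ i → fld x i = 0) (hs : 0 < s) (n i : ℕ) :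
    fld (rep x s n) i = if i / s < n then fld x (i % s) else 0 := by
  have := fld_rep hx n (i / s) (i % s) (Nat.mod_lt _ hs)
  rwa [Nat.mod_add_div] at this

theorem fld_rep_out {x s : ℕ} (hx : ∀ i, s ≤ i → fld x i = 0) (hs : 0 < s) {n c : ℕ}
    (hc : s * n ≤ c) (i : ℕ) (hi : c ≤ i) : fld (rep x s n) i = 0 := by
  rw [fld_rep' hx hs, if_neg]
  rw [Nat.div_lt_iff_lt_mul hs, mul_comm]
  omega

theorem lt_c3 (hL : L.Ok) {e2 : ℕ} (he2 : e2 < L.n2) : L.c2 * e2 < L.c3 :=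
  (Nat.mul_lt_mul_of_pos_left he2 hL.h2).trans_le hL.h3

theorem lt_c4 (hL : L.Ok) {e2 e3 : ℕ} (he2 : e2 < L.n2) (he3 : e3 < L.n3) :
    L.c2 * e2 + L.c3 * e3 < L.c4 := by
  have h1 := lt_c3 hL he2
  have h2 : L.c3 * (e3 + 1) ≤ L.c3 * L.n3 := Nat.mul_le_mul_left _ he3
  have h3 := hL.h4
  rw [mul_add] at h2
  omega

theorem radix_inj {c t t' e e' : ℕ} (h : t < c) (h' : t' < c) (he : t + c * e = t' + c * e') :
    t = t' ∧ e = e' := by
  have h1 : t = t' := by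
    have := congrArg (· % c) he
    simpa [Nat.add_mul_mod_self_left, Nat.mod_eq_of_lt h, Nat.mod_eq_of_lt h'] using this
  subst h1
  exact ⟨rfl, Nat.eq_of_mul_eq_mul_left (by omega) (Nat.add_left_cancel he)⟩

theorem idx_inj (hL : L.Ok) {e2 e3 e4 f2 f3 f4 : ℕ} (he2 : e2 < L.n2) (he3 : e3 < L.n3)
    (hf2 : f2 < L.n2) (hf3 : f3 < L.n3) (h : L.idx e2 e3 e4 = L.idx f2 f3 f4) :
    e2 = f2 ∧ e3 = f3 ∧ e4 = f4 := by
  obtain ⟨h1, h4⟩ := radix_inj (lt_c4 hL he2 he3) (lt_c4 hL hf2 hf3) h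
  obtain ⟨h2, h3⟩ := radix_inj (lt_c3 hL he2) (lt_c3 hL hf2) h1
  exact ⟨Nat.eq_of_mul_eq_mul_left hL.h2 h2, h3, h4⟩

theorem idx_add (L : Lay) (e2 e3 e4 d2 d3 d4 : ℕ) :
    L.idx (e2 + d2) (e3 + d3) (e4 + d4) = L.idx e2 e3 e4 + L.idx d2 d3 d4 := by
  simp only [Lay.idx]; ring

theorem out1 (hL : L.Ok) {v : ℕ} (hv : v < 2 ^ 57) (i : ℕ) (hi : L.c2 ≤ i) : fld v i = 0 := by
  have := hL.h2
  rw [fld_small hv, if_neg (by omega)]

theorem out2 (hL : L.Ok) {v : ℕ} (hv : v < 2 ^ 57) {a2 : ℕ} (h2 : a2 ≤ L.n2) (i : ℕ)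
    (hi : L.c3 ≤ i) : fld (rep v L.c2 a2) i = 0 :=
  fld_rep_out (out1 hL hv) hL.h2 ((Nat.mul_le_mul_left _ h2).trans hL.h3) i hi

theorem out3 (hL : L.Ok) {v : ℕ} (hv : v < 2 ^ 57) {a2 a3 : ℕ} (h2 : a2 ≤ L.n2) (h3 : a3 ≤ L.n3)
    (hc : 0 < L.c3) (i : ℕ) (hi : L.c4 ≤ i) : fld (rep (rep v L.c2 a2) L.c3 a3) i = 0 :=
  fld_rep_out (out2 hL hv h2) hc ((Nat.mul_le_mul_left _ h3).trans hL.h4) i hi

theorem m49_lt : 2 ^ 49 - 1 < 2 ^ 57 := by norm_num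

theorem mod_modEq (x : ℕ) {q : ℕ} (hp : p ≤ q) : ((x % 2 ^ q : ℕ) : ℤ) ≡ x [ZMOD 2 ^ p] := by
  push_cast
  exact (Int.mod_modEq _ _).of_dvd (pow_dvd_pow _ hp)

end RepB

open RepB

theorem fld_boxC_idx (hL : L.Ok) {v : ℕ} (hv : v < 2 ^ 57) {a2 a3 a4 : ℕ} (h2 : a2 ≤ L.n2)
    (h3 : a3 ≤ L.n3) (e2 e3 e4 : ℕ) (he2 : e2 < L.n2) (he3 : e3 < L.n3) :
    fld (boxC L v a2 a3 a4) (L.idx e2 e3 e4) = if e2 < a2 ∧ e3 < a3 ∧ e4 < a4 then v else 0 := by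
  have h3' := lt_c3 hL he2
  have := fld_rep (out1 hL hv) a2 e2 0 hL.h2
  rw [zero_add, fld_small hv, if_pos rfl] at this
  rw [boxC, Lay.idx, fld_rep (out3 hL hv h2 h3 (by omega)) _ _ _ (lt_c4 hL he2 he3),
    fld_rep (out2 hL hv h2) _ _ _ h3', this]
  split_ifs <;> first | rfl | omega

theorem fld_boxC_cases (hL : L.Ok) {v : ℕ} (hv : v < 2 ^ 57) {a2 a3 a4 : ℕ} (h2 : a2 ≤ L.n2)
    (h3 : a3 ≤ L.n3) (i : ℕ) :
    fld (boxC L v a2 a3 a4) i = 0 ∨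
      (fld (boxC L v a2 a3 a4) i = v ∧ ∃ e2 e3 e4, e2 < a2 ∧ e3 < a3 ∧ e4 < a4 ∧ i = L.idx e2 e3 e4) := by
  rcases Nat.eq_zero_or_pos a2 with rfl | ha2
  · left; rw [boxC, rep, rep_zero, rep_zero, fld_zero]
  rcases Nat.eq_zero_or_pos a3 with rfl | ha3
  · left; rw [boxC, rep, rep_zero, fld_zero]
  have hc3 : 0 < L.c3 := by simpa using lt_c3 hL (ha2.trans_le h2)
  have hc4 : 0 < L.c4 := by simpa using lt_c4 hL (ha2.trans_le h2) (ha3.trans_le h3)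
  rw [boxC, fld_rep' (out3 hL hv h2 h3 hc3) hc4, fld_rep' (out2 hL hv h2) hc3,
    fld_rep' (out1 hL hv) hL.h2, fld_small hv]
  split_ifs with g4 g3 g2 g1
  · refine .inr ⟨rfl, _, _, _, g2, g3, g4, ?_⟩
    have e4 := Nat.mod_add_div i L.c4
    have e3 := Nat.mod_add_div (i % L.c4) L.c3
    have e2 := Nat.mod_add_div (i % L.c4 % L.c3) L.c2
    rw [Lay.idx]
    omega
  all_goals exact .inl rfl

theorem Rep.mono (h : Rep L p B X φ) (hB : B ≤ B') : Rep L p B' X φ :=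
  ⟨fun i => (h.bd i).trans hB, h.out, h.val⟩

theorem Rep.prec (h : Rep L p B X φ) {p' : ℕ} (hp : p' ≤ p) : Rep L p' B X φ :=
  ⟨h.bd, h.out, fun e2 e3 e4 h2 h3 h4 => (h.val e2 e3 e4 h2 h3 h4).of_dvd (pow_dvd_pow _ hp)⟩

theorem Rep.congr (h : Rep L p B X φ)
    (hφ : ∀ e2 e3 e4, e2 < L.n2 → e3 < L.n3 → e4 < L.n4 → φ e2 e3 e4 = ψ e2 e3 e4) : Rep L p B X ψ :=
  ⟨h.bd, h.out, fun e2 e3 e4 h2 h3 h4 => hφ e2 e3 e4 h2 h3 h4 ▸ h.val e2 e3 e4 h2 h3 h4⟩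

theorem Rep.zero : Rep L p B 0 (fun _ _ _ => 0) :=
  ⟨fun i => by rw [fld_zero]; exact Nat.zero_le _, fun i _ => fld_zero i,
    fun _ _ _ _ _ _ => by rw [fld_zero]; rfl⟩

theorem Rep.add (h : Rep L p B X φ) (h' : Rep L p B' Y ψ) (hB : B + B' < 2 ^ 57) :
    Rep L p (B + B') (X + Y) (fun e2 e3 e4 => φ e2 e3 e4 + ψ e2 e3 e4) := by
  have hf := fld_add fun i => (add_le_add (h.bd i) (h'.bd i)).trans_lt hB
  refine ⟨fun i => ?_, fun i hi => ?_, fun e2 e3 e4 h2 h3 h4 => ?_⟩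
  · rw [hf]; exact add_le_add (h.bd i) (h'.bd i)
  · rw [hf, h.out i hi, h'.out i hi]
  · rw [hf, Nat.cast_add]; exact (h.val e2 e3 e4 h2 h3 h4).add (h'.val e2 e3 e4 h2 h3 h4)

theorem Rep.smul (h : Rep L p B X φ) (c : ℕ) (hB : c * B < 2 ^ 57) :
    Rep L p (c * B) (c * X) (fun e2 e3 e4 => c * φ e2 e3 e4) := by
  have hf := fld_mul fun i => (Nat.mul_le_mul_left c (h.bd i)).trans_lt hB
  refine ⟨fun i => ?_, fun i hi => ?_, fun e2 e3 e4 h2 h3 h4 => ?_⟩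
  · rw [hf]; exact Nat.mul_le_mul_left c (h.bd i)
  · rw [hf, h.out i hi, mul_zero]
  · rw [hf, Nat.cast_mul]; exact (h.val e2 e3 e4 h2 h3 h4).mul_left _

theorem RepB.fld_boxC_le (hL : L.Ok) {v : ℕ} (hv : v < 2 ^ 57) {a2 a3 a4 : ℕ} (h2 : a2 ≤ L.n2)
    (h3 : a3 ≤ L.n3) (i : ℕ) : fld (boxC L v a2 a3 a4) i ≤ v := by
  rcases fld_boxC_cases (a4 := a4) hL hv h2 h3 i with h | h
  · rw [h]; exact Nat.zero_le _
  · exact h.1.le

theorem RepB.fld_boxC_out (hL : L.Ok) {v : ℕ} (hv : v < 2 ^ 57) {i : ℕ} (hi : ¬ L.inb i) :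
    fld (boxC L v L.n2 L.n3 L.n4) i = 0 :=
  (fld_boxC_cases hL hv le_rfl le_rfl i).resolve_right fun h => hi h.2

theorem RepB.fld_boxC_in (hL : L.Ok) {v : ℕ} (hv : v < 2 ^ 57) {e2 e3 e4 : ℕ} (h2 : e2 < L.n2)
    (h3 : e3 < L.n3) (h4 : e4 < L.n4) : fld (boxC L v L.n2 L.n3 L.n4) (L.idx e2 e3 e4) = v := by
  rw [fld_boxC_idx hL hv le_rfl le_rfl _ _ _ h2 h3, if_pos ⟨h2, h3, h4⟩]

/-- a masked shift -/
theorem RepB.sh_gen (hL : L.Ok) (hp : p ≤ 49) (h : Rep L p B X φ) (d2 d3 d4 : ℕ) :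
    Rep L p (2 ^ 49 - 1)
      (sh (boxC L (2 ^ 49 - 1) (L.n2 - d2) (L.n3 - d3) (L.n4 - d4)) (L.idx d2 d3 d4) X)
      (fun e2 e3 e4 => if d2 ≤ e2 ∧ d3 ≤ e3 ∧ d4 ≤ e4 then φ (e2 - d2) (e3 - d3) (e4 - d4)
        else 0) := by
  have hc := fld_boxC_cases (a4 := L.n4 - d4) hL m49_lt (Nat.sub_le L.n2 d2) (Nat.sub_le L.n3 d3)
  have key : ∀ j, fld (sh (boxC L (2 ^ 49 - 1) (L.n2 - d2) (L.n3 - d3) (L.n4 - d4))
      (L.idx d2 d3 d4) X) j = 0 ∨ ∃ e2 e3 e4, e2 + d2 < L.n2 ∧ e3 + d3 < L.n3 ∧ e4 + d4 < L.n4 ∧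
        j = L.idx (e2 + d2) (e3 + d3) (e4 + d4) := by
    intro j
    rw [sh, fld_shl]
    split_ifs with hj
    · rcases hc (j - L.idx d2 d3 d4) with h0 | ⟨-, e2, e3, e4, g2, g3, g4, g⟩
      · left; rw [fld_and, h0, Nat.and_zero]
      · refine .inr ⟨e2, e3, e4, by omega, by omega, by omega, ?_⟩
        rw [idx_add]; omega
    · exact .inl rfl
  refine ⟨fun j => ?_, fun j hj => ?_, fun e2 e3 e4 h2 h3 h4 => ?_⟩
  · rw [sh, fld_shl]
    split_ifs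
    · rw [fld_and]
      exact Nat.and_le_right.trans
        (fld_boxC_le hL m49_lt (Nat.sub_le L.n2 d2) (Nat.sub_le L.n3 d3) _)
    · exact Nat.zero_le _
  · exact (key j).resolve_right fun ⟨e2, e3, e4, g2, g3, g4, g⟩ => hj ⟨_, _, _, g2, g3, g4, g⟩
  · split_ifs with hd
    · obtain ⟨f2, rfl⟩ := Nat.exists_eq_add_of_le' hd.1
      obtain ⟨f3, rfl⟩ := Nat.exists_eq_add_of_le' hd.2.1
      obtain ⟨f4, rfl⟩ := Nat.exists_eq_add_of_le' hd.2.2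
      rw [sh, fld_shl, idx_add, if_pos (Nat.le_add_left _ _), Nat.add_sub_cancel, fld_and,
        fld_boxC_idx hL m49_lt (Nat.sub_le L.n2 d2) (Nat.sub_le L.n3 d3) _ _ _ (by omega)
          (by omega), if_pos (by omega), Nat.and_two_pow_sub_one_eq_mod]
      simp only [Nat.add_sub_cancel]
      exact (mod_modEq _ hp).trans (h.val _ _ _ (by omega) (by omega) (by omega))
    · rcases key (L.idx e2 e3 e4) with h0 | ⟨f2, f3, f4, g2, g3, g4, g⟩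
      · rw [h0]; rfl
      · have := idx_inj hL h2 h3 g2 g3 g
        omega

theorem Rep.and_full (hL : L.Ok) (hp : p ≤ 49) (h : Rep L p B X φ) :
    Rep L p (2 ^ 49 - 1) (X &&& full L) φ := by
  refine ⟨fun i => ?_, fun i hi => ?_, fun e2 e3 e4 h2 h3 h4 => ?_⟩
  · rw [fld_and]
    exact Nat.and_le_right.trans (fld_boxC_le hL m49_lt le_rfl le_rfl _)
  · rw [fld_and, h.out i hi, Nat.zero_and]
  · rw [fld_and, full, fld_boxC_in hL m49_lt h2 h3 h4, Nat.and_two_pow_sub_one_eq_mod]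
    exact (mod_modEq _ hp).trans (h.val _ _ _ h2 h3 h4)

theorem RepB.neg (hL : L.Ok) (hp : p ≤ 49) (h' : Rep L p B' Y ψ) (hB' : B' ≤ 2 ^ 54) :
    Rep L p (2 ^ 54) (cst L - Y) (fun e2 e3 e4 => - ψ e2 e3 e4) := by
  have h54 : 2 ^ 54 < 2 ^ 57 := by norm_num
  have hf := fld_sub (X := cst L) (Y := Y) fun i => by
    by_cases hi : L.inb i
    · obtain ⟨e2, e3, e4, h2, h3, h4, rfl⟩ := hi
      rw [cst, fld_boxC_in hL h54 h2 h3 h4]
      exact (h'.bd _).trans hB'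
    · rw [h'.out i hi]; exact Nat.zero_le _
  refine ⟨fun i => ?_, fun i hi => ?_, fun e2 e3 e4 h2 h3 h4 => ?_⟩
  · rw [hf]; exact (Nat.sub_le _ _).trans (fld_boxC_le hL h54 le_rfl le_rfl _)
  · rw [hf, cst, fld_boxC_out hL h54 hi, Nat.zero_sub]
  · rw [hf, cst, fld_boxC_in hL h54 h2 h3 h4, Nat.cast_sub ((h'.bd _).trans hB'), ← zero_sub,
      Nat.cast_pow, Nat.cast_ofNat]
    exact (Int.modEq_zero_iff_dvd.2 (pow_dvd_pow _ (by omega))).sub (h'.val _ _ _ h2 h3 h4)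

theorem RepB.sub_zero (h : Rep L p B X φ) (h' : Rep L p B' 0 ψ) :
    Rep L p B X (fun e2 e3 e4 => φ e2 e3 e4 - ψ e2 e3 e4) := by
  refine ⟨h.bd, h.out, fun e2 e3 e4 h2 h3 h4 => ?_⟩
  have := (h.val _ _ _ h2 h3 h4).sub (h'.val _ _ _ h2 h3 h4)
  rwa [fld_zero, Nat.cast_zero, _root_.sub_zero] at this

theorem Rep.cmb (hL : L.Ok) (hp : p ≤ 49) (h : Rep L p B X φ) (h' : Rep L p B' Y ψ)
    (hB' : B' ≤ 2 ^ 54) (hB : B + 2 ^ 54 < 2 ^ 57) :
    Rep L p (B + 2 ^ 54) (cmb (cst L) X Y) (fun e2 e3 e4 => φ e2 e3 e4 - ψ e2 e3 e4) := by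
  rw [Alg.cmb]
  cases hY : Nat.beq Y 0
  · exact (h.add (RepB.neg hL hp h' hB') hB).congr fun _ _ _ _ _ _ => (sub_eq_add_neg _ _).symm
  · obtain rfl := Nat.eq_of_beq_eq_true hY
    exact (RepB.sub_zero h h').mono (Nat.le_add_right _ _)

theorem Rep.sub (hL : L.Ok) (hp : p ≤ 49) (h : Rep L p (2 ^ 49 - 1) X φ)
    (h' : Rep L p (2 ^ 49 - 1) Y ψ) :
    Rep L p (2 ^ 49 - 1) (sub (full L) (cst L) X Y) (fun e2 e3 e4 => φ e2 e3 e4 - ψ e2 e3 e4) := by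
  rw [Alg.sub]
  cases hY : Nat.beq Y 0
  · exact ((h.add (RepB.neg hL hp h' (by norm_num)) (by norm_num)).and_full hL hp).congr
      fun _ _ _ _ _ _ => (sub_eq_add_neg _ _).symm
  · obtain rfl := Nat.eq_of_beq_eq_true hY
    exact RepB.sub_zero h h'

theorem Rep.sh2 (hL : L.Ok) (hp : p ≤ 49) (h : Rep L p B X φ) (i : ℕ) :
    Rep L p (2 ^ 49 - 1) (sh (msk L i).m2 (i * L.c2) X)
      (fun e2 e3 e4 => if i ≤ e2 then φ (e2 - i) e3 e4 else 0) := by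
  have := sh_gen hL hp h i 0 0
  rw [show L.idx i 0 0 = i * L.c2 by simp [Lay.idx, mul_comm]] at this
  exact this.congr fun _ _ _ _ _ _ => by simp

theorem Rep.sh3 (hL : L.Ok) (hp : p ≤ 49) (h : Rep L p B X φ) (i : ℕ) :
    Rep L p (2 ^ 49 - 1) (sh (msk L i).m3 (i * L.c3) X)
      (fun e2 e3 e4 => if i ≤ e3 then φ e2 (e3 - i) e4 else 0) := by
  have := sh_gen hL hp h 0 i 0
  rw [show L.idx 0 i 0 = i * L.c3 by simp [Lay.idx, mul_comm]] at this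
  exact this.congr fun _ _ _ _ _ _ => by simp

theorem Rep.sh4 (hL : L.Ok) (hp : p ≤ 49) (h : Rep L p B X φ) (i : ℕ) :
    Rep L p (2 ^ 49 - 1) (sh (msk L i).m4 (i * L.c4) X)
      (fun e2 e3 e4 => if i ≤ e4 then φ e2 e3 (e4 - i) else 0) := by
  have := sh_gen hL hp h 0 0 i
  rw [show L.idx 0 0 i = i * L.c4 by simp [Lay.idx, mul_comm]] at this
  exact this.congr fun _ _ _ _ _ _ => by simp

/-- division by `k = 2^v u`, `u` odd, checked on a certificate `Z` -/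
theorem Rep.of_chk (hL : L.Ok) (hp : p ≤ 49) {k v Z : ℕ} (hk : k ≤ 64) (hv : k % 2 ^ v = 0)
    (hodd : k / 2 ^ v % 2 = 1) (h : Rep L p B X (fun e2 e3 e4 => k * φ e2 e3 e4))
    (h1 : (k * Z) &&& boxC L (2 ^ p - 1) L.n2 L.n3 L.n4 = X &&& boxC L (2 ^ p - 1) L.n2 L.n3 L.n4)
    (h2 : Z &&& full L = Z) : Rep L (p - v) (2 ^ 49 - 1) Z φ := by
  have hbd : ∀ i, fld Z i ≤ 2 ^ 49 - 1 := fun i => by
    rw [← h2, fld_and]
    exact Nat.and_le_right.trans (fld_boxC_le hL m49_lt le_rfl le_rfl _)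
  refine ⟨hbd, fun i hi => ?_, fun e2 e3 e4 g2 g3 g4 => ?_⟩
  · rw [← h2, fld_and, full, fld_boxC_out hL m49_lt hi, Nat.and_zero]
  · have hpl : 2 ^ p - 1 < 2 ^ 57 :=
      (Nat.sub_le_sub_right (Nat.pow_le_pow_right two_pos hp) 1).trans_lt m49_lt
    have e := congrArg (fun W => fld W (L.idx e2 e3 e4)) h1
    simp only [fld_and, fld_boxC_in hL hpl g2 g3 g4, Nat.and_two_pow_sub_one_eq_mod] at e
    rw [fld_mul fun i => (Nat.mul_le_mul hk (hbd i)).trans_lt (by norm_num)] at e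
    have e' : ((k * fld Z (L.idx e2 e3 e4) : ℕ) : ℤ) ≡ k * φ e2 e3 e4 [ZMOD 2 ^ p] :=
      (mod_modEq _ le_rfl).symm.trans
        (e ▸ (mod_modEq _ le_rfl).trans (h.val _ _ _ g2 g3 g4))
    rcases le_total p v with hpv | hpv
    · rw [Nat.sub_eq_zero_of_le hpv, pow_zero]; exact Int.modEq_one
    obtain ⟨u, rfl⟩ := Nat.dvd_of_mod_eq_zero hv
    rw [Nat.mul_div_cancel_left _ (Nat.two_pow_pos v)] at hodd
    obtain ⟨q, rfl⟩ := Nat.exists_eq_add_of_le hpv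
    rw [Nat.add_sub_cancel_left]
    have hd := e'.dvd
    push_cast at hd
    rw [← mul_sub, mul_assoc, pow_add, mul_dvd_mul_iff_left (by positivity)] at hd
    have hco : IsCoprime ((2 : ℤ) ^ q) u := by
      have : Nat.Coprime (2 ^ q) u :=
        Nat.Coprime.pow_left _ (Nat.odd_iff.2 hodd).coprime_two_left
      exact_mod_cast Nat.isCoprime_iff_coprime.2 this
    exact Int.modEq_iff_dvd.2 (hco.dvd_of_dvd_mul_left hd)

theorem RepB.length_pass (m k t : ℕ) (U : List ℕ) : (pass m k t U).length = U.length := by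
  induction U generalizing t with
  | nil => rfl
  | cons x xs ih => rw [pass, List.length_cons, ih, List.length_cons]

theorem RepB.length_passL (n i m k : ℕ) (U : List ℕ) : (passL n i m k U).length = U.length := by
  cases U with
  | nil => rfl
  | cons x xs =>
    rw [passL]
    cases Nat.ble n i
    · simp [length_pass]
    · rfl

theorem length_dp (L : Lay) (M : Msk) (U : List ℕ) : (dp L M U).length = U.length := by
  rw [dp, length_passL, length_passL, length_passL]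

theorem RepB.sl_succ (D i j a b : ℕ) (v : Fin 6) (S : List (Fin 6)) (Q : MvPolynomial (Fin 6) ℤ)
    (e2 e3 e4 : ℕ) : sl (D + i * (j + 1)) (hpart i (v :: S) (j + 1) * Q) a b e2 e3 e4 =
      sl (D + i * (j + 1)) (hpart i S (j + 1) * Q) a b e2 e3 e4 +
        sl (D + i * j + i) (MvPolynomial.X v ^ i * (hpart i (v :: S) j * Q)) a b e2 e3 e4 := by
  rw [hpart, add_mul, mul_assoc, mul_add i, mul_one, add_assoc]
  exact deh_add ..

theorem RepB.pass_spec {m k D i a b : ℕ} {v : Fin 6} {S : List (Fin 6)}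
    {Q : MvPolynomial (Fin 6) ℤ} (hB : B + 2 ^ 49 < 2 ^ 57)
    (hsh : ∀ B0 W D' P, Rep L p B0 W (sl D' P a b) →
      Rep L p (2 ^ 49 - 1) (sh m k W) (sl (D' + i) (MvPolynomial.X v ^ i * P) a b))
    (U : List ℕ) (j t B0 : ℕ) (ht : Rep L p B0 t (sl (D + i * j) (hpart i (v :: S) j * Q) a b))
    (hU : ∀ r, r < U.length →
      Rep L p B (nth U r) (sl (D + i * (j + r + 1)) (hpart i S (j + r + 1) * Q) a b)) :
    ∀ r, r < U.length → Rep L p (B + 2 ^ 49) (nth (pass m k t U) r)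
      (sl (D + i * (j + r + 1)) (hpart i (v :: S) (j + r + 1) * Q) a b) := by
  induction U generalizing j t B0 with
  | nil => intro r hr; exact absurd hr (Nat.not_lt_zero _)
  | cons x xs ih =>
    have h0 : Rep L p (B + 2 ^ 49) (x + sh m k t)
        (sl (D + i * (j + 1)) (hpart i (v :: S) (j + 1) * Q) a b) :=
      (((hU 0 (Nat.succ_pos _)).add (hsh _ _ _ _ ht) (by omega)).mono (by omega)).congr
        fun _ _ _ _ _ _ => (sl_succ ..).symm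
    intro r hr
    cases r with
    | zero => exact h0
    | succ r =>
      have := ih (j + 1) _ _ h0 (fun r hr => by
        have := hU (r + 1) (Nat.succ_lt_succ hr)
        rwa [show j + (r + 1) + 1 = j + 1 + r + 1 by ring] at this) r (Nat.lt_of_succ_lt_succ hr)
      rwa [show j + 1 + r + 1 = j + (r + 1) + 1 by ring] at this

theorem RepB.passL_spec {n m k D i a b : ℕ} {v : Fin 6} {S : List (Fin 6)}
    {Q : MvPolynomial (Fin 6) ℤ} {U : List ℕ} (hB : B + 2 ^ 49 < 2 ^ 57)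
    (hsh : ∀ B0 W D' P, Rep L p B0 W (sl D' P a b) →
      Rep L p (2 ^ 49 - 1) (sh m k W) (sl (D' + i) (MvPolynomial.X v ^ i * P) a b))
    (hz : n ≤ i → ∀ D' P e2 e3 e4, e2 < L.n2 → e3 < L.n3 → e4 < L.n4 →
      sl (D' + i) (MvPolynomial.X v ^ i * P) a b e2 e3 e4 = 0)
    (h : RepL L p B U D i (fun j => hpart i S j * Q) a b) :
    RepL L p (B + 2 ^ 49) (passL n i m k U) D i (fun j => hpart i (v :: S) j * Q) a b := by
  intro r hr
  rw [length_passL] at hr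
  cases U with
  | nil => exact absurd hr (Nat.not_lt_zero _)
  | cons x xs =>
    have h0 : Rep L p B x (sl (D + i * 0) (hpart i (v :: S) 0 * Q) a b) := by
      rw [hpart]; exact h 0 (Nat.succ_pos _)
    rw [passL]
    cases hn : Nat.ble n i
    · cases r with
      | zero => exact h0.mono (Nat.le_add_right _ _)
      | succ r =>
        have := pass_spec hB hsh xs 0 x B h0 (fun r hr => by
          rw [zero_add]; exact h (r + 1) (Nat.succ_lt_succ hr)) r (Nat.lt_of_succ_lt_succ hr)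
        rw [zero_add] at this
        exact this
    · cases r with
      | zero => exact h0.mono (Nat.le_add_right _ _)
      | succ r =>
        refine ((h (r + 1) hr).mono (Nat.le_add_right _ _)).congr fun e2 e3 e4 h2 h3 h4 => ?_
        simp only
        rw [sl_succ, hz (Nat.le_of_ble_eq_true hn) _ _ _ _ _ h2 h3 h4, add_zero]

/-- the three passes multiply by the complete symmetric functions in `x_2, x_3, x_4` -/
theorem dp_spec (hL : L.Ok) (hp : p ≤ 49) {U : List ℕ} {D i a b : ℕ} {S : List (Fin 6)}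
    {Q : MvPolynomial (Fin 6) ℤ} (hB : B + 3 * 2 ^ 49 < 2 ^ 57)
    (h : RepL L p B U D i (fun j => hpart i S j * Q) a b) :
    RepL L p (B + 3 * 2 ^ 49) (dp L (msk L i) U) D i (fun j => hpart i (3 :: 2 :: 1 :: S) j * Q) a b := by
  have e : B + 3 * 2 ^ 49 = B + 2 ^ 49 + 2 ^ 49 + 2 ^ 49 := by
    generalize 2 ^ 49 = c
    ring
  rw [e] at hB ⊢
  have hB2 := (Nat.le_add_right _ _).trans_lt hB
  have hB1 := (Nat.le_add_right _ _).trans_lt hB2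
  have h1 := passL_spec (n := L.n2) (m := (msk L i).m2) (k := i * L.c2) (v := 1) hB1
    (fun _ _ _ _ hW => (hW.sh2 hL hp i).congr fun _ _ _ _ _ _ => (deh_X1 ..).symm)
    (fun hn _ _ _ _ _ h2 _ _ => (deh_X1 ..).trans (if_neg (by omega))) h
  have h2 := passL_spec (n := L.n3) (m := (msk L i).m3) (k := i * L.c3) (v := 2) hB2
    (fun _ _ _ _ hW => (hW.sh3 hL hp i).congr fun _ _ _ _ _ _ => (deh_X2 ..).symm)
    (fun hn _ _ _ _ _ _ h2 _ => (deh_X2 ..).trans (if_neg (by omega))) h1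
  have h3 := passL_spec (n := L.n4) (m := (msk L i).m4) (k := i * L.c4) (v := 3) hB
    (fun _ _ _ _ hW => (hW.sh4 hL hp i).congr fun _ _ _ _ _ _ => (deh_X3 ..).symm)
    (fun hn _ _ _ _ _ _ _ h2 => (deh_X3 ..).trans (if_neg (by omega))) h2
  exact h3

end Crest.Agent.R187.Alg
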