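import Crest.Agent.R187.Alg2
import Crest.Agent.R187.PieriDP

set_option autoImplicit false
open MvPolynomial

namespace Crest.Agent.R187.Alg
open Crest.Agent.R187


/-! Specifications for the bit-parallel algorithms. -/

def Lay.idx (L : Lay) (e2 e3 e4 : ℕ) : ℕ := L.c2 * e2 + L.c3 * e3 + L.c4 * e4

structure Lay.Ok (L : Lay) : Prop where
  h2 : 1 ≤ L.c2
  h3 : L.c2 * L.n2 ≤ L.c3
  h4 : L.c3 * L.n3 ≤ L.c4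

def Lay.inb (L : Lay) (i : ℕ) : Prop :=
  ∃ e2 e3 e4, e2 < L.n2 ∧ e3 < L.n3 ∧ e4 < L.n4 ∧ i = L.idx e2 e3 e4

/-- `X` packs the table `φ` modulo `2^p`, with all fields at most `B` -/
structure Rep (L : Lay) (p B X : ℕ) (φ : ℕ → ℕ → ℕ → ℤ) : Prop where
  bd : ∀ i, fld X i ≤ B
  out : ∀ i, ¬ L.inb i → fld X i = 0
  val : ∀ e2 e3 e4, e2 < L.n2 → e3 < L.n3 → e4 < L.n4 →
    (fld X (L.idx e2 e3 e4) : ℤ) ≡ φ e2 e3 e4 [ZMOD 2 ^ p]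

/-- the slice `(e5, e6) = (a, b)` of the coefficients of `P` in degree `D` -/
noncomputable def sl (D : ℕ) (P : MvPolynomial (Fin 6) ℤ) (a b : ℕ) : ℕ → ℕ → ℕ → ℤ :=
  fun e2 e3 e4 => deh D P e2 e3 e4 a b

/-- a list of slices of the polynomials `P j` of degrees `D + i j` -/
def RepL (L : Lay) (p B : ℕ) (U : List ℕ) (D i : ℕ) (P : ℕ → MvPolynomial (Fin 6) ℤ) (a b : ℕ) : Prop :=
  ∀ j, j < U.length → Rep L p B (nth U j) (sl (D + i * j) (P j) a b)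

/-- tables with the slices `b < a` only -/
def RepQ (L : Lay) (p M5 M6 : ℕ) (Q : List (List ℕ)) (D : ℕ) (P : MvPolynomial (Fin 6) ℤ) : Prop :=
  ∀ a b, b < a → a ≤ M5 → b ≤ M6 → Rep L p (2 ^ 49 - 1) (get Q a b) (sl D P a b)

/-- tables with all slices -/
def RepG (L : Lay) (M5 M6 : ℕ) (G : List (List ℕ)) (D : ℕ) (P : MvPolynomial (Fin 6) ℤ) : Prop :=
  ∀ a b, a ≤ M5 → b ≤ M6 → Rep L 49 (2 ^ 49 - 1) (get G a b) (sl D P a b)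

/-- the list `Qs` represents `Δ h_{k-1}[h_6], …, Δ h_0[h_6]` -/
def RepQs (L : Lay) (p M5 M6 : ℕ) : List (List (List ℕ)) → ℕ → Prop
  | [], k => k = 0
  | Q :: Qs, k => ∃ j, k = j + 1 ∧ RepQ L p M5 M6 Q (15 + 6 * j) (Del 6 * HH 6 j 6) ∧ RepQs L p M5 M6 Qs j

/-- one slice of a table on the Weyl chamber, in the coordinates `u = e - (σ + 1)` -/
structure RepS (c3 n3 D X σ : ℕ) (q : ℕ → ℕ → ℕ → ℕ → ℤ) : Prop where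
  bd : ∀ i, fld X i ≤ 2 ^ 49 - 1
  val : ∀ u2 u3 u4, u2 < c3 → u3 < n3 →
    (fld X (u2 + c3 * u3 + c3 * n3 * u4) : ℤ) ≡
      chm D q (u2 + σ + 1) (u3 + σ + 1) (u4 + σ + 1) σ [ZMOD 2 ^ 49]

def RepC (c3 n3 D : ℕ) (X : List ℕ) (q : ℕ → ℕ → ℕ → ℕ → ℤ) : Prop :=
  ∀ σ, RepS c3 n3 D (nth X σ) σ q

/-- `M` is the mask of the chamber `{u4 < u3 < u2, 2 u2 + u3 + u4 < s}` -/
def IsCh (c3 n3 s M : ℕ) : Prop :=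
  ∀ u2 u3 u4, u2 < c3 → u3 < n3 → fld M (u2 + c3 * u3 + c3 * n3 * u4) =
    if u4 < u3 ∧ u3 < u2 ∧ 2 * u2 + u3 + u4 < s then 2 ^ 49 - 1 else 0

noncomputable def qOf (D : ℕ) (F : MvPolynomial (Fin 6) ℤ) : ℕ → ℕ → ℕ → ℕ → ℤ :=
  fun e2 e3 e4 e5 => deh D (Del 6 * F) e2 e3 e4 e5 0

noncomputable def PYE (b : ℕ) : MvPolynomial (Fin 6) ℤ :=
  hp 6 b 1 ^ 4 + 40 * (hp 6 b 1 * hp 6 b 3) + 45 * hp 6 b 2 ^ 2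
noncomputable def PYO (b : ℕ) : MvPolynomial (Fin 6) ℤ :=
  15 * (hp 6 b 1 ^ 2 * hp 6 b 2) + 90 * hp 6 b 4
noncomputable def PZE (b : ℕ) : MvPolynomial (Fin 6) ℤ := 144 * hp 6 b 5
noncomputable def PZO (b : ℕ) : MvPolynomial (Fin 6) ℤ := 120 * (hp 6 b 2 * hp 6 b 3)
noncomputable def PWE (b : ℕ) : MvPolynomial (Fin 6) ℤ :=
  90 * (hp 6 b 2 * hp 6 b 4) + 40 * hp 6 b 3 ^ 2
noncomputable def PWO (b : ℕ) : MvPolynomial (Fin 6) ℤ := 15 * hp 6 b 2 ^ 3 + 120 * hp 6 b 6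
noncomputable def PXE (b : ℕ) : MvPolynomial (Fin 6) ℤ := hp 6 b 1 * PYE b + PZE b
noncomputable def PXO (b : ℕ) : MvPolynomial (Fin 6) ℤ := hp 6 b 1 * PYO b + PZO b
noncomputable def PAE (b : ℕ) : MvPolynomial (Fin 6) ℤ := hp 6 b 1 * PXE b + PWE b
noncomputable def PAO (b : ℕ) : MvPolynomial (Fin 6) ℤ := hp 6 b 1 * PXO b + PWO b

noncomputable def muOf (c m4 m5 m6 v2 v3 : ℕ) : Fin 6 →₀ ℕ :=
  mk6 (6 * c - ((v2 + m4 - 2) + (v3 + m4 - 1) + m4 + m5 + m6)) (v2 + m4 - 2) (v3 + m4 - 1) m4 m5 m6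

structure LeafOk (f : Leaf) : Prop where
  bd : ∀ i, fld f.g i < 2 ^ 56
  val : ∀ v2 v3, v2 < 78 → 0 < fld f.g (v2 + 78 * v3) →
    1 ≤ v3 ∧ v3 < v2 ∧ f.m6 ≤ f.m5 ∧ f.m5 ≤ f.m4 ∧
    2 * (v2 + f.m4 - 2) + (v3 + f.m4 - 1) + f.m4 + f.m5 + f.m6 ≤ 6 * f.c ∧
    (fld f.g (v2 + 78 * v3) : ℤ) ≤ 720 * mult (HH 6 f.c 6) (muOf f.c f.m4 f.m5 f.m6 v2 v3)

def TrOk (T : Tr) : Prop := ∀ p, LeafOk (T.look p)

def NLeafOk (ν : NLeaf) : Prop :=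
  ∃ l : Fin 6 →₀ ℕ, Antitone l ∧ ∑ i, l i = 6 * ν.e ∧ 0 < mult (HH 6 ν.e 6) l ∧
    l 1 = ν.n4 + ν.d2 ∧ l 2 = ν.n4 + ν.d3 ∧ l 3 = ν.n4 ∧ l 4 = ν.n5 ∧ l 5 = ν.n6

def NuOk (N : Nu) : Prop := ∀ p, NLeafOk (N.look p)

/-- the rectangles `(6^k)` occur in `h_k[h_6]` -/
structure RectOk : Prop where
  r1 : 0 < mult (HH 6 1 6) (mk6 6 0 0 0 0 0)
  r2 : 0 < mult (HH 6 2 6) (mk6 6 6 0 0 0 0)
  r3 : 0 < mult (HH 6 3 6) (mk6 6 6 6 0 0 0)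
  r4 : 0 < mult (HH 6 4 6) (mk6 6 6 6 6 0 0)
  r5 : 0 < mult (HH 6 5 6) (mk6 6 6 6 6 6 0)
  r6 : 0 < mult (HH 6 6 6) (mk6 6 6 6 6 6 6)

/-- Foulkes' inequality for the partitions with `B - l_6 = b` and `l_5 - l_6 + 1 ∈ [σ0, σ0 + n)` -/
def Done (b σ0 n : ℕ) : Prop :=
  ∀ (B : ℕ) (l : Fin 6 →₀ ℕ), 7 ≤ B → B ≤ 24 → Antitone l → ∑ i, l i = 6 * B →
    (12 ≤ B → l 5 ≤ 5) → B = b + l 5 → σ0 ≤ l 4 - l 5 + 1 → l 4 - l 5 + 1 < σ0 + n →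
    mult (HH 6 6 B) l ≤ mult (HH 6 B 6) l

end Crest.Agent.R187.Alg
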