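import Crest.Agent.R187.Alg2
import Lean.Elab.Tactic.Basic
import Lean.Elab.Tactic.ElabTerm
import Lean.Elab.ElabRules

/-! Row 187: tactics that write down the (large) tables as terms made of numerals. The tables are
only candidates: each one is verified afterwards by the kernel. -/

set_option autoImplicit false

namespace Crest.Agent.R187.Alg

def eqLL : List (List Nat) → List (List Nat) → Bool
  | [], [] => true
  | x :: xs, y :: ys => eqL x y && eqLL xs ys
  | _, _ => false

/-- equality of two lists on a range of positions -/
def eqR (X Y : List Nat) (lo n : Nat) : Bool := allFrom (fun σ => Nat.beq (nth X σ) (nth Y σ)) lo n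

def lay (n2 n3 n4 : Nat) : Lay := ⟨1, n2, n2 * n3, n2, n3, n4⟩

end Crest.Agent.R187.Alg

namespace Crest.Agent.R187.Tac
open Crest.Agent.R187.Alg

def lit (n : Nat) : Lean.Expr := Lean.mkRawNatLit n
def natT : Lean.Expr := Lean.mkConst ``Nat
def addE (a b : Lean.Expr) : Lean.Expr := Lean.mkApp2 (Lean.mkConst ``Nat.add) a b
def shlE (a : Lean.Expr) (s : Nat) : Lean.Expr :=
  if s = 0 then a else Lean.mkApp2 (Lean.mkConst ``Nat.shiftLeft) a (lit s)

def tz (x : Nat) : Nat := (x - (x &&& (x - 1))).log2

partial def rowsE (w x n : Nat) : Option (Lean.Expr × Nat) :=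
  if x = 0 then none
  else if n ≤ 1 then
    let t := tz x
    some (lit (x >>> t), t)
  else
    let h := n / 2
    let hi := x >>> (w * h)
    let lo := x - (hi <<< (w * h))
    match rowsE w lo h, rowsE w hi (n - h) with
    | none, none => none
    | some a, none => some a
    | none, some (e, s) => some (e, s + w * h)
    | some (e1, s1), some (e2, s2) => some (addE e1 (shlE e2 (s2 + w * h - s1)), s1)

/-- a term for the number `x`, cut in pieces of `r` fields -/
def natE (r x : Nat) : Lean.Expr :=
  match rowsE (57 * r) x (x.log2 / (57 * r) + 1) with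
  | none => lit 0
  | some (e, s) => shlE e s

def listE (ty : Lean.Expr) (l : List Lean.Expr) : Lean.Expr :=
  l.foldr (fun a t => Lean.mkApp3 (Lean.mkConst ``List.cons [Lean.Level.zero]) ty a t)
    (Lean.mkApp (Lean.mkConst ``List.nil [Lean.Level.zero]) ty)

def listT (ty : Lean.Expr) : Lean.Expr := Lean.mkApp (Lean.mkConst ``List [Lean.Level.zero]) ty

def natsE (r : Nat) (l : List Nat) : Lean.Expr := listE natT (l.map (natE r))
def tabE (r : Nat) (l : List (List Nat)) : Lean.Expr := listE (listT natT) (l.map (natsE r))

def valOf (n : Lean.Name) : Lean.Meta.MetaM Lean.Expr := do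
  match (← Lean.getConstInfo n).value? with
  | some v => pure v
  | none => throwError "no value"

partial def evN (e : Lean.Expr) : Lean.Meta.MetaM Nat :=
  match e with
  | .lit (.natVal v) => pure v
  | .app (.app (.const n _) a) b => do
    let x ← evN a
    let y ← evN b
    if n == ``Nat.add then pure (x + y) else if n == ``Nat.shiftLeft then pure (x <<< y)
    else throwError "unexpected term"
  | .mdata _ a => evN a
  | .const n _ => do evN (← valOf n)
  | _ => throwError "unexpected term"

partial def evL {α : Type} (f : Lean.Expr → Lean.Meta.MetaM α) (e : Lean.Expr) :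
    Lean.Meta.MetaM (List α) :=
  match e with
  | .app (.app (.app _ _) a) t => do
    let x ← f a
    let xs ← evL f t
    pure (x :: xs)
  | .app (.const _ _) _ => pure []
  | .mdata _ a => evL f a
  | .const n _ => do evL f (← valOf n)
  | _ => throwError "unexpected term"

def cst' (i : Lean.Ident) : Lean.Elab.Tactic.TacticM Lean.Expr := do
  pure (Lean.mkConst (← Lean.Elab.realizeGlobalConstNoOverloadWithInfo i))

def put (e : Lean.Expr) : Lean.Elab.Tactic.TacticM Unit := do
  (← Lean.Elab.Tactic.getMainGoal).assign e
  Lean.Elab.Tactic.replaceMainGoal []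

/-! ### Newton steps -/

def val2 (k : Nat) : Nat := tz k

/-- inverse of an odd number modulo `2^64` -/
def inv64 (u : Nat) : Nat :=
  (List.range 7).foldl (fun x _ => (x * (2 ^ 70 + 2 - (u * x) % 2 ^ 64)) % 2 ^ 64) 1

def divK (L : Lay) (q v inv : Nat) (ms : List Nat) (S : Nat) : Nat :=
  let T := S >>> v
  let _ := L
  ((List.range 7).foldl (fun acc j =>
    if 8 * j < q then
      let m := nth ms j
      acc + ((((T &&& m) * ((inv >>> (8 * j)) % 256)) &&& m) <<< (8 * j))
    else acc) 0) &&& nth ms 0

def newtonTab (L : Lay) (p k : Nat) (Qs : List (List (List Nat))) (m5 m6 : Nat) : List (List Nat) :=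
  let F := full L
  let C := cst L
  let Mp := boxC L (2 ^ p - 1) L.n2 L.n3 L.n4
  let Ms := msks L k
  let v := val2 k
  let q := p - v
  let inv := inv64 (k >>> v)
  let ms := (List.range 7).map fun j => boxC L (2 ^ (q - 8 * j) - 1) L.n2 L.n3 L.n4
  tab2 m5 m6 fun a b => if b < a then divK L q v inv ms (newtonSum L F C a b Ms Qs &&& Mp) else 0

elab "r187_del" n2:num n3:num n4:num m5:num m6:num r:num : tactic => do
  put (tabE r.getNat (delTab (lay n2.getNat n3.getNat n4.getNat) m5.getNat m6.getNat))

elab "r187_newton" n2:num n3:num n4:num p:num k:num qs:ident m5:num m6:num r:num : tactic => do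
  let Qs ← evL (evL (evL evN)) (← cst' qs)
  put (tabE r.getNat
    (newtonTab (lay n2.getNat n3.getNat n4.getNat) p.getNat k.getNat Qs m5.getNat m6.getNat))

/-! ### trees -/

def nums (s : String) : List Nat := ((s.splitOn " ").filter (· ≠ "")).map String.toNat!

partial def treeE (node : Lean.Name) (a : Array Lean.Expr) (lo n : Nat) : Lean.Expr :=
  if n ≤ 1 then a[lo]! else
    Lean.mkApp2 (Lean.mkConst node) (treeE node a lo (n / 2)) (treeE node a (lo + n / 2) (n - n / 2))

elab "r187_tr" n2:num n3:num n4:num p:num k:num q:ident s:str : tactic => do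
  let Q ← evL (evL evN) (← cst' q)
  let L := lay n2.getNat n3.getNat n4.getNat
  let ones := onesL p.getNat
  let a := ((s.getString.splitOn ",").map fun t =>
    match nums t with
    | [m4, m5, m6] => Lean.mkAppN (Lean.mkConst ``Tr.leaf)
        #[lit k.getNat, lit m4, lit m5, lit m6, natE 78 (fPlane L ones Q k.getNat m4 m5 m6)]
    | _ => lit 0).toArray
  put (treeE ``Tr.node a 0 a.size)

elab "r187_nu" s:str : tactic => do
  let a := ((s.getString.splitOn ",").map fun t =>
    Lean.mkAppN (Lean.mkConst ``Nu.leaf) ((nums t).map lit).toArray).toArray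
  put (treeE ``Nu.node a 0 a.size)

/-! ### tables in five rows -/

elab "r187_tab" n:num b:num : tactic => do
  let b := b.getNat
  let l := match n.getNat with
    | 0 => yEc b
    | 1 => yOc b
    | 4 => wEc b
    | _ => wOc b
  put (natsE 78 l)

elab "r187_x1" n:num b:num y:ident : tactic => do
  let Y ← evL evN (← cst' y)
  let b := b.getNat
  put (natsE 78 (x1 b Y (if n.getNat = 2 then zEc b else zOc b)))

elab "r187_cert" s:str : tactic => do
  let t1 := listT natT
  let t2 := listT t1
  let t3 := listT t2
  put (listE t3 ((s.getString.splitOn ";").map fun a =>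
    listE t2 ((a.splitOn "|").map fun b =>
      listE t1 ((b.splitOn ",").map fun c => listE natT ((nums c).map lit)))))

end Crest.Agent.R187.Tac
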